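import Vale.Agent.P205.BeltramiNonvanishing

/-!
Isothermal coordinates on the universal cover: the Beltrami equation of a metric.
-/

namespace Vale.Agent.P205

noncomputable section

theorem apply_q (q : Fin 3) : q = 0 ∨ q = 1 ∨ q = 2 := by fin_cases q <;> simp

/-- A periodic positive definite metric is conformal to the pullback of the flat one by
`X ↦ L X + ψ X` with `ψ` periodic. -/
theorem exists_beltrami (g : Fin 3 → S) (h0 : ∀ X, 0 < (g 0).1 X)
    (hd : ∀ X, (g 1).1 X ^ 2 < (g 0).1 X * (g 2).1 X) :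
    ∃ (L : Fin 2 → Fin 2 → ℝ) (ψ : Fin 2 → S) (lam : S), (∀ X, 0 < lam.1 X) ∧
      (∀ q, lam * g q = ∑ p, (cst (L p (q1 q)) + pd (q1 q) (ψ p))
        * (cst (L p (q2 q)) + pd (q2 q) (ψ p))) ∧
      ∀ X, 0 < (((cst (L 0 0) + pd 0 (ψ 0)) * (cst (L 1 1) + pd 1 (ψ 1))
        - (cst (L 0 1) + pd 1 (ψ 0)) * (cst (L 1 0) + pd 0 (ψ 1)) : S)).1 X := by
  set Δ : ℝ × ℝ → ℝ := fun X => (g 0).1 X * (g 2).1 X - (g 1).1 X * (g 1).1 X
  have hΔ : ∀ X, 0 < Δ X := fun X => by have := hd X; simp only [Δ]; nlinarith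
  have hG : ∀ X, 0 < (g 2).1 X := fun X => by
    have := hΔ X; have := h0 X; simp only [Δ] at *; nlinarith [sq_nonneg ((g 1).1 X)]
  set T : ℝ × ℝ → ℝ := fun X => (g 0).1 X + (g 2).1 X + 2 * Real.sqrt (Δ X) with hT
  have hTpos : ∀ X, 0 < T X := fun X => by
    have := h0 X; have := hG X; simp only [T]; positivity
  have hTs : ContDiff ℝ (⊤ : ℕ∞) T :=
    ((g 0).smooth.add (g 2).smooth).add (contDiff_const.mul
      ((((g 0).smooth.mul (g 2).smooth).sub ((g 1).smooth.mul (g 1).smooth)).sqrt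
        fun X => (hΔ X).ne'))
  have hTp : Periodic2 T := fun X m n => by
    simp only [T, Δ, (g 0).periodic X m n, (g 1).periodic X m n, (g 2).periodic X m n]
  set Ti : S := ⟨fun X => (T X)⁻¹, hTs.inv fun X => (hTpos X).ne',
    fun X m n => by simp [hTp X m n]⟩
  set μ : CS := mkC ((g 0 - g 2) * Ti) (cst 2 * g 1 * Ti) with hμdef
  have hre : ∀ X, (μ.1 X).re = ((g 0).1 X - (g 2).1 X) / T X := fun X => by
    show (reS μ).1 X = _
    rw [hμdef, reS_mkC, div_eq_mul_inv]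
    rfl
  have him : ∀ X, (μ.1 X).im = 2 * (g 1).1 X / T X := fun X => by
    show (imS μ).1 X = _
    rw [hμdef, imS_mkC, div_eq_mul_inv]
    rfl
  have hsqrt : ∀ X, Real.sqrt (Δ X) * Real.sqrt (Δ X) = Δ X := fun X =>
    Real.mul_self_sqrt (hΔ X).le
  have hμ1 : ∀ X, Complex.normSq (μ.1 X) < 1 := fun X => by
    rw [Complex.normSq_apply, hre, him, div_mul_div_comm, div_mul_div_comm, ← add_div,
      div_lt_one (mul_pos (hTpos X) (hTpos X))]
    have := hsqrt X; have := h0 X; have := hG X; have := hΔ X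
    simp only [T, Δ] at *
    nlinarith [Real.sqrt_nonneg ((g 0).1 X * (g 2).1 X - (g 1).1 X * (g 1).1 X)]
  obtain ⟨K, hK, hK1, hμK⟩ : ∃ K, 0 ≤ K ∧ K < 1 ∧ ∀ X, ‖μ.1 X‖ ≤ K := by
    obtain ⟨M, hM, hM'⟩ := exists_bound ⟨fun X => (1 - (sq2 μ).1 X)⁻¹,
      (contDiff_const.sub (sq2 μ).smooth).inv
        (fun X => by rw [sq2_apply]; linarith [hμ1 X]),
      fun X m n => by simp [(sq2 μ).periodic X m n]⟩
    refine ⟨Real.sqrt (1 - (M + 1)⁻¹), Real.sqrt_nonneg _, ?_, fun X => ?_⟩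
    · rw [Real.sqrt_lt' one_pos]
      have : 0 < (M + 1)⁻¹ := by positivity
      linarith
    · rw [Complex.norm_def]
      refine Real.sqrt_le_sqrt ?_
      have h := hM' X
      simp only [sq2_apply] at h
      have hp : 0 < 1 - Complex.normSq (μ.1 X) := by linarith [hμ1 X]
      rw [abs_of_pos (inv_pos.2 hp)] at h
      have := inv_anti₀ (inv_pos.2 hp) (h.trans (by linarith : M ≤ M + 1))
      rw [inv_inv] at this
      linarith
  obtain ⟨Q⟩ := exists_cauchy
  obtain ⟨h, hh⟩ := solve_exists Q hK hK1 hμK μ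
  set w := 1 + Q.B h with hw
  have hwne : ∀ X, w.1 X ≠ 0 := one_add_B_ne_zero Q hK hK1 hμK hh
  have hhw : h = μ * w := by rw [hw, mul_add, mul_one]; exact hh
  set c := avgC h with hc
  set φ := Q.D h with hφ
  have hd0 : ∀ X, (1 + c) + (pdC 0 φ).1 X = w.1 X * (1 + μ.1 X) ∧
      (Complex.I - Complex.I * c) + (pdC 1 φ).1 X = Complex.I * w.1 X * (1 - μ.1 X) := fun X => by
    have hz : (dz φ).1 X = w.1 X - 1 := by
      show (Q.B h).1 X = (1 : ℂ) + (Q.B h).1 X - 1
      ring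
    have hzb : (dzb φ).1 X = μ.1 X * w.1 X - c := by
      rw [hφ, Q.dzb_D, ← hc]
      show h.1 X - c * 1 = _
      rw [mul_one]
      conv_lhs => rw [hhw]
      rfl
    have e1 : (dz φ).1 X = 1 / 2 * ((pdC 0 φ).1 X - Complex.I * (pdC 1 φ).1 X) := rfl
    have e2 : (dzb φ).1 X = 1 / 2 * ((pdC 0 φ).1 X + Complex.I * (pdC 1 φ).1 X) := rfl
    rw [hz] at e1
    rw [hzb] at e2
    constructor
    · linear_combination -e1 - e2
    · linear_combination (-Complex.I) * e1 + Complex.I * e2 + (pdC 1 φ).1 X * Complex.I_mul_I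
  have hparts : ∀ i X, ((pdC i φ).1 X).re = (pd i (reS φ)).1 X ∧
      ((pdC i φ).1 X).im = (pd i (imS φ)).1 X := fun i X => by
    constructor
    · show (reS (pdC i φ)).1 X = _
      rw [pdC, reS_liftC]
    · show (imS (pdC i φ)).1 X = _
      rw [pdC, imS_liftC]
  refine ⟨![![1 + c.re, c.im], ![c.im, 1 - c.re]], ![reS φ, imS φ], sq2 w * (cst 4 * Ti),
    fun X => ?_, fun q => S.ext' fun X => ?_, fun X => ?_⟩
  · show 0 < (sq2 w).1 X * (4 * (T X)⁻¹)
    rw [sq2_apply]
    exact mul_pos (Complex.normSq_pos.2 (hwne X)) (mul_pos four_pos (inv_pos.2 (hTpos X)))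
  · obtain ⟨h1, h2⟩ := hd0 X
    have r1 := congrArg Complex.re h1
    have i1 := congrArg Complex.im h1
    have r2 := congrArg Complex.re h2
    have i2 := congrArg Complex.im h2
    simp [Complex.mul_re, Complex.mul_im, hre, him, (hparts _ X).1, (hparts _ X).2]
      at r1 i1 r2 i2
    have hT0 := (hTpos X).ne'
    have hs := hsqrt X
    show (sq2 w).1 X * (4 * (T X)⁻¹) * (g q).1 X = _
    rw [Fin.sum_univ_two, sq2_apply, Complex.normSq_apply]
    rcases apply_q q with rfl | rfl | rfl <;> simp [q1, q2, cst, r1, i1, r2, i2] <;>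
      field_simp <;> simp only [T, Δ] at hs ⊢
    · linear_combination ((w.1 X).re ^ 2 + (w.1 X).im ^ 2) * (-4) * hs
    · ring
    · linear_combination ((w.1 X).re ^ 2 + (w.1 X).im ^ 2) * (-4) * hs
  · obtain ⟨h1, h2⟩ := hd0 X
    have r1 := congrArg Complex.re h1
    have i1 := congrArg Complex.im h1
    have r2 := congrArg Complex.re h2
    have i2 := congrArg Complex.im h2
    simp [Complex.mul_re, Complex.mul_im, (hparts _ X).1, (hparts _ X).2] at r1 i1 r2 i2
    simp [cst, r1, i1, r2, i2]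
    have hp : 0 < 1 - Complex.normSq (μ.1 X) := by linarith [hμ1 X]
    have := mul_pos (Complex.normSq_pos.2 (hwne X)) hp
    rw [Complex.normSq_apply, Complex.normSq_apply] at this
    linarith

end

end Vale.Agent.P205
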