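import Vale.Agent.P205.Norms

/-!
Complex smooth functions on the torus, their Fourier coefficients, and the mean square norm.
-/

namespace Vale.Agent.P205

noncomputable section

open ComplexConjugate

/-- Smooth periodic complex functions. -/
def CSm : Subalgebra ℂ (ℝ × ℝ → ℂ) where
  carrier := {f | ContDiff ℝ (⊤ : ℕ∞) f ∧ Periodic2 f}
  mul_mem' := fun {f g} hf hg => ⟨hf.1.mul hg.1, fun X m n => by simp [hf.2 X m n, hg.2 X m n]⟩
  add_mem' := fun {f g} hf hg => ⟨hf.1.add hg.1, fun X m n => by simp [hf.2 X m n, hg.2 X m n]⟩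
  algebraMap_mem' := fun c => ⟨contDiff_const, fun _ _ _ => rfl⟩

/-- The ring of complex smooth functions on the torus. -/
abbrev CS : Type := ↥CSm

/-- A real function as a complex one. -/
def ofS (f : S) : CS :=
  ⟨fun X => (f.1 X : ℂ), Complex.ofRealCLM.contDiff.comp f.smooth,
    fun X m n => by simp [f.periodic X m n]⟩

/-- Real part. -/
def reS (c : CS) : S :=
  ⟨fun X => (c.1 X).re, Complex.reCLM.contDiff.comp c.2.1,
    fun X m n => by simp [c.2.2 X m n]⟩

/-- Imaginary part. -/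
def imS (c : CS) : S :=
  ⟨fun X => (c.1 X).im, Complex.imCLM.contDiff.comp c.2.1,
    fun X m n => by simp [c.2.2 X m n]⟩

/-- From real and imaginary parts. -/
def mkC (a b : S) : CS := ofS a + Complex.I • ofS b

theorem mkC_apply (a b : S) (X : ℝ × ℝ) :
    (mkC a b).1 X = (a.1 X : ℂ) + Complex.I * (b.1 X : ℂ) := rfl

theorem CS.ext' {c d : CS} (h : ∀ X, c.1 X = d.1 X) : c = d := Subtype.ext (funext h)

theorem S.ext' {c d : S} (h : ∀ X, c.1 X = d.1 X) : c = d := Subtype.ext (funext h)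

@[simp] theorem reS_mkC (a b : S) : reS (mkC a b) = a := S.ext' fun X => by simp [reS, mkC_apply]

@[simp] theorem imS_mkC (a b : S) : imS (mkC a b) = b := S.ext' fun X => by simp [imS, mkC_apply]

theorem mkC_re_im (c : CS) : mkC (reS c) (imS c) = c :=
  CS.ext' fun X => Complex.ext (by simp [mkC_apply, reS, imS]) (by simp [mkC_apply, reS, imS])

theorem reS_add (c d : CS) : reS (c + d) = reS c + reS d := S.ext' fun _ => rfl

theorem imS_add (c d : CS) : imS (c + d) = imS c + imS d := S.ext' fun _ => rfl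

theorem reS_sub (c d : CS) : reS (c - d) = reS c - reS d := S.ext' fun _ => rfl

theorem imS_sub (c d : CS) : imS (c - d) = imS c - imS d := S.ext' fun _ => rfl

theorem reS_smul (z : ℂ) (c : CS) : reS (z • c) = z.re • reS c - z.im • imS c :=
  S.ext' fun X => by
    show (z * c.1 X).re = _
    simp [reS, imS, Complex.mul_re]

theorem imS_smul (z : ℂ) (c : CS) : imS (z • c) = z.re • imS c + z.im • reS c :=
  S.ext' fun X => by
    show (z * c.1 X).im = _
    simp [reS, imS, Complex.mul_im]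

@[simp] theorem reS_ofS (a : S) : reS (ofS a) = a := S.ext' fun _ => Complex.ofReal_re _

@[simp] theorem imS_ofS (a : S) : imS (ofS a) = 0 := S.ext' fun X => Complex.ofReal_im (a.1 X)

/-- A real operator on complex functions. -/
def liftC (L : S →ₗ[ℝ] S) : CS →ₗ[ℂ] CS where
  toFun c := mkC (L (reS c)) (L (imS c))
  map_add' c d := CS.ext' fun X => by
    simp only [reS_add, imS_add, map_add]
    show _ = (mkC _ _).1 X + (mkC _ _).1 X
    simp only [mkC_apply]
    show ((((L (reS c)).1 X + (L (reS d)).1 X : ℝ)) : ℂ)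
      + Complex.I * ((((L (imS c)).1 X + (L (imS d)).1 X : ℝ)) : ℂ) = _
    push_cast; ring
  map_smul' z c := CS.ext' fun X => by
    simp only [reS_smul, imS_smul, map_add, map_sub, map_smul, RingHom.id_apply]
    show _ = z * (mkC _ _).1 X
    simp only [mkC_apply]
    refine Complex.ext ?_ ?_ <;> simp

@[simp] theorem reS_liftC (L : S →ₗ[ℝ] S) (c : CS) : reS (liftC L c) = L (reS c) := reS_mkC _ _

@[simp] theorem imS_liftC (L : S →ₗ[ℝ] S) (c : CS) : imS (liftC L c) = L (imS c) := imS_mkC _ _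

/-- Partial derivatives. -/
def pdC (i : Fin 2) : CS →ₗ[ℂ] CS := liftC (pd i)

theorem pdC_apply (i : Fin 2) (c : CS) (X : ℝ × ℝ) :
    (pdC i c).1 X = fderiv ℝ c.1 X (unitV i) := by
  have hd := c.2.1.differentiable (by simp) X
  refine Complex.ext ?_ ?_
  · show (reS (pdC i c)).1 X = _
    rw [pdC, reS_liftC]
    show fderiv ℝ (Complex.reCLM ∘ c.1) X _ = _
    rw [fderiv_comp X Complex.reCLM.differentiableAt hd, ContinuousLinearMap.fderiv]
    rfl
  · show (imS (pdC i c)).1 X = _
    rw [pdC, imS_liftC]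
    show fderiv ℝ (Complex.imCLM ∘ c.1) X _ = _
    rw [fderiv_comp X Complex.imCLM.differentiableAt hd, ContinuousLinearMap.fderiv]
    rfl

theorem pdC_mul (i : Fin 2) (c d : CS) : pdC i (c * d) = pdC i c * d + c * pdC i d :=
  CS.ext' fun X => by
    show (pdC i (c * d)).1 X = (pdC i c).1 X * d.1 X + c.1 X * (pdC i d).1 X
    rw [pdC_apply, pdC_apply, pdC_apply]
    show fderiv ℝ (c.1 * d.1) X _ = _
    rw [fderiv_mul (c.2.1.differentiable (by simp) X) (d.2.1.differentiable (by simp) X)]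
    simp
    ring

/-- Fourier coefficients. -/
def Fc (c : CS) (k : Freq) : ℂ := fc (reS c) k + Complex.I * fc (imS c) k

theorem Fc_add (c d : CS) (k : Freq) : Fc (c + d) k = Fc c k + Fc d k := by
  simp only [Fc, reS_add, imS_add, fc_add]; ring

theorem fc_sub' (a b : S) (k : Freq) : fc (a - b) k = fc a k - fc b k := by
  rw [eq_sub_iff_add_eq, ← fc_add, sub_add_cancel]

theorem Fc_sub (c d : CS) (k : Freq) : Fc (c - d) k = Fc c k - Fc d k := by
  simp only [Fc, reS_sub, imS_sub, fc_sub']; ring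

theorem Fc_smul (z : ℂ) (c : CS) (k : Freq) : Fc (z • c) k = z * Fc c k := by
  simp only [Fc, reS_smul, imS_smul, fc_add, fc_sub', fc_smul, Complex.real_smul]
  conv_rhs => rw [← Complex.re_add_im z]
  ring_nf
  rw [Complex.I_sq]
  ring

theorem Fc_one (k : Freq) : Fc 1 k = if k = 0 then 1 else 0 := by
  have h1 : reS (1 : CS) = cst 1 := S.ext' fun _ => rfl
  have h2 : imS (1 : CS) = cst 0 := S.ext' fun _ => rfl
  rw [Fc, h1, h2, fc_cst, fc_cst]
  split_ifs <;> simp

theorem Fc_liftC {L : S →ₗ[ℝ] S} {m : ℂ} {k : Freq} (h : ∀ f, fc (L f) k = m * fc f k) (c : CS) :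
    Fc (liftC L c) k = m * Fc c k := by
  simp only [Fc, reS_liftC, imS_liftC, h]; ring

theorem Fc_pdC (i : Fin 2) (c : CS) (k : Freq) :
    Fc (pdC i c) k = (2 * Real.pi * fq k i : ℝ) * Complex.I * Fc c k :=
  Fc_liftC (fun f => fc_pd i f k) c

/-- The mean. -/
def avgC (c : CS) : ℂ := Fc c 0

/-- The squared modulus. -/
def sq2 (c : CS) : S := reS c * reS c + imS c * imS c

theorem sq2_apply (c : CS) (X : ℝ × ℝ) : (sq2 c).1 X = Complex.normSq (c.1 X) := by
  rw [Complex.normSq_apply]; rfl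

/-- The mean square norm. -/
def N2 (c : CS) : ℝ := Real.sqrt (avg (sq2 c))

theorem avg_add (f g : S) : avg (f + g) = avg f + avg g := by
  have := fc_add f g 0
  simp only [fc_zero_avg] at this
  exact_mod_cast this

theorem avg_smul (c : ℝ) (f : S) : avg (c • f) = c * avg f := by
  have := fc_smul c f 0
  simp only [fc_zero_avg, Complex.real_smul] at this
  exact_mod_cast this

theorem avg_nonneg {f : S} (h : ∀ X, 0 ≤ f.1 X) : 0 ≤ avg f :=
  intervalIntegral.integral_nonneg zero_le_one fun _ _ =>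
    intervalIntegral.integral_nonneg zero_le_one fun _ _ => h _

theorem avg_mono {f g : S} (h : ∀ X, f.1 X ≤ g.1 X) : avg f ≤ avg g := by
  have h0 : 0 ≤ avg (g - f) := avg_nonneg fun X => sub_nonneg.2 (h X)
  have := avg_add (g - f) f
  rw [sub_add_cancel] at this
  linarith

theorem avg_cst (c : ℝ) : avg (cst c) = c := by
  have := fc_cst c 0
  rw [fc_zero_avg, if_pos rfl] at this
  exact_mod_cast this

theorem N2_nonneg (c : CS) : 0 ≤ N2 c := Real.sqrt_nonneg _

theorem avg_sq2_nonneg (c : CS) : 0 ≤ avg (sq2 c) :=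
  avg_nonneg fun X => by rw [sq2_apply]; exact Complex.normSq_nonneg _

theorem N2_sq (c : CS) : N2 c ^ 2 = avg (sq2 c) := Real.sq_sqrt (avg_sq2_nonneg c)

theorem hasSum_fc_conj (f g : S) :
    HasSum (fun l => fc f l * conj (fc g l)) (avg (f * g) : ℂ) := by
  rw [← fc_zero_avg]
  refine (hasSum_fc_mul f g 0).congr_fun fun l => ?_
  rw [zero_sub, fc_neg_freq]

/-- Parseval. -/
theorem parseval (c : CS) : HasSum (fun k => ‖Fc c k‖ ^ 2) (avg (sq2 c)) := by
  have h1 := hasSum_fc_conj (reS c) (reS c)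
  have h2 := hasSum_fc_conj (imS c) (imS c)
  have h3 := hasSum_fc_conj (imS c) (reS c)
  have h4 := hasSum_fc_conj (reS c) (imS c)
  have h := ((h1.add h2).add (h3.mul_left Complex.I)).add (h4.mul_left (-Complex.I))
  rw [sq2, avg_add]
  rw [← Complex.hasSum_ofReal]
  convert h using 1
  · funext k
    rw [← Complex.normSq_eq_norm_sq, ← Complex.mul_conj, Fc, map_add, map_mul, Complex.conj_I]
    ring_nf
    rw [Complex.I_sq]
    ring
  · rw [mul_comm (reS c) (imS c)]
    push_cast
    ring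

theorem norm_Fc_le (c : CS) (k : Freq) : ‖Fc c k‖ ≤ N2 c := by
  refine le_of_pow_le_pow_left₀ two_ne_zero (N2_nonneg c) ?_
  rw [N2_sq]
  exact le_hasSum (parseval c) k fun j _ => by positivity

theorem norm_avgC_le (c : CS) : ‖avgC c‖ ≤ N2 c := norm_Fc_le c 0

theorem N2_le_of_Fc {c d : CS} (h : ∀ k, ‖Fc c k‖ ≤ ‖Fc d k‖) : N2 c ≤ N2 d :=
  Real.sqrt_le_sqrt (hasSum_le (fun k => pow_le_pow_left₀ (norm_nonneg _) (h k) 2)
    (parseval c) (parseval d))

theorem N2_eq_zero {c : CS} (h : N2 c ≤ 0) : c = 0 := by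
  have hk : ∀ k, Fc c k = 0 := fun k => norm_le_zero_iff.1 ((norm_Fc_le c k).trans h)
  have hre : ∀ k, fc (reS c) k = 0 := fun k => by
    have h1 := hk k
    have h2 := hk (-k)
    rw [Fc] at h1 h2
    rw [fc_neg_freq, fc_neg_freq] at h2
    have h3 := congrArg conj h2
    simp only [map_add, map_mul, Complex.conj_I, Complex.conj_conj, map_zero] at h3
    linear_combination (h1 + h3) / 2
  have him : ∀ k, fc (imS c) k = 0 := fun k => by
    have h1 := hk k
    rw [Fc, hre k, zero_add, mul_eq_zero] at h1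
    exact h1.resolve_left Complex.I_ne_zero
  have hz : ∀ k, fc (0 : S) k = 0 := fun k => by
    have := fc_smul 0 (0 : S) k
    simpa using this
  rw [← mkC_re_im c, show reS c = 0 from fc_injective (funext fun k => (hre k).trans (hz k).symm),
    show imS c = 0 from fc_injective (funext fun k => (him k).trans (hz k).symm)]
  exact CS.ext' fun X => by simp [mkC_apply]

theorem Fc_injective {c d : CS} (h : ∀ k, Fc c k = Fc d k) : c = d := by
  refine sub_eq_zero.1 (N2_eq_zero (le_of_eq ?_))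
  have := (parseval (c - d)).tsum_eq
  simp only [Fc_sub, h, sub_self, norm_zero, ne_eq, OfNat.ofNat_ne_zero, not_false_eq_true,
    zero_pow, tsum_zero] at this
  rw [N2, ← this, Real.sqrt_zero]

theorem N2_mul_le {ν : CS} {K : ℝ} (hK : 0 ≤ K) (hν : ∀ X, ‖ν.1 X‖ ≤ K) (c : CS) :
    N2 (ν * c) ≤ K * N2 c := by
  refine le_of_pow_le_pow_left₀ two_ne_zero (mul_nonneg hK (N2_nonneg c)) ?_
  rw [mul_pow, N2_sq, N2_sq, ← avg_smul]
  refine avg_mono fun X => ?_
  show _ ≤ K ^ 2 * (sq2 c).1 X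
  rw [sq2_apply, sq2_apply]
  show Complex.normSq (ν.1 X * c.1 X) ≤ _
  rw [map_mul]
  refine mul_le_mul_of_nonneg_right ?_ (Complex.normSq_nonneg _)
  rw [Complex.normSq_eq_norm_sq]
  exact pow_le_pow_left₀ (norm_nonneg _) (hν X) 2

theorem N2_le_sup {c : CS} {K : ℝ} (hK : 0 ≤ K) (hc : ∀ X, ‖c.1 X‖ ≤ K) : N2 c ≤ K := by
  have h := N2_mul_le hK hc 1
  rw [mul_one] at h
  refine h.trans (le_of_eq ?_)
  have e : sq2 (1 : CS) = cst 1 := S.ext' fun X => by
    rw [sq2_apply]
    show Complex.normSq 1 = 1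
    simp
  rw [N2, e, avg_cst, Real.sqrt_one, mul_one]

theorem N2_smul (z : ℂ) (c : CS) : N2 (z • c) = ‖z‖ * N2 c := by
  have e : sq2 (z • c) = Complex.normSq z • sq2 c := S.ext' fun X => by
    show _ = Complex.normSq z * (sq2 c).1 X
    rw [sq2_apply, sq2_apply]
    exact map_mul Complex.normSq z (c.1 X)
  rw [N2, e, avg_smul, Real.sqrt_mul (Complex.normSq_nonneg z), ← Complex.norm_def]
  rfl

theorem N2_zero : N2 (0 : CS) = 0 := by simpa using N2_smul 0 (0 : CS)

theorem N2_add (c d : CS) : N2 (c + d) ≤ N2 c + N2 d := by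
  refine le_of_forall_pos_le_add fun ε hε => ?_
  set A := N2 c + ε / 2
  set B := N2 d + ε / 2
  have hA : 0 < A := by have := N2_nonneg c; positivity
  have hB : 0 < B := by have := N2_nonneg d; positivity
  have h : avg (sq2 (c + d)) ≤ (A + B) ^ 2 := by
    have hp : avg (sq2 (c + d)) ≤ avg (((A + B) / A) • sq2 c + ((A + B) / B) • sq2 d) := by
      refine avg_mono fun X => ?_
      show _ ≤ (A + B) / A * (sq2 c).1 X + (A + B) / B * (sq2 d).1 X
      rw [sq2_apply, sq2_apply, sq2_apply, Complex.normSq_apply, Complex.normSq_apply,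
        Complex.normSq_apply]
      show ((c.1 X).re + (d.1 X).re) * ((c.1 X).re + (d.1 X).re)
        + ((c.1 X).im + (d.1 X).im) * ((c.1 X).im + (d.1 X).im) ≤ _
      have key : ∀ u v : ℝ, (u + v) * (u + v) ≤ (A + B) / A * (u * u) + (A + B) / B * (v * v) := by
        intro u v
        rw [div_mul_eq_mul_div, div_mul_eq_mul_div, div_add_div _ _ hA.ne' hB.ne',
          le_div_iff₀ (mul_pos hA hB)]
        nlinarith [sq_nonneg (u * B - v * A)]
      nlinarith [key (c.1 X).re (d.1 X).re, key (c.1 X).im (d.1 X).im]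
    refine hp.trans ?_
    rw [avg_add, avg_smul, avg_smul, ← N2_sq, ← N2_sq]
    have hc : N2 c ^ 2 ≤ A ^ 2 := pow_le_pow_left₀ (N2_nonneg c) (by simp [A]; linarith) 2
    have hd : N2 d ^ 2 ≤ B ^ 2 := pow_le_pow_left₀ (N2_nonneg d) (by simp [B]; linarith) 2
    refine (add_le_add (mul_le_mul_of_nonneg_left hc (by positivity))
      (mul_le_mul_of_nonneg_left hd (by positivity))).trans_eq ?_
    field_simp
  calc N2 (c + d) ≤ Real.sqrt ((A + B) ^ 2) := Real.sqrt_le_sqrt h
    _ = N2 c + N2 d + ε := by rw [Real.sqrt_sq (by positivity)]; simp only [A, B]; ring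

end

end Vale.Agent.P205
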