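import Vale.Agent.P205.BeltramiSolve

/-!
The principal solution of the Beltrami equation has nonvanishing `∂/∂z`.
-/

namespace Vale.Agent.P205

noncomputable section

/-- The exponential. -/
def expC (σ : CS) : CS :=
  ⟨fun X => Complex.exp (σ.1 X), σ.2.1.cexp, fun X m n => by simp [σ.2.2 X m n]⟩

theorem pdC_expC (i : Fin 2) (σ : CS) : pdC i (expC σ) = expC σ * pdC i σ :=
  CS.ext' fun X => by
    show (pdC i (expC σ)).1 X = Complex.exp (σ.1 X) * (pdC i σ).1 X
    rw [pdC_apply, pdC_apply]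
    show fderiv ℝ (fun Y => Complex.exp (σ.1 Y)) X _ = _
    rw [((σ.2.1.differentiable (by simp) X).hasFDerivAt.cexp).fderiv]
    rfl

theorem dz_expC (σ : CS) : dz (expC σ) = expC σ * dz σ := by
  simp only [dz, LinearMap.smul_apply, LinearMap.sub_apply, pdC_expC, mul_smul_comm, mul_sub]

theorem dzb_expC (σ : CS) : dzb (expC σ) = expC σ * dzb σ := by
  simp only [dzb, LinearMap.smul_apply, LinearMap.add_apply, pdC_expC, mul_smul_comm, mul_add]

theorem avgC_sub (a b : CS) : avgC (a - b) = avgC a - avgC b := Fc_sub a b 0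

theorem avgC_smul (z : ℂ) (a : CS) : avgC (z • a) = z * avgC a := Fc_smul z a 0

/-- `w = 1 + B h` has no zeros when `h = μ + μ * B h` and `sup ‖μ‖ < 1`. -/
theorem one_add_B_ne_zero (Q : Cauchy) {μ h : CS} {K : ℝ} (hK : 0 ≤ K) (hK1 : K < 1)
    (hμ : ∀ X, ‖μ.1 X‖ ≤ K) (hh : h = μ + μ * Q.B h) (X : ℝ × ℝ) :
    (1 + Q.B h).1 X ≠ 0 := by
  have hn : ∀ t : Set.Icc (0 : ℝ) 1, ‖((t : ℝ) : ℂ)‖ ≤ 1 := fun t => by
    rw [Complex.norm_real, Real.norm_eq_abs, abs_of_nonneg t.2.1]; exact t.2.2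
  have hb : ∀ (t : Set.Icc (0 : ℝ) 1) X, ‖(((t : ℝ) : ℂ) • μ).1 X‖ ≤ K := fun t Y => by
    show ‖((t : ℝ) : ℂ) * μ.1 Y‖ ≤ K
    rw [norm_mul]
    exact (mul_le_of_le_one_left (norm_nonneg _) (hn t)).trans (hμ Y)
  choose q hq using fun t : Set.Icc (0 : ℝ) 1 =>
    solve_exists Q hK hK1 (hb t) (((t : ℝ) : ℂ) • dz μ)
  set u : Set.Icc (0 : ℝ) 1 → CS := fun t => expC (Q.D (q t))
  have key : ∀ t : Set.Icc (0 : ℝ) 1, dzb (u t) - dz ((((t : ℝ) : ℂ) • μ) * u t)
      = (-avgC (q t)) • u t := fun t => by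
    have e : dz (Q.D (q t)) = Q.B (q t) := rfl
    simp only [u, dzb_expC, dz_mul, dz_expC, Q.dzb_D, map_smul, e]
    conv_lhs => enter [1, 2, 1]; rw [hq t]
    rw [mul_sub, mul_smul_comm, mul_one, mul_add, neg_smul]
    rw [mul_comm _ (expC (Q.D (q t))), mul_left_comm _ (expC (Q.D (q t)))]
    abel
  have prod : ∀ t, avgC (q t) * avgC (u t) = 0 := fun t => by
    have h := congrArg avgC (key t)
    rw [avgC_sub, avgC_dz, avgC_dzb, avgC_smul, sub_zero] at h
    linear_combination h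
  have expand : ∀ t : Set.Icc (0 : ℝ) 1, avgC (q t) = 0 →
      u t = avgC (u t) • (1 : CS) + Q.B ((((t : ℝ) : ℂ) • μ) * u t) := fun t ht => by
    have h := key t
    rw [ht, neg_zero, zero_smul, sub_eq_zero] at h
    have h2 := Q.D_dzb (u t)
    rw [h, Q.D_dz] at h2
    rw [show Q.B ((((t : ℝ) : ℂ) • μ) * u t) = dz (Q.D ((((t : ℝ) : ℂ) • μ) * u t)) from rfl, h2]
    abel
  have une : ∀ t Y, (u t).1 Y ≠ 0 := fun t Y => Complex.exp_ne_zero _
  have good : ∀ t, avgC (q t) = 0 ↔ avgC (u t) ≠ 0 := fun t => by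
    refine ⟨fun ht hc => une t X ?_, fun hc => (mul_eq_zero.1 (prod t)).resolve_right hc⟩
    have h := expand t ht
    rw [hc, zero_smul, zero_add] at h
    set f := (((t : ℝ) : ℂ) • μ) * u t with hf
    have h0 : f = 0 := solve_unique Q hK hK1 hμ _ (hn t) (by conv_lhs => rw [hf, h])
    rw [h, h0, map_zero]
    rfl
  obtain ⟨Cb, hCb, hbound⟩ := solve_bound Q hK hK1 hμ 4
  obtain ⟨Cn, hCn, hnrm⟩ := exists_nrm_le 0
  have near : ∀ t₀ : Set.Icc (0 : ℝ) 1, ∃ C, 0 ≤ C ∧ ∀ t,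
      Ws 4 (q t - q t₀) ≤ C * dist t t₀ ∧
      ∀ Y, ‖(Q.D (q t - q t₀)).1 Y‖ ≤ C * dist t t₀ := fun t₀ => by
    set src := dz μ + μ * Q.B (q t₀)
    refine ⟨(1 + Cn) * (Cb * Ws 4 src), by have := Ws_nonneg 4 src; positivity, fun t => ?_⟩
    have hd : q t - q t₀ = (((t : ℝ) - t₀ : ℝ) : ℂ) • src
        + (((t : ℝ) : ℂ) • μ) * Q.B (q t - q t₀) := by
      conv_lhs => rw [hq t, hq t₀]
      simp only [src, map_sub, mul_sub, smul_mul_assoc, smul_add, Complex.ofReal_sub, sub_smul]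
      abel
    have h1 : Ws 4 (q t - q t₀) ≤ Cb * Ws 4 src * dist t t₀ := by
      refine (hbound _ _ _ (hn t) hd).trans (le_of_eq ?_)
      rw [Ws_smul, Complex.norm_real, Real.norm_eq_abs, Subtype.dist_eq, Real.dist_eq]
      ring
    have h0 : 0 ≤ Cb * Ws 4 src * dist t t₀ :=
      mul_nonneg (mul_nonneg hCb (Ws_nonneg _ _)) dist_nonneg
    refine ⟨h1.trans ?_, fun Y => ((norm_apply_le _ Y).trans ((hnrm _).trans
      (mul_le_mul_of_nonneg_left ((Ws_D Q _ _).trans h1) hCn))).trans ?_⟩ <;> nlinarith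
  have cont1 : Continuous fun t => avgC (q t) := continuous_iff_continuousAt.2 fun t₀ => by
    obtain ⟨C, -, hC'⟩ := near t₀
    refine continuousAt_of_locally_lipschitz one_pos C fun t _ => ?_
    rw [dist_eq_norm, ← avgC_sub]
    exact ((norm_avgC_le _).trans (Hs_le_Ws (Nat.zero_le 4) _)).trans (hC' t).1
  have cont2 : Continuous fun t => avgC (u t) := continuous_iff_continuousAt.2 fun t₀ => by
    obtain ⟨C, hC, hC'⟩ := near t₀
    obtain ⟨M, hM, hM'⟩ := exists_sup (u t₀)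
    refine continuousAt_of_locally_lipschitz (r := 1 / (C + 1)) (by positivity) (M * (2 * C))
      fun t ht => ?_
    rw [dist_eq_norm, ← avgC_sub]
    refine (norm_avgC_le _).trans (N2_le_sup (by positivity) fun Y => ?_)
    have hd1 : C * dist t t₀ ≤ 1 := by
      have := (lt_div_iff₀ (by positivity)).1 ht
      nlinarith [dist_nonneg (x := t) (y := t₀)]
    have hz := (hC' t).2 Y
    have e : (u t).1 Y - (u t₀).1 Y
        = (u t₀).1 Y * (Complex.exp ((Q.D (q t - q t₀)).1 Y) - 1) := by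
      show Complex.exp ((Q.D (q t)).1 Y) - Complex.exp ((Q.D (q t₀)).1 Y)
        = Complex.exp ((Q.D (q t₀)).1 Y) * _
      rw [map_sub, mul_sub, mul_one, ← Complex.exp_add]
      show _ = Complex.exp (_ + ((Q.D (q t)).1 Y - (Q.D (q t₀)).1 Y)) - _
      rw [add_sub_cancel]
    show ‖(u t).1 Y - (u t₀).1 Y‖ ≤ _
    rw [e, norm_mul]
    refine (mul_le_mul (hM' Y) ((Complex.norm_exp_sub_one_le (hz.trans hd1)).trans
      (mul_le_mul_of_nonneg_left hz zero_le_two)) (norm_nonneg _) hM).trans_eq (by ring)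
  have clopen : IsClopen {t | avgC (q t) = 0} :=
    ⟨isClosed_eq cont1 continuous_const, by
      rw [show {t | avgC (q t) = 0} = {t | avgC (u t) ≠ 0} from Set.ext good]
      exact isOpen_ne_fun cont2 continuous_const⟩
  have zero_mem : avgC (q ⟨0, le_rfl, zero_le_one⟩) = 0 := by
    have h := hq ⟨0, le_rfl, zero_le_one⟩
    simp only [Complex.ofReal_zero, zero_smul, zero_mul, add_zero] at h
    rw [h]
    simpa using avgC_smul 0 (0 : CS)
  have : PreconnectedSpace (Set.Icc (0 : ℝ) 1) := Subtype.preconnectedSpace isPreconnected_Icc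
  have all : ∀ t, avgC (q t) = 0 := fun t => by
    rcases isClopen_iff.1 clopen with h | h
    · exact absurd zero_mem fun hz => (Set.eq_empty_iff_forall_notMem.1 h) _ hz
    · have ht : t ∈ {t | avgC (q t) = 0} := h ▸ Set.mem_univ t
      exact ht
  set one : Set.Icc (0 : ℝ) 1 := ⟨1, zero_le_one, le_rfl⟩
  have h1 : (((one : ℝ) : ℂ) • μ) = μ := by simp [one]
  have hex := expand one (all one)
  rw [h1] at hex
  set c := avgC (u one)
  set f := μ * u one with hf
  have hd : f - c • h = ((1 : ℂ) • μ) * Q.B (f - c • h) := by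
    conv_lhs => rw [hf, hex, hh]
    simp only [one_smul, map_sub, map_smul, mul_sub, mul_add, mul_smul_comm, mul_one, smul_add]
    abel
  have h0 := sub_eq_zero.1 (solve_unique Q hK hK1 hμ 1 (by simp) hd)
  intro hX
  refine une one X ?_
  rw [hex, h0, map_smul, ← smul_add]
  show c * (1 + Q.B h).1 X = 0
  rw [hX, mul_zero]

end

end Vale.Agent.P205
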