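import Vale.Agent.P205.BeltramiComplex

/-!
The singular integral of the Beltrami equation, and the equation `f = src + ν * B f`.
-/

namespace Vale.Agent.P205

noncomputable section

open ComplexConjugate

/-! ### Derivative operators -/

/-- `∂/∂z`. -/
def dz : CS →ₗ[ℂ] CS := (1 / 2 : ℂ) • (pdC 0 - Complex.I • pdC 1)

/-- `∂/∂z̄`. -/
def dzb : CS →ₗ[ℂ] CS := (1 / 2 : ℂ) • (pdC 0 + Complex.I • pdC 1)

theorem Fc_dz (c : CS) (k : Freq) :
    Fc (dz c) k = (Real.pi : ℂ) * (Complex.I * k.1 + k.2) * Fc c k := by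
  simp only [dz, LinearMap.smul_apply, LinearMap.sub_apply, Fc_smul, Fc_sub, Fc_pdC, fq, if_true,
    one_ne_zero, if_false]
  push_cast
  ring_nf
  rw [Complex.I_sq]
  ring

theorem Fc_dzb (c : CS) (k : Freq) :
    Fc (dzb c) k = (Real.pi : ℂ) * (Complex.I * k.1 - k.2) * Fc c k := by
  simp only [dzb, LinearMap.smul_apply, LinearMap.add_apply, Fc_smul, Fc_add, Fc_pdC, fq, if_true,
    one_ne_zero, if_false]
  push_cast
  ring_nf
  rw [Complex.I_sq]
  ring

theorem avgC_dz (c : CS) : avgC (dz c) = 0 := by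
  rw [avgC, Fc_dz]; simp

theorem avgC_dzb (c : CS) : avgC (dzb c) = 0 := by
  rw [avgC, Fc_dzb]; simp

theorem dz_mul (c d : CS) : dz (c * d) = dz c * d + c * dz d := by
  simp only [dz, LinearMap.smul_apply, LinearMap.sub_apply, pdC_mul]
  refine CS.ext' fun X => ?_
  show (1 / 2 : ℂ) * (((pdC 0 c).1 X * d.1 X + c.1 X * (pdC 0 d).1 X)
      - Complex.I * ((pdC 1 c).1 X * d.1 X + c.1 X * (pdC 1 d).1 X))
    = (1 / 2 : ℂ) * ((pdC 0 c).1 X - Complex.I * (pdC 1 c).1 X) * d.1 X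
      + c.1 X * ((1 / 2 : ℂ) * ((pdC 0 d).1 X - Complex.I * (pdC 1 d).1 X))
  ring

/-! ### The operators `D` and `B` -/

/-- `D` inverts `∂/∂z̄` off the constants and `B = ∂/∂z ∘ D` is an isometry off the constants. -/
structure Cauchy where
  D : CS →ₗ[ℂ] CS
  dzb_D : ∀ c, dzb (D c) = c - avgC c • (1 : CS)
  D_dzb : ∀ c, D (dzb c) = c - avgC c • (1 : CS)
  D_dz : ∀ c, D (dz c) = dz (D c)
  pdC_D : ∀ i c, pdC i (D c) = D (pdC i c)
  N2_B : ∀ c, N2 (dz (D c)) ≤ N2 c
  N2_D : ∀ c, N2 (D c) ≤ N2 c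

theorem exists_cauchy : Nonempty Cauchy := by
  set m : Freq → ℝ := fun k =>
    if k = 0 then 0 else -((4 * Real.pi ^ 2 * ((k.1 : ℝ) ^ 2 + (k.2 : ℝ) ^ 2))⁻¹) with hm
  have hsq : ∀ k : Freq, k ≠ 0 → (1 : ℝ) ≤ (k.1 : ℝ) ^ 2 + (k.2 : ℝ) ^ 2 := fun k hk => by
    have h : (1 : ℤ) ≤ k.1 ^ 2 + k.2 ^ 2 := by
      by_contra hcon
      apply hk
      have h1 : k.1 ^ 2 = 0 := by nlinarith [sq_nonneg k.2, sq_nonneg k.1]
      have h2 : k.2 ^ 2 = 0 := by nlinarith [sq_nonneg k.2, sq_nonneg k.1]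
      simp only [pow_eq_zero_iff two_ne_zero] at h1 h2
      exact Prod.ext h1 h2
    exact_mod_cast h
  obtain ⟨T, hT⟩ := exists_mult m (fun k => by simp [hm]) 1 (fun k => by
    simp only [hm]
    split_ifs with hk
    · simp
    · have h1 := hsq k hk
      rw [abs_neg, abs_inv, abs_of_nonneg (by positivity)]
      refine inv_le_one_of_one_le₀ ?_
      nlinarith [mul_le_mul Real.two_le_pi Real.two_le_pi zero_le_two Real.pi_pos.le])
  have hTC : ∀ c k, Fc (liftC T c) k = (m k : ℂ) * Fc c k := fun c k =>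
    Fc_liftC (fun f => by rw [hT, Complex.real_smul]) c
  set D : CS →ₗ[ℂ] CS := (4 : ℂ) • (dz ∘ₗ liftC T) with hD
  have hDF : ∀ c k, Fc (D c) k
      = 4 * ((Real.pi : ℂ) * (Complex.I * k.1 + k.2) * ((m k : ℂ) * Fc c k)) := fun c k => by
    simp only [hD, LinearMap.smul_apply, LinearMap.comp_apply, Fc_smul, Fc_dz, hTC]
  have hkey : ∀ k : Freq, k ≠ 0 → (Real.pi : ℂ) * (Complex.I * k.1 - k.2)
      * (4 * ((Real.pi : ℂ) * (Complex.I * k.1 + k.2) * (m k : ℂ))) = 1 := fun k hk => by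
    have h1 := hsq k hk
    simp only [hm, if_neg hk]
    have hne : (4 * Real.pi ^ 2 * ((k.1 : ℝ) ^ 2 + (k.2 : ℝ) ^ 2) : ℝ) ≠ 0 := by positivity
    calc _ = (((-(4 * Real.pi ^ 2 * ((k.1 : ℝ) ^ 2 + (k.2 : ℝ) ^ 2)))
          * -(4 * Real.pi ^ 2 * ((k.1 : ℝ) ^ 2 + (k.2 : ℝ) ^ 2))⁻¹ : ℝ) : ℂ) := by
          push_cast
          ring_nf
          rw [Complex.I_sq]
          ring
      _ = 1 := by rw [neg_mul_neg, mul_inv_cancel₀ hne, Complex.ofReal_one]
  refine ⟨⟨D, fun c => Fc_injective fun k => ?_, fun c => Fc_injective fun k => ?_,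
    fun c => Fc_injective fun k => ?_, fun i c => Fc_injective fun k => ?_, fun c =>
    N2_le_of_Fc fun k => ?_, fun c => N2_le_of_Fc fun k => ?_⟩⟩
  · rw [Fc_dzb, hDF, Fc_sub, Fc_smul, Fc_one]
    rcases eq_or_ne k 0 with rfl | hk
    · simp [avgC]
    · rw [if_neg hk, mul_zero, sub_zero]
      linear_combination (Fc c k) * hkey k hk
  · rw [hDF, Fc_dzb, Fc_sub, Fc_smul, Fc_one]
    rcases eq_or_ne k 0 with rfl | hk
    · simp [avgC]
    · rw [if_neg hk, mul_zero, sub_zero]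
      linear_combination (Fc c k) * hkey k hk
  · rw [hDF, Fc_dz, Fc_dz, hDF]; ring
  · rw [hDF, Fc_pdC, Fc_pdC, hDF]; ring
  · rw [Fc_dz, hDF]
    rcases eq_or_ne k 0 with rfl | hk
    · simp
    · have h : ‖(Real.pi : ℂ) * (Complex.I * k.1 + k.2) * (4 * ((Real.pi : ℂ)
          * (Complex.I * k.1 + k.2) * (m k : ℂ)))‖ = 1 := by
        have := congrArg (fun z : ℂ => ‖z‖) (hkey k hk)
        have e : ‖Complex.I * (k.1 : ℂ) - k.2‖ = ‖Complex.I * (k.1 : ℂ) + k.2‖ := by
          rw [Complex.norm_def, Complex.norm_def]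
          simp [Complex.normSq_apply]
        simp only [norm_mul, norm_one, e] at this
        simpa only [norm_mul] using this
      refine le_of_eq ?_
      calc _ = ‖(Real.pi : ℂ) * (Complex.I * k.1 + k.2) * (4 * ((Real.pi : ℂ)
            * (Complex.I * k.1 + k.2) * (m k : ℂ))) * Fc c k‖ := by congr 1; ring
        _ = ‖Fc c k‖ := by rw [norm_mul, h, one_mul]
  · rw [hDF]
    rcases eq_or_ne k 0 with rfl | hk
    · simp
    · set σ := 4 * ((Real.pi : ℂ) * (Complex.I * k.1 + k.2) * (m k : ℂ)) with hσdef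
      have hp : ‖(Real.pi : ℂ) * (Complex.I * k.1 - k.2)‖ * ‖σ‖ = 1 := by
        rw [← norm_mul, hkey k hk, norm_one]
      have hge : 1 ≤ ‖(Real.pi : ℂ) * (Complex.I * k.1 - k.2)‖ := by
        refine (sq_le_sq₀ zero_le_one (norm_nonneg _)).1 ?_
        rw [← Complex.normSq_eq_norm_sq, Complex.normSq_apply]
        simp
        nlinarith [hsq k hk, mul_le_mul Real.two_le_pi Real.two_le_pi zero_le_two Real.pi_pos.le]
      rw [show 4 * ((Real.pi : ℂ) * (Complex.I * k.1 + k.2) * ((m k : ℂ) * Fc c k)) = σ * Fc c k by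
        rw [hσdef]; ring, norm_mul]
      refine mul_le_of_le_one_left (norm_nonneg _) ?_
      nlinarith [norm_nonneg σ]

variable (Q : Cauchy)

/-- The singular integral operator. -/
def Cauchy.B : CS →ₗ[ℂ] CS := dz ∘ₗ Q.D

theorem pdC_comm_dz (i : Fin 2) (c : CS) : pdC i (dz c) = dz (pdC i c) :=
  Fc_injective fun k => by rw [Fc_pdC, Fc_dz, Fc_dz, Fc_pdC]; ring

theorem Cauchy.pdC_B (i : Fin 2) (c : CS) : pdC i (Q.B c) = Q.B (pdC i c) := by
  simp only [Cauchy.B, LinearMap.comp_apply, pdC_comm_dz, Q.pdC_D]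

/-! ### Seminorms -/

/-- The mean square norm of all derivatives of a given order. -/
def Hs : ℕ → CS → ℝ
  | 0, c => N2 c
  | s + 1, c => ∑ i, Hs s (pdC i c)

/-- All derivatives up to a given order. -/
def Ws (s : ℕ) (c : CS) : ℝ := ∑ j ∈ Finset.range (s + 1), Hs j c

theorem Hs_nonneg : ∀ (s : ℕ) (c : CS), 0 ≤ Hs s c
  | 0, c => N2_nonneg c
  | s + 1, _ => Finset.sum_nonneg fun _ _ => Hs_nonneg s _

theorem Hs_add : ∀ (s : ℕ) (c d : CS), Hs s (c + d) ≤ Hs s c + Hs s d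
  | 0, c, d => N2_add c d
  | s + 1, c, d => by
    simp only [Hs, map_add, ← Finset.sum_add_distrib]
    exact Finset.sum_le_sum fun i _ => Hs_add s _ _

theorem Hs_smul : ∀ (s : ℕ) (z : ℂ) (c : CS), Hs s (z • c) = ‖z‖ * Hs s c
  | 0, z, c => N2_smul z c
  | s + 1, z, c => by
    simp only [Hs, map_smul, Finset.mul_sum]
    exact Finset.sum_congr rfl fun i _ => Hs_smul s _ _

theorem Hs_B : ∀ (s : ℕ) (c : CS), Hs s (Q.B c) ≤ Hs s c
  | 0, c => Q.N2_B c
  | s + 1, c => by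
    simp only [Hs, Q.pdC_B]
    exact Finset.sum_le_sum fun i _ => Hs_B s _

theorem Hs_D : ∀ (s : ℕ) (c : CS), Hs s (Q.D c) ≤ Hs s c
  | 0, c => Q.N2_D c
  | s + 1, c => by
    simp only [Hs, Q.pdC_D]
    exact Finset.sum_le_sum fun i _ => Hs_D s _

theorem Ws_nonneg (s : ℕ) (c : CS) : 0 ≤ Ws s c := Finset.sum_nonneg fun _ _ => Hs_nonneg _ _

theorem Hs_le_Ws {j s : ℕ} (h : j ≤ s) (c : CS) : Hs j c ≤ Ws s c :=
  Finset.single_le_sum (f := fun j => Hs j c) (fun _ _ => Hs_nonneg _ _)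
    (Finset.mem_range.2 (by omega))

theorem Ws_succ (s : ℕ) (c : CS) : Ws (s + 1) c = Ws s c + Hs (s + 1) c :=
  Finset.sum_range_succ _ _

theorem Ws_mono {r s : ℕ} (h : r ≤ s) (c : CS) : Ws r c ≤ Ws s c :=
  Finset.sum_le_sum_of_subset_of_nonneg (Finset.range_mono (by omega)) fun _ _ _ => Hs_nonneg _ _

theorem Ws_B (s : ℕ) (c : CS) : Ws s (Q.B c) ≤ Ws s c :=
  Finset.sum_le_sum fun _ _ => Hs_B Q _ _

theorem Ws_D (s : ℕ) (c : CS) : Ws s (Q.D c) ≤ Ws s c :=
  Finset.sum_le_sum fun _ _ => Hs_D Q _ _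

theorem Ws_add (s : ℕ) (c d : CS) : Ws s (c + d) ≤ Ws s c + Ws s d := by
  simp only [Ws, ← Finset.sum_add_distrib]
  exact Finset.sum_le_sum fun _ _ => Hs_add _ _ _

theorem Ws_smul (s : ℕ) (z : ℂ) (c : CS) : Ws s (z • c) = ‖z‖ * Ws s c := by
  simp only [Ws, Hs_smul, Finset.mul_sum]

theorem Ws_pdC_le (s : ℕ) (i : Fin 2) (c : CS) : Ws s (pdC i c) ≤ Ws (s + 1) c := by
  have h1 : ∀ j ∈ Finset.range (s + 1), Hs j (pdC i c) ≤ Hs (j + 1) c := fun j _ =>
    Finset.single_le_sum (f := fun i => Hs j (pdC i c)) (fun _ _ => Hs_nonneg _ _) (Finset.mem_univ i)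
  refine (Finset.sum_le_sum h1).trans ?_
  rw [Ws, Finset.sum_range_succ' _ (s + 1)]
  exact le_add_of_nonneg_right (Hs_nonneg _ _)

theorem exists_sup (c : CS) : ∃ K, 0 ≤ K ∧ ∀ X, ‖c.1 X‖ ≤ K := by
  obtain ⟨A, hA, hA'⟩ := exists_bound (reS c)
  obtain ⟨B, hB, hB'⟩ := exists_bound (imS c)
  exact ⟨A + B, by linarith, fun X =>
    (Complex.norm_le_abs_re_add_abs_im _).trans (add_le_add (hA' X) (hB' X))⟩

theorem mul_rough : ∀ (s : ℕ) (ν : CS), ∃ C, 0 ≤ C ∧ ∀ c, Hs s (ν * c) ≤ C * Ws s c := by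
  intro s
  induction s with
  | zero =>
    intro ν
    obtain ⟨K, hK, hK'⟩ := exists_sup ν
    exact ⟨K, hK, fun c => by simpa [Ws, Hs] using N2_mul_le hK hK' c⟩
  | succ s ih =>
    intro ν
    choose C hC hC' using fun i => ih (pdC i ν)
    obtain ⟨E, hE, hE'⟩ := ih ν
    refine ⟨(∑ i, C i) + 2 * E, by have := Finset.sum_nonneg (s := Finset.univ) fun i _ => hC i
                                   linarith, fun c => ?_⟩
    have key : ∀ i, Hs s (pdC i (ν * c)) ≤ (C i + E) * Ws (s + 1) c := fun i => by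
      rw [pdC_mul]
      refine (Hs_add _ _ _).trans ((add_le_add ((hC' i c).trans (mul_le_mul_of_nonneg_left
        (Ws_mono (Nat.le_succ s) c) (hC i))) ((hE' _).trans (mul_le_mul_of_nonneg_left
        (Ws_pdC_le s i c) hE))).trans_eq (by ring))
    refine (Finset.sum_le_sum fun i _ => key i).trans_eq ?_
    simp only [Fin.sum_univ_two]
    ring

theorem mul_sharp {ν : CS} {K : ℝ} (hK : 0 ≤ K) (hν : ∀ X, ‖ν.1 X‖ ≤ K) :
    ∀ s, ∃ C, 0 ≤ C ∧ ∀ c, Hs (s + 1) (ν * c) ≤ K * Hs (s + 1) c + C * Ws s c := by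
  intro s
  induction s with
  | zero =>
    choose C hC hC' using fun i => exists_sup (pdC i ν)
    refine ⟨∑ i, C i, Finset.sum_nonneg fun i _ => hC i, fun c => ?_⟩
    simp only [Hs, Ws, zero_add, Finset.range_one, Finset.sum_singleton, Finset.sum_mul, Finset.mul_sum,
      ← Finset.sum_add_distrib]
    refine Finset.sum_le_sum fun i _ => ?_
    rw [pdC_mul, add_comm]
    exact (N2_add _ _).trans (add_le_add (N2_mul_le hK hν _) (N2_mul_le (hC i) (hC' i) c))
  | succ s ih =>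
    obtain ⟨E, hE, hE'⟩ := ih
    choose C hC hC' using fun i => mul_rough (s + 1) (pdC i ν)
    refine ⟨(∑ i, C i) + 2 * E, by have := Finset.sum_nonneg (s := Finset.univ) fun i _ => hC i
                                   linarith, fun c => ?_⟩
    have key : ∀ i, Hs (s + 1) (pdC i (ν * c)) ≤
        K * Hs (s + 1) (pdC i c) + (C i + E) * Ws (s + 1) c := fun i => by
      rw [pdC_mul]
      exact (Hs_add _ _ _).trans ((add_le_add (hC' i c) ((hE' _).trans (add_le_add le_rfl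
        (mul_le_mul_of_nonneg_left (Ws_pdC_le s i c) hE)))).trans_eq (by ring))
    refine (Finset.sum_le_sum fun i _ => key i).trans_eq ?_
    simp only [Hs, Fin.sum_univ_two]
    ring

/-- Mean square bounds control the Wiener norms. -/
theorem exists_nrm_le (s : ℕ) : ∃ C, 0 ≤ C ∧ ∀ c, nrm s (reS c) + nrm s (imS c)
    ≤ C * Ws (s + 4) c := by
  have hre : ∀ j c, Hs j (ofS (reS c)) ≤ Hs j c ∧ Hs j (ofS (imS c)) ≤ Hs j c := by
    intro j
    induction j with
    | zero =>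
      intro c
      constructor <;>
      · refine Real.sqrt_le_sqrt (avg_mono fun X => ?_)
        rw [sq2_apply, sq2_apply, Complex.normSq_apply, Complex.normSq_apply]
        simp only [ofS, reS, imS, Complex.ofReal_re, Complex.ofReal_im]
        nlinarith [sq_nonneg (c.1 X).re, sq_nonneg (c.1 X).im]
    | succ j ih =>
      intro c
      have e : ∀ (i : Fin 2) (a : S), pdC i (ofS a) = ofS (pd i a) := fun i a => CS.ext' fun X => by
        show (mkC (pd i (reS (ofS a))) (pd i (imS (ofS a)))).1 X = _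
        rw [reS_ofS, imS_ofS, map_zero, mkC_apply]
        simp [ofS]
      refine ⟨Finset.sum_le_sum fun i _ => ?_, Finset.sum_le_sum fun i _ => ?_⟩
      · rw [e]
        have := (ih (pdC i c)).1
        rwa [pdC, reS_liftC] at this
      · rw [e]
        have := (ih (pdC i c)).2
        rwa [pdC, imS_liftC] at this
  set m := s + 4 with hm
  have hit : ∀ (i : Fin 2) (j : ℕ) (c : CS) (k : Freq),
      |(fq k i : ℝ)| ^ j * ‖Fc c k‖ ≤ Hs j c := by
    intro i j
    induction j with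
    | zero => intro c k; simpa [Hs] using norm_Fc_le c k
    | succ j ih =>
      intro c k
      refine le_trans ?_ ((ih (pdC i c) k).trans (Finset.single_le_sum
        (f := fun i => Hs j (pdC i c)) (fun _ _ => Hs_nonneg _ _) (Finset.mem_univ i)))
      rw [Fc_pdC, norm_mul, norm_mul, Complex.norm_I, mul_one, Complex.norm_real,
        Real.norm_eq_abs, abs_mul, abs_of_pos Real.two_pi_pos, pow_succ, mul_assoc]
      refine mul_le_mul_of_nonneg_left (mul_le_mul_of_nonneg_right ?_ (norm_nonneg _))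
        (by positivity)
      exact le_mul_of_one_le_left (abs_nonneg _) (by linarith [Real.two_le_pi])
  have key : ∀ (a : S) (k : Freq), wt k ^ m * ‖fc a k‖ ≤ 3 ^ m * 3 * Ws m (ofS a) := by
    intro a k
    have e : Fc (ofS a) k = fc a k := by
      have : fc (0 : S) k = 0 := by simpa using fc_smul 0 (0 : S) k
      simp [Fc, this]
    rw [← e]
    have h0 := hit 0 m (ofS a) k
    have h1 := hit 1 m (ofS a) k
    simp only [fq, if_true, one_ne_zero, if_false] at h0 h1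
    have hz : ‖Fc (ofS a) k‖ ≤ Hs 0 (ofS a) := norm_Fc_le _ _
    have hw0 := Hs_le_Ws (Nat.zero_le m) (ofS a)
    have hwm := Hs_le_Ws (le_refl m) (ofS a)
    have hwt : wt k ^ m ≤ 3 ^ m * (1 + |(k.1 : ℝ)| ^ m + |(k.2 : ℝ)| ^ m) := by
      set M := max (1 : ℝ) (max |(k.1 : ℝ)| |(k.2 : ℝ)|)
      have hM : wt k ≤ 3 * M := by
        unfold wt
        linarith [le_max_left (1 : ℝ) (max |(k.1 : ℝ)| |(k.2 : ℝ)|),
          (le_max_left |(k.1 : ℝ)| |(k.2 : ℝ)|).trans (le_max_right (1 : ℝ) _),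
          (le_max_right |(k.1 : ℝ)| |(k.2 : ℝ)|).trans (le_max_right (1 : ℝ) _)]
      refine (pow_le_pow_left₀ (wt_pos k).le hM m).trans ?_
      rw [mul_pow]
      refine mul_le_mul_of_nonneg_left ?_ (by positivity)
      rcases max_cases (1 : ℝ) (max |(k.1 : ℝ)| |(k.2 : ℝ)|) with h | h <;>
        rcases max_cases |(k.1 : ℝ)| |(k.2 : ℝ)| with g | g <;>
        simp only [M, h.1, g.1, one_pow] <;>
        linarith [pow_nonneg (abs_nonneg (k.1 : ℝ)) m, pow_nonneg (abs_nonneg (k.2 : ℝ)) m]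
    refine (mul_le_mul_of_nonneg_right hwt (norm_nonneg _)).trans ?_
    rw [mul_assoc, mul_assoc]
    refine mul_le_mul_of_nonneg_left ?_ (by positivity)
    linarith
  obtain ⟨Sw, hSw⟩ := summable_inv_wt
  have hSw0 : 0 ≤ Sw := hSw.nonneg fun k => by have := wt_pos k; positivity
  have hone : ∀ a : S, nrm s a ≤ 3 ^ m * 3 * Ws m (ofS a) * Sw := fun a => by
    refine hasSum_le (fun k => ?_) (summable_nrm s a).hasSum (hSw.mul_left _)
    rw [← div_eq_mul_inv, le_div_iff₀ (pow_pos (wt_pos k) 4)]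
    refine le_trans (le_of_eq ?_) (key a k)
    rw [hm, pow_add]; ring
  refine ⟨2 * (3 ^ m * 3 * Sw), by positivity, fun c => ?_⟩
  have w1 : Ws m (ofS (reS c)) ≤ Ws m c := Finset.sum_le_sum fun j _ => (hre j c).1
  have w2 : Ws m (ofS (imS c)) ≤ Ws m c := Finset.sum_le_sum fun j _ => (hre j c).2
  refine (add_le_add (hone _) (hone _)).trans ?_
  have p : 0 ≤ (3 : ℝ) ^ m * 3 * Sw := by positivity
  nlinarith [mul_le_mul_of_nonneg_left w1 p, mul_le_mul_of_nonneg_left w2 p]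

theorem norm_apply_le (c : CS) (X : ℝ × ℝ) : ‖c.1 X‖ ≤ nrm 0 (reS c) + nrm 0 (imS c) :=
  (Complex.norm_le_abs_re_add_abs_im _).trans
    (add_le_add (abs_apply_le (reS c) X) (abs_apply_le (imS c) X))

/-! ### The equation -/

theorem rec_bound {a : ℕ → ℝ} {K q C : ℝ} (hK : 0 ≤ K) (hKq : K < q) (hC : 0 ≤ C)
    (ha : ∀ n, 0 ≤ a n) (h : ∀ n, a (n + 1) ≤ K * a n + C * q ^ n) (n : ℕ) :
    a n ≤ (a 0 + C / (q - K)) * q ^ n := by
  induction n with
  | zero =>
    have : 0 ≤ C / (q - K) := div_nonneg hC (by linarith)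
    simpa using this
  | succ n ih =>
    have hqn : 0 ≤ q ^ n := pow_nonneg (by linarith) n
    refine (h n).trans ((add_le_add (mul_le_mul_of_nonneg_left ih hK) le_rfl).trans ?_)
    have e : C = (q - K) * (C / (q - K)) := by field_simp [show q - K ≠ 0 by linarith]
    rw [pow_succ]
    have h0 := mul_nonneg (mul_nonneg (ha 0) (show 0 ≤ q - K by linarith)) hqn
    set E := C / (q - K)
    rw [e]
    nlinarith

theorem solve_exists {μ : CS} {K : ℝ} (hK : 0 ≤ K) (hK1 : K < 1) (hμ : ∀ X, ‖μ.1 X‖ ≤ K)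
    (src : CS) : ∃ f, f = src + μ * Q.B f := by
  set step : CS → CS := fun f => src + μ * Q.B f
  set u : ℕ → CS := fun n => step^[n] 0
  have u_succ : ∀ n, u (n + 1) = src + μ * Q.B (u n) := fun n =>
    Function.iterate_succ_apply' step n 0
  set d : ℕ → CS := fun n => u (n + 1) - u n
  have d_succ : ∀ n, d (n + 1) = μ * Q.B (d n) := fun n => by
    simp only [d, u_succ, map_sub, map_add]; ring
  set q := (1 + K) / 2
  have hKq : K < q := by simp only [q]; linarith
  have hq1 : q < 1 := by simp only [q]; linarith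
  have geo : ∀ s, ∃ C, 0 ≤ C ∧ ∀ n, Ws s (d n) ≤ C * q ^ n := by
    intro s
    induction s with
    | zero =>
      refine ⟨N2 (d 0), N2_nonneg _, fun n => ?_⟩
      induction n with
      | zero => simp [Ws, Hs]
      | succ n ih =>
        simp only [Ws, zero_add, Finset.range_one, Finset.sum_singleton, Hs] at ih ⊢
        rw [d_succ]
        refine (N2_mul_le hK hμ _).trans ?_
        calc K * N2 (Q.B (d n)) ≤ q * (N2 (d 0) * q ^ n) :=
              mul_le_mul hKq.le ((Q.N2_B _).trans ih) (N2_nonneg _) (by linarith)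
          _ = _ := by ring
    | succ s ih =>
      obtain ⟨C, hC, hgeo⟩ := ih
      obtain ⟨E, hE, hE'⟩ := mul_sharp hK hμ s
      have hrec : ∀ n, Hs (s + 1) (d (n + 1)) ≤ K * Hs (s + 1) (d n) + E * C * q ^ n := fun n => by
        rw [d_succ, mul_assoc E]
        exact (hE' _).trans (add_le_add (mul_le_mul_of_nonneg_left (Hs_B Q _ _) hK)
          (mul_le_mul_of_nonneg_left ((Ws_B Q _ _).trans (hgeo n)) hE))
      have := rec_bound hK hKq (mul_nonneg hE hC) (fun n => Hs_nonneg _ _) hrec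
      refine ⟨C + (Hs (s + 1) (d 0) + E * C / (q - K)), add_nonneg hC (add_nonneg (Hs_nonneg _ _)
        (div_nonneg (mul_nonneg hE hC) (by linarith))), fun n => ?_⟩
      rw [Ws_succ]
      exact (add_le_add (hgeo n) (this n)).trans_eq (by ring)
  have bdd : ∀ s, ∃ B, ∀ n, Ws s (u n) ≤ B := by
    intro s
    obtain ⟨C, hC, hgeo⟩ := geo s
    refine ⟨C / (1 - q), fun n => ?_⟩
    have h : Ws s (u n) ≤ C * ((1 - q ^ n) / (1 - q)) := by
      induction n with
      | zero =>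
        show Ws s (0 : CS) ≤ _
        have : Ws s (0 : CS) = 0 := by simpa using Ws_smul s 0 (0 : CS)
        simp [this]
      | succ n ih =>
        have e : u (n + 1) = u n + d n := by simp [d]
        rw [e]
        refine (Ws_add _ _ _).trans ((add_le_add ih (hgeo n)).trans_eq ?_)
        rw [pow_succ]
        field_simp [show 1 - q ≠ 0 by linarith]
        ring
    refine h.trans ?_
    rw [← mul_div_assoc]
    refine div_le_div_of_nonneg_right (mul_le_of_le_one_right hC ?_) (by linarith)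
    linarith [pow_nonneg (show 0 ≤ q by linarith) n]
  choose Cn hCn0 hCn using exists_nrm_le
  obtain ⟨C4, hC4, hgeo4⟩ := geo 4
  have lim : ∀ P : CS → S, (∀ s c, nrm s (P c) ≤ nrm s (reS c) + nrm s (imS c)) →
      (∀ c e, P (c - e) = P c - P e) →
      ∃ v : S, ∀ s, Filter.Tendsto (fun n => nrm s (P (u n) - v)) Filter.atTop (nhds 0) := by
    intro P hP hPs
    refine exists_lim (fun n => P (u n)) 0 (fun s => ?_) q (Cn 0 * C4) (by linarith) hq1 fun n => ?_
    · obtain ⟨B, hB⟩ := bdd (s + 4)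
      exact ⟨Cn s * B, fun n => ((hP s _).trans (hCn s _)).trans
        (mul_le_mul_of_nonneg_left (hB n) (hCn0 s))⟩
    · rw [← hPs, mul_assoc]
      exact ((hP 0 _).trans (hCn 0 _)).trans (mul_le_mul_of_nonneg_left (hgeo4 n) (hCn0 0))
  obtain ⟨a, ha⟩ := lim reS (fun s c => le_add_of_nonneg_right (nrm_nonneg _ _)) reS_sub
  obtain ⟨b, hb⟩ := lim imS (fun s c => le_add_of_nonneg_left (nrm_nonneg _ _)) imS_sub
  refine ⟨mkC a b, sub_eq_zero.1 (N2_eq_zero ?_)⟩
  set f := mkC a b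
  set ε : ℕ → ℝ := fun n => nrm 0 (reS (u n) - a) + nrm 0 (imS (u n) - b)
  have hε : ∀ n, N2 (u n - f) ≤ ε n := fun n =>
    N2_le_sup (add_nonneg (nrm_nonneg _ _) (nrm_nonneg _ _)) fun X => by
      have h := norm_apply_le (u n - f) X
      simpa only [f, reS_sub, imS_sub, reS_mkC, imS_mkC] using h
  have htend : Filter.Tendsto ε Filter.atTop (nhds 0) := by simpa using (ha 0).add (hb 0)
  refine le_of_tendsto_of_tendsto' tendsto_const_nhds
    (by simpa using (htend.comp (Filter.tendsto_add_atTop_nat 1)).add (htend.const_mul K)) fun n => ?_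
  have e : f - (src + μ * Q.B f) = (-1 : ℂ) • (u (n + 1) - f) + μ * Q.B (u n - f) := by
    rw [u_succ, map_sub, neg_one_smul]; ring
  show N2 (f - (src + μ * Q.B f)) ≤ ε (n + 1) + K * ε n
  rw [e]
  refine (N2_add _ _).trans (add_le_add ?_ ?_)
  · rw [N2_smul]; simpa using hε (n + 1)
  · exact (N2_mul_le hK hμ _).trans (mul_le_mul_of_nonneg_left ((Q.N2_B _).trans (hε n)) hK)

theorem solve_bound {μ : CS} {K : ℝ} (hK : 0 ≤ K) (hK1 : K < 1) (hμ : ∀ X, ‖μ.1 X‖ ≤ K) :
    ∀ s, ∃ C, 0 ≤ C ∧ ∀ (t : ℂ) (d src : CS), ‖t‖ ≤ 1 → d = src + (t • μ) * Q.B d →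
      Ws s d ≤ C * Ws s src := by
  intro s
  induction s with
  | zero =>
    refine ⟨1 / (1 - K), div_nonneg zero_le_one (by linarith), fun t d src ht hd => ?_⟩
    simp only [Ws, zero_add, Finset.range_one, Finset.sum_singleton, Hs]
    have h : N2 d ≤ N2 src + K * N2 d := by
      conv_lhs => rw [hd]
      refine (N2_add _ _).trans (add_le_add le_rfl ?_)
      rw [smul_mul_assoc, N2_smul]
      exact (mul_le_of_le_one_left (N2_nonneg _) ht).trans
        ((N2_mul_le hK hμ _).trans (mul_le_mul_of_nonneg_left (Q.N2_B _) hK))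
    rw [div_mul_eq_mul_div, one_mul, le_div_iff₀ (by linarith)]
    linarith
  | succ s ih =>
    obtain ⟨C, hC, hC'⟩ := ih
    obtain ⟨E, hE, hE'⟩ := mul_sharp hK hμ s
    refine ⟨C + (1 + E * C) / (1 - K), add_nonneg hC (div_nonneg (by positivity) (by linarith)),
      fun t d src ht hd => ?_⟩
    have hlow := (hC' t d src ht hd).trans
      (mul_le_mul_of_nonneg_left (Ws_mono (Nat.le_succ s) src) hC)
    have h : Hs (s + 1) d ≤ Ws (s + 1) src + (K * Hs (s + 1) d + E * Ws s d) := by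
      conv_lhs => rw [hd]
      refine (Hs_add _ _ _).trans (add_le_add (Hs_le_Ws le_rfl src) ?_)
      rw [smul_mul_assoc, Hs_smul]
      exact (mul_le_of_le_one_left (Hs_nonneg _ _) ht).trans ((hE' _).trans (add_le_add
        (mul_le_mul_of_nonneg_left (Hs_B Q _ _) hK) (mul_le_mul_of_nonneg_left (Ws_B Q _ _) hE)))
    have h2 : Hs (s + 1) d ≤ (1 + E * C) / (1 - K) * Ws (s + 1) src := by
      rw [div_mul_eq_mul_div, le_div_iff₀ (by linarith)]
      have h3 := mul_le_mul_of_nonneg_left hlow hE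
      simp only [Nat.succ_eq_add_one] at h3
      nlinarith
    rw [Ws_succ, add_mul]
    exact add_le_add hlow h2

theorem solve_unique {μ : CS} {K : ℝ} (hK : 0 ≤ K) (hK1 : K < 1) (hμ : ∀ X, ‖μ.1 X‖ ≤ K)
    (t : ℂ) (ht : ‖t‖ ≤ 1) {d : CS} (hd : d = (t • μ) * Q.B d) : d = 0 := by
  obtain ⟨C, -, hC⟩ := solve_bound Q hK hK1 hμ 0
  have h := hC t d 0 ht (by rw [zero_add]; exact hd)
  have h0 : Ws 0 (0 : CS) = 0 := by simpa using Ws_smul 0 0 (0 : CS)
  rw [h0, mul_zero] at h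
  exact N2_eq_zero (by simpa [Ws, Hs] using h)

end

end Vale.Agent.P205
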