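import Mathlib

/-!
Smooth functions on the torus `ℝ² / ℤ²`, their Fourier norms, and tame operators (P205).
-/

namespace Vale.Agent.P205

noncomputable section

open MeasureTheory

/-- Periodicity for the lattice of integer points. -/
def Periodic2 {α : Type*} (f : ℝ × ℝ → α) : Prop :=
  ∀ (X : ℝ × ℝ) (m n : ℤ), f (X.1 + m, X.2 + n) = f X

/-- Smooth periodic real functions. -/
def Sm : Subalgebra ℝ (ℝ × ℝ → ℝ) where
  carrier := {f | ContDiff ℝ (⊤ : ℕ∞) f ∧ Periodic2 f}
  mul_mem' := fun {f g} hf hg => ⟨hf.1.mul hg.1, fun X m n => by simp [hf.2 X m n, hg.2 X m n]⟩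
  add_mem' := fun {f g} hf hg => ⟨hf.1.add hg.1, fun X m n => by simp [hf.2 X m n, hg.2 X m n]⟩
  algebraMap_mem' := fun c => ⟨contDiff_const, fun _ _ _ => rfl⟩

/-- The ring of smooth functions on the torus. -/
abbrev S : Type := ↥Sm

theorem S.smooth (f : S) : ContDiff ℝ (⊤ : ℕ∞) f.1 := f.2.1

theorem S.periodic (f : S) : Periodic2 f.1 := f.2.2

/-- Coordinate vectors. -/
def unitV (i : Fin 2) : ℝ × ℝ := if i = 0 then (1, 0) else (0, 1)

theorem fderiv_periodic {f : ℝ × ℝ → ℝ} (hf : Periodic2 f) : Periodic2 (fderiv ℝ f) := by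
  intro X m n
  have h : f = fun Y => f (Y + ((m : ℝ), (n : ℝ))) := funext fun Y => (hf Y m n).symm
  conv_rhs => rw [h, fderiv_comp_add_right]
  rfl

/-- Partial derivatives. -/
def pd (i : Fin 2) : S →ₗ[ℝ] S where
  toFun f := ⟨fun X => fderiv ℝ f.1 X (unitV i),
    (f.smooth.fderiv_right le_rfl).clm_apply contDiff_const,
    fun X m n => by
      show fderiv ℝ f.1 _ _ = _
      rw [fderiv_periodic f.periodic X m n]⟩
  map_add' f g := Subtype.ext <| funext fun X => by
    show fderiv ℝ (f.1 + g.1) X _ = fderiv ℝ f.1 X _ + fderiv ℝ g.1 X _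
    rw [fderiv_add (f.smooth.differentiable (by simp) X) (g.smooth.differentiable (by simp) X)]
    rfl
  map_smul' c f := Subtype.ext <| funext fun X => by
    show fderiv ℝ (c • f.1) X _ = c • fderiv ℝ f.1 X _
    rw [fderiv_const_smul (f.smooth.differentiable (by simp) X)]
    rfl

@[simp] theorem pd_apply (i : Fin 2) (f : S) (X : ℝ × ℝ) :
    (pd i f).1 X = fderiv ℝ f.1 X (unitV i) := rfl

/-- Frequencies. -/
abbrev Freq : Type := ℤ × ℤ

/-- A coordinate of a frequency. -/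
def fq (k : Freq) (i : Fin 2) : ℤ := if i = 0 then k.1 else k.2

/-- Fourier coefficients. -/
def fc (f : S) (k : Freq) : ℂ :=
  ∫ x in (0 : ℝ)..1, ∫ y in (0 : ℝ)..1,
    (f.1 (x, y) : ℂ) * Complex.exp (-(2 * Real.pi * (k.1 * x + k.2 * y) : ℝ) * Complex.I)

/-- The weight of a frequency. -/
def wt (k : Freq) : ℝ := 1 + |(k.1 : ℝ)| + |(k.2 : ℝ)|

/-- The weighted Wiener norm. -/
def nrm (s : ℕ) (f : S) : ℝ := ∑' k, wt k ^ s * ‖fc f k‖

/-- The mean. -/
def avg (f : S) : ℝ := ∫ x in (0 : ℝ)..1, ∫ y in (0 : ℝ)..1, f.1 (x, y)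

/-- An operator gaining `i - j` derivatives, with principal bound `c`. -/
def Tame (c : ℝ) (i j : ℕ) (L : S →ₗ[ℝ] S) : Prop :=
  (∀ f, nrm i (L f) ≤ c * nrm j f) ∧
  ∀ s, ∃ C, 0 ≤ C ∧ ∀ f, nrm (s + 1 + i) (L f) ≤ c * nrm (s + 1 + j) f + C * nrm (s + j) f

/-! ### Maps into `ℂ²` in a rotating frame -/

/-- Values in `ℝ⁴`: plane, then coordinate in the plane. -/
abbrev V : Type := Fin 2 → Fin 2 → S

/-- The derivative in the rotating frame with angular speeds `κ`. -/
def Dt (κ : Fin 2 → Fin 2 → S) (i : Fin 2) (v : V) : V := fun p r =>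
  if r = 0 then pd i (v p 0) - κ p i * v p 1 else pd i (v p 1) + κ p i * v p 0

/-- The pointwise inner product. -/
def dot (u v : V) : S := ∑ p, ∑ r, u p r * v p r

/-- The first entry of a symmetric pair. -/
def q1 : Fin 3 → Fin 2 := ![0, 0, 1]

/-- The second entry of a symmetric pair. -/
def q2 : Fin 3 → Fin 2 := ![0, 1, 1]

/-- The induced metric. -/
def gram (κ : Fin 2 → Fin 2 → S) (v : V) (q : Fin 3) : S :=
  dot (Dt κ (q1 q) v) (Dt κ (q2 q) v)

/-- The angular speeds are closed. -/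
def Closed (κ : Fin 2 → Fin 2 → S) : Prop := ∀ p i j, pd i (κ p j) = pd j (κ p i)

/-- A solution operator of the linearised equation, written after subtracting a gradient. -/
structure Solver (κ : Fin 2 → Fin 2 → S) (F : V) where
  LH : Fin 2 → Fin 2 → Fin 3 → (S →ₗ[ℝ] S)
  LN : Fin 2 → Fin 2 → Fin 2 → (S →ₗ[ℝ] S)
  spec : ∀ (H : Fin 3 → S) (Nv : Fin 2 → S),
    let v : V := fun p r => (∑ q, LH p r q (H q)) + ∑ l, LN p r l (Nv l)
    ∀ q, pd (q1 q) (dot (Dt κ (q2 q) F) v + Nv (q2 q))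
        + pd (q2 q) (dot (Dt κ (q1 q) F) v + Nv (q1 q))
        - (2 : ℝ) • dot (Dt κ (q1 q) (Dt κ (q2 q) F)) v = (2 : ℝ) • H q

/-- All the components of a solver are bounded by `K` on the level `2`. -/
def Solver.Bound {κ : Fin 2 → Fin 2 → S} {F : V} (L : Solver κ F) (K : ℝ) : Prop :=
  (∀ p r q, Tame K 2 2 (L.LH p r q)) ∧ ∀ p r l, Tame K 2 2 (L.LN p r l)

/-- A constant. -/
def cst (c : ℝ) : S := algebraMap ℝ S c

theorem cst_mul (c : ℝ) (f : S) : cst c * f = c • f := (Algebra.smul_def c f).symm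

theorem pd_cst (i : Fin 2) (c : ℝ) : pd i (cst c) = 0 := Subtype.ext <| funext fun X => by
  show fderiv ℝ (fun _ : ℝ × ℝ => c) X _ = 0
  simp

theorem pd_mul (i : Fin 2) (f g : S) : pd i (f * g) = pd i f * g + f * pd i g :=
  Subtype.ext <| funext fun X => by
    show fderiv ℝ (f.1 * g.1) X _ = fderiv ℝ f.1 X _ * g.1 X + f.1 X * fderiv ℝ g.1 X _
    rw [fderiv_mul (f.smooth.differentiable (by simp) X) (g.smooth.differentiable (by simp) X)]
    simp
    ring

theorem pd_comm (i j : Fin 2) (f : S) : pd i (pd j f) = pd j (pd i f) :=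
  Subtype.ext <| funext fun X => by
    have h2 := (f.smooth.contDiffAt (x := X)).isSymmSndFDerivAt (by simp; exact WithTop.coe_le_coe.2 le_top)
    have hd : DifferentiableAt ℝ (fderiv ℝ f.1) X :=
      (f.smooth.fderiv_right (m := (⊤ : ℕ∞)) le_rfl).differentiable (by simp) X
    show fderiv ℝ (fun Y => fderiv ℝ f.1 Y (unitV j)) X (unitV i)
      = fderiv ℝ (fun Y => fderiv ℝ f.1 Y (unitV i)) X (unitV j)
    rw [fderiv_clm_apply hd (differentiableAt_const _),
      fderiv_clm_apply hd (differentiableAt_const _)]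
    simpa using h2 (unitV i) (unitV j)

/-- An orthogonal net for the metric `g`, with its linearised right inverse. -/
structure Net (g : Fin 3 → S) where
  per : Fin 2 → Fin 2 → ℝ
  den : ℕ
  den_pos : 0 < den
  per_int : ∀ p i, ∃ z : ℤ, (den : ℝ) * per p i = 2 * Real.pi * z
  ph : Fin 2 → S
  amp : Fin 2 → S
  ampInv : Fin 2 → S
  amp_inv : ∀ p, amp p * ampInv p = 1
  amp_pos : ∀ p X, 0 < (amp p).1 X
  frame : Fin 2 → Fin 2 → S
  dual : ∀ p a, ∑ i, (cst (per p i) + pd i (ph p)) * frame a i = if p = a then 1 else 0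
  metric : ∀ q, g q = ∑ p, amp p * amp p *
    ((cst (per p (q1 q)) + pd (q1 q) (ph p)) * (cst (per p (q2 q)) + pd (q2 q) (ph p)))
  rinv : Fin 2 → (S →ₗ[ℝ] S)
  bound : ℝ
  bound_pos : 0 < bound
  rinv_tame : ∀ p, Tame bound 3 2 (rinv p)
  rinv_spec : ∀ f, (amp 0 * amp 0 * ∑ i, frame 1 i * pd i (rinv 0 f))
    + (amp 1 * amp 1 * ∑ i, frame 0 i * pd i (rinv 1 f)) = f

/-- The differential of a phase, for polynomial families. -/
def dPhase {g : Fin 3 → S} (N : Net g) (Q : Fin 2 → Polynomial S) (p i : Fin 2) :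
    Polynomial S :=
  Polynomial.C (cst (N.per p i)) + (Q p).sum fun n c => Polynomial.monomial n (pd i c)

/-- Coefficientwise derivative of a polynomial family. -/
def dPoly (i : Fin 2) (A : Polynomial S) : Polynomial S :=
  A.sum fun n c => Polynomial.monomial n (pd i c)

/-- The metric error of an ansatz, as a polynomial in `ε`. -/
def residual {g : Fin 3 → S} (N : Net g) (A Q : Fin 2 → Polynomial S) (q : Fin 3) :
    Polynomial S :=
  (∑ p, (A p * A p * (dPhase N Q p (q1 q) * dPhase N Q p (q2 q))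
    + Polynomial.X ^ 2 * (dPoly (q1 q) (A p) * dPoly (q2 q) (A p)))) - Polynomial.C (g q)

/-- The metric `ρ · G`. -/
def flatConf (ρ : S) (a b c : ℝ) : Fin 3 → S := fun q => ![a, b, c] q • ρ

/-- The amplitude vector of the ansatz at `ε = 1 / n`. -/
def ansF (A : Fin 2 → Polynomial S) (n : ℕ) : V := fun p r =>
  if r = 0 then (1 / (n : ℝ)) • (A p).eval (cst (1 / (n : ℝ))) else 0

/-- The angular speeds of the ansatz at `ε = 1 / n`. -/
def ansK {g : Fin 3 → S} (N : Net g) (Q : Fin 2 → Polynomial S) (n : ℕ) : Fin 2 → Fin 2 → S :=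
  fun p i => (n : ℝ) • (dPhase N Q p i).eval (cst (1 / (n : ℝ)))

end

end Vale.Agent.P205
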