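import Vale.Agent.P205.Norms

/-!
Twisted derivatives: product rule, Günther's identity, and tame quadratic maps.
-/

namespace Vale.Agent.P205

noncomputable section

/-! ### Norms on `V` -/

/-- The norm of a vector. -/
def vn (s : ℕ) (v : V) : ℝ := ∑ p, ∑ r, nrm s (v p r)

theorem vn_nonneg (s : ℕ) (v : V) : 0 ≤ vn s v :=
  Finset.sum_nonneg fun _ _ => Finset.sum_nonneg fun _ _ => nrm_nonneg _ _

theorem vn_mono {r s : ℕ} (h : r ≤ s) (v : V) : vn r v ≤ vn s v :=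
  Finset.sum_le_sum fun _ _ => Finset.sum_le_sum fun _ _ => nrm_mono h _

theorem nrm_le_vn (s : ℕ) (v : V) (p r : Fin 2) : nrm s (v p r) ≤ vn s v := by
  refine le_trans ?_ (Finset.single_le_sum (f := fun p => ∑ r, nrm s (v p r))
    (fun _ _ => Finset.sum_nonneg fun _ _ => nrm_nonneg _ _) (Finset.mem_univ p))
  exact Finset.single_le_sum (f := fun r => nrm s (v p r)) (fun _ _ => nrm_nonneg _ _)
    (Finset.mem_univ r)

theorem nrm_zero (s : ℕ) : nrm s (0 : S) = 0 := by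
  simpa using nrm_smul s 0 (0 : S)

theorem nrm_neg (s : ℕ) (f : S) : nrm s (-f) = nrm s f := by
  simpa using nrm_smul s (-1) f

theorem nrm_sub (s : ℕ) (f g : S) : nrm s (f - g) ≤ nrm s f + nrm s g := by
  rw [sub_eq_add_neg]
  exact (nrm_add s f (-g)).trans_eq (by rw [nrm_neg])

theorem nrm_sum {ι : Type*} (T : Finset ι) (s : ℕ) (f : ι → S) :
    nrm s (∑ i ∈ T, f i) ≤ ∑ i ∈ T, nrm s (f i) := by
  classical
  induction T using Finset.induction_on with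
  | empty => simp [nrm_zero]
  | insert a T ha ih =>
    rw [Finset.sum_insert ha, Finset.sum_insert ha]
    exact (nrm_add s _ _).trans (add_le_add le_rfl ih)

theorem vn_zero (s : ℕ) : vn s 0 = 0 := by simp [vn, nrm_zero]

theorem vn_add (s : ℕ) (u v : V) : vn s (u + v) ≤ vn s u + vn s v := by
  simp only [vn, Pi.add_apply, ← Finset.sum_add_distrib]
  exact Finset.sum_le_sum fun _ _ => Finset.sum_le_sum fun _ _ => nrm_add _ _ _

theorem vn_sub (s : ℕ) (u v : V) : vn s (u - v) ≤ vn s u + vn s v := by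
  simp only [vn, Pi.sub_apply, ← Finset.sum_add_distrib]
  exact Finset.sum_le_sum fun _ _ => Finset.sum_le_sum fun _ _ => nrm_sub _ _ _

theorem vn_comm (s : ℕ) (u v : V) : vn s (u - v) = vn s (v - u) := by
  simp only [vn, Pi.sub_apply]
  refine Finset.sum_congr rfl fun p _ => Finset.sum_congr rfl fun r _ => ?_
  rw [← neg_sub, nrm_neg]

/-! ### Algebra of `Dt` and `dot` -/

variable {κ : Fin 2 → Fin 2 → S}

theorem Dt_zero_comp (i : Fin 2) (v : V) (p : Fin 2) :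
    Dt κ i v p 0 = pd i (v p 0) - κ p i * v p 1 := rfl

theorem Dt_one_comp (i : Fin 2) (v : V) (p : Fin 2) :
    Dt κ i v p 1 = pd i (v p 1) + κ p i * v p 0 := rfl

theorem Dt_add (i : Fin 2) (u v : V) : Dt κ i (u + v) = Dt κ i u + Dt κ i v := by
  funext p r
  fin_cases r <;> simp [Dt, mul_add] <;> ring

theorem Dt_sub (i : Fin 2) (u v : V) : Dt κ i (u - v) = Dt κ i u - Dt κ i v := by
  funext p r
  fin_cases r <;> simp [Dt, mul_sub] <;> ring

theorem Dt_comm (hκ : Closed κ) (i j : Fin 2) (v : V) :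
    Dt κ i (Dt κ j v) = Dt κ j (Dt κ i v) := by
  funext p r
  fin_cases r <;>
    simp only [Dt, Fin.zero_eta, Fin.mk_one, if_true, one_ne_zero, if_false, map_sub, map_add,
      pd_mul, pd_comm i j, hκ p i j] <;> ring

theorem dot_comm (u w : V) : dot u w = dot w u := by
  simp only [dot, mul_comm]

theorem dot_add_left (u v w : V) : dot (u + v) w = dot u w + dot v w := by
  simp only [dot, Pi.add_apply, add_mul, Finset.sum_add_distrib]

theorem dot_sub_left (u v w : V) : dot (u - v) w = dot u w - dot v w := by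
  simp only [dot, Pi.sub_apply, sub_mul, Finset.sum_sub_distrib]

theorem dot_add_right (u v w : V) : dot u (v + w) = dot u v + dot u w := by
  simp only [dot, Pi.add_apply, mul_add, Finset.sum_add_distrib]

theorem dot_sub_right (u v w : V) : dot u (v - w) = dot u v - dot u w := by
  simp only [dot, Pi.sub_apply, mul_sub, Finset.sum_sub_distrib]

theorem pd_dot (i : Fin 2) (u w : V) :
    pd i (dot u w) = dot (Dt κ i u) w + dot u (Dt κ i w) := by
  simp only [dot, Fin.sum_univ_two, map_add, pd_mul, Dt_zero_comp, Dt_one_comp]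
  ring

/-- The twisted `Δ - 1`. -/
def Mop (κ : Fin 2 → Fin 2 → S) (v : V) : V :=
  Dt κ 0 (Dt κ 0 v) + Dt κ 1 (Dt κ 1 v) - v

theorem Mop_sub (u v : V) : Mop κ (u - v) = Mop κ u - Mop κ v := by
  simp only [Mop, Dt_sub]; abel

theorem Mop_Dt (hκ : Closed κ) (i : Fin 2) (v : V) : Mop κ (Dt κ i v) = Dt κ i (Mop κ v) := by
  simp only [Mop, Dt_add, Dt_sub]
  rw [Dt_comm hκ 0 i v, Dt_comm hκ 1 i v, Dt_comm hκ 0 i, Dt_comm hκ 1 i]

/-- The scalar `Δ - 1`. -/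
def lapM (f : S) : S := pd 0 (pd 0 f) + pd 1 (pd 1 f) - f

theorem lapM_dot (u w : V) : lapM (dot u w) = dot (Mop κ u) w + dot u (Mop κ w)
    + 2 * (dot (Dt κ 0 u) (Dt κ 0 w) + dot (Dt κ 1 u) (Dt κ 1 w)) + dot u w := by
  simp only [lapM, Mop, pd_dot (κ := κ), map_add, dot_add_left, dot_sub_left, dot_add_right,
    dot_sub_right]
  ring

theorem exists_G : ∃ G : S →ₗ[ℝ] S, Tame 3 2 0 G ∧ (∀ f, G (lapM f) = f) ∧
    ∀ i f, G (pd i f) = pd i (G f) := by
  set m : Freq → ℝ := fun k =>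
    -((4 * Real.pi ^ 2 * ((k.1 : ℝ) ^ 2 + (k.2 : ℝ) ^ 2) + 1)⁻¹) with hm
  have hev : ∀ k, m (-k) = m k := fun k => by simp [hm]
  have hpos : ∀ k : Freq, (1 : ℝ) ≤ 4 * Real.pi ^ 2 * ((k.1 : ℝ) ^ 2 + (k.2 : ℝ) ^ 2) + 1 :=
    fun k => by
      have : (0 : ℝ) ≤ 4 * Real.pi ^ 2 * ((k.1 : ℝ) ^ 2 + (k.2 : ℝ) ^ 2) := by positivity
      linarith
  obtain ⟨G, hG⟩ := exists_mult m hev 1 (fun k => by
    simp only [hm, abs_neg, abs_inv]
    rw [abs_of_pos (by linarith [hpos k])]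
    exact inv_le_one_of_one_le₀ (hpos k))
  refine ⟨G, tame_mult 2 0 3 m G hG fun k => ?_, fun f => fc_injective (funext fun k => ?_),
    fun i f => fc_injective (funext fun k => ?_)⟩
  · simp only [hm, abs_neg, abs_inv, pow_zero, mul_one]
    rw [abs_of_pos (by linarith [hpos k]), inv_mul_le_iff₀ (by linarith [hpos k])]
    have hpi : 1 ≤ Real.pi ^ 2 := one_le_pow₀ (by linarith [Real.pi_gt_three])
    unfold wt
    nlinarith [sq_abs (k.1 : ℝ), sq_abs (k.2 : ℝ), abs_nonneg (k.1 : ℝ), abs_nonneg (k.2 : ℝ),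
      sq_nonneg (|(k.1 : ℝ)| - 1), sq_nonneg (|(k.2 : ℝ)| - 1),
      sq_nonneg (|(k.1 : ℝ)| - |(k.2 : ℝ)|),
      mul_le_mul_of_nonneg_right hpi (by positivity : (0:ℝ) ≤ (k.1 : ℝ) ^ 2 + (k.2 : ℝ) ^ 2)]
  · show fc (G (lapM f)) k = fc f k
    have hsub : ∀ a b : S, fc (a - b) k = fc a k - fc b k := fun a b => by
      rw [eq_sub_iff_add_eq, ← fc_add, sub_add_cancel]
    rw [hG, lapM, hsub, fc_add, fc_pd, fc_pd, fc_pd, fc_pd, Complex.real_smul, hm]
    have hne : ((4 * Real.pi ^ 2 * ((k.1 : ℝ) ^ 2 + (k.2 : ℝ) ^ 2) + 1 : ℝ) : ℂ) ≠ 0 :=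
      Complex.ofReal_ne_zero.2 (by linarith [hpos k])
    push_cast at hne ⊢
    simp only [fq, if_true, one_ne_zero, if_false]
    field_simp
    have hI : Complex.I ^ 2 = -1 := Complex.I_sq
    grind
  · show fc (G (pd i f)) k = fc (pd i (G f)) k
    rw [hG, fc_pd, fc_pd, hG, Complex.real_smul, Complex.real_smul]
    ring

theorem gunther (hκ : Closed κ) (G : S →ₗ[ℝ] S) (hG : ∀ f, G (lapM f) = f)
    (hGc : ∀ i f, G (pd i f) = pd i (G f)) (a b : Fin 2) (v : V) :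
    dot (Dt κ a v) (Dt κ b v) = pd a (G (dot (Mop κ v) (Dt κ b v)))
      + pd b (G (dot (Mop κ v) (Dt κ a v)))
      + G (2 * (dot (Dt κ 0 (Dt κ a v)) (Dt κ 0 (Dt κ b v))
          + dot (Dt κ 1 (Dt κ a v)) (Dt κ 1 (Dt κ b v)))
          + dot (Dt κ a v) (Dt κ b v) - 2 * dot (Mop κ v) (Dt κ a (Dt κ b v))) := by
  conv_lhs => rw [← hG (dot (Dt κ a v) (Dt κ b v))]
  rw [← hGc, ← hGc, ← map_add, ← map_add]
  congr 1
  rw [lapM_dot (κ := κ), pd_dot (κ := κ), pd_dot (κ := κ), Mop_Dt hκ, Mop_Dt hκ, Dt_comm hκ b a v,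
    dot_comm (Dt κ a v) (Dt κ b (Mop κ v))]
  ring

/-! ### Tame operations -/

/-- A tame operation on `V`, from two derivatives to none. -/
def TV (c : ℝ) (i j : ℕ) (O : V → V) : Prop :=
  (∀ v, vn i (O v) ≤ c * vn j v) ∧
  ∀ s, ∃ C, 0 ≤ C ∧ ∀ v, vn (s + 1 + i) (O v) ≤ c * vn (s + 1 + j) v + C * vn (s + j) v

theorem TV.comp {c c' : ℝ} {i j l : ℕ} {O P : V → V} (hc : 0 ≤ c) (hc' : 0 ≤ c')
    (hO : TV c i j O) (hP : TV c' j l P) : TV (c * c') i l (O ∘ P) := by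
  refine ⟨fun v => ((hO.1 (P v)).trans (mul_le_mul_of_nonneg_left (hP.1 v) hc)).trans_eq
    (by ring), fun s => ?_⟩
  obtain ⟨C, hC, hO'⟩ := hO.2 s
  obtain ⟨C', hC', hP'⟩ := hP.2 s
  obtain ⟨D, hD, hlow⟩ : ∃ D, 0 ≤ D ∧ ∀ v, vn (s + j) (P v) ≤ D * vn (s + l) v := by
    cases s with
    | zero => exact ⟨c', hc', fun v => by simpa using hP.1 v⟩
    | succ t =>
      obtain ⟨E, hE, h⟩ := hP.2 t
      exact ⟨c' + E, by linarith, fun v => (h v).trans (by
        rw [add_mul]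
        exact add_le_add le_rfl (mul_le_mul_of_nonneg_left (vn_mono (by omega) v) hE))⟩
  refine ⟨c * C' + C * D, by positivity, fun v => (hO' (P v)).trans ?_⟩
  have h1 := mul_le_mul_of_nonneg_left (hP' v) hc
  have h2 := mul_le_mul_of_nonneg_left (hlow v) hC
  nlinarith

theorem TV.mono {c c' : ℝ} {i j j' : ℕ} {O : V → V} (hc : 0 ≤ c) (hO : TV c i j O) (h : c ≤ c')
    (hj : j ≤ j') : TV c' i j' O := by
  refine ⟨fun v => (hO.1 v).trans (mul_le_mul h (vn_mono hj v) (vn_nonneg _ _) (hc.trans h)),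
    fun s => ?_⟩
  obtain ⟨C, hC, hO'⟩ := hO.2 s
  exact ⟨C, hC, fun v => (hO' v).trans (add_le_add
    (mul_le_mul h (vn_mono (by omega) v) (vn_nonneg _ _) (hc.trans h))
    (mul_le_mul_of_nonneg_left (vn_mono (by omega) v) hC))⟩

theorem TV.add {c c' : ℝ} {i j : ℕ} {O P : V → V} (hO : TV c i j O) (hP : TV c' i j P) :
    TV (c + c') i j (fun v => O v + P v) := by
  refine ⟨fun v => (vn_add _ _ _).trans ((add_le_add (hO.1 v) (hP.1 v)).trans_eq (by ring)),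
    fun s => ?_⟩
  obtain ⟨C, hC, hO'⟩ := hO.2 s
  obtain ⟨C', hC', hP'⟩ := hP.2 s
  exact ⟨C + C', by linarith, fun v =>
    (vn_add _ _ _).trans ((add_le_add (hO' v) (hP' v)).trans_eq (by ring))⟩

theorem TV.sub_id {c : ℝ} {O : V → V} (hO : TV c 0 2 O) :
    TV (c + 1) 0 2 (fun v => O v - v) := by
  refine ⟨fun v => (vn_sub _ _ _).trans ((add_le_add (hO.1 v) (vn_mono (Nat.zero_le 2) v)).trans_eq
    (by ring)), fun s => ?_⟩
  obtain ⟨C, hC, hO'⟩ := hO.2 s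
  refine ⟨C, hC, fun v => (vn_sub _ _ _).trans ((add_le_add (hO' v)
    (vn_mono (show s + 1 + 0 ≤ s + 1 + 2 by omega) v)).trans_eq (by ring))⟩

theorem tv_Dt {Λ : ℝ} {i : ℕ} (hκ : ∀ p a, nrm i (κ p a) ≤ Λ) (hΛ : 1 ≤ Λ) (a : Fin 2) :
    TV (8 * Λ) i (i + 1) (Dt κ a) := by
  have low : ∀ v : V, ∀ t, vn t (Dt κ a v) ≤
      ∑ p, ∑ r, (nrm t (pd a (v p r)) + nrm t (κ p a * v p r)) := by
    intro v t
    simp only [vn, Fin.sum_univ_two, Dt_zero_comp, Dt_one_comp]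
    linarith [nrm_sub t (pd a (v 0 0)) (κ 0 a * v 0 1), nrm_add t (pd a (v 0 1)) (κ 0 a * v 0 0),
      nrm_sub t (pd a (v 1 0)) (κ 1 a * v 1 1), nrm_add t (pd a (v 1 1)) (κ 1 a * v 1 0)]
  refine ⟨fun v => (low v i).trans ?_, fun s => ?_⟩
  · simp only [vn, Finset.mul_sum]
    refine Finset.sum_le_sum fun p _ => Finset.sum_le_sum fun r _ => ?_
    have h1 := (tame_pd i a).1 (v p r)
    have h2 := (nrm_mul i (κ p a) (v p r)).trans
      (mul_le_mul (hκ p a) (nrm_mono (Nat.le_succ i) (v p r)) (nrm_nonneg _ _) (by linarith))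
    nlinarith [nrm_nonneg (i + 1) (v p r)]
  · have key : ∀ p, ∃ C, 0 ≤ C ∧ ∀ f, nrm (s + 1 + i) (pd a f) + nrm (s + 1 + i) (κ p a * f)
        ≤ 8 * Λ * nrm (s + 1 + (i + 1)) f + C * nrm (s + (i + 1)) f := by
      intro p
      obtain ⟨C₁, hC₁, h₁⟩ := (tame_pd i a).2 s
      obtain ⟨C₂, hC₂, h₂⟩ := ((tame_mul i (κ p a)).mono (hκ p a)).2 s
      refine ⟨C₁ + C₂, by linarith, fun f => ?_⟩
      have h2 := h₂ f
      simp only [LinearMap.mulLeft_apply] at h2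
      have m1 := mul_le_mul_of_nonneg_left
        (nrm_mono (show s + 1 + i ≤ s + 1 + (i + 1) by omega) f) (show 0 ≤ Λ by linarith)
      have m2 := mul_le_mul_of_nonneg_left
        (nrm_mono (show s + i ≤ s + (i + 1) by omega) f) hC₂
      nlinarith [h₁ f, nrm_nonneg (s + 1 + (i + 1)) f]
    choose C hC h using key
    refine ⟨C 0 + C 1, by linarith [hC 0, hC 1], fun v => (low v _).trans ?_⟩
    simp only [vn, Finset.mul_sum, ← Finset.sum_add_distrib]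
    refine Finset.sum_le_sum fun p _ => Finset.sum_le_sum fun r _ => (h p (v p r)).trans ?_
    refine add_le_add le_rfl (mul_le_mul_of_nonneg_right ?_ (nrm_nonneg _ _))
    fin_cases p <;> simp <;> linarith [hC 0, hC 1]

/-! ### Quadratic maps -/

/-- A tame quadratic map. -/
def Quad (c : ℝ) (f : V → S) : Prop :=
  (∀ v, nrm 0 (f v) ≤ c * vn 2 v ^ 2) ∧
  (∀ v w, nrm 0 (f v - f w) ≤ c * vn 2 (v - w) * (vn 2 v + vn 2 w)) ∧
  ∀ s, ∃ C, 0 ≤ C ∧ ∀ v, nrm (s + 1) (f v) ≤ c * vn (s + 3) v * vn 2 v + C * vn (s + 2) v ^ 2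

theorem nrm_dot_le (s : ℕ) (u w : V) : nrm s (dot u w) ≤ vn s u * vn s w := by
  simp only [dot, vn, Fin.sum_univ_two]
  have h1 := nrm_add s (u 0 0 * w 0 0 + u 0 1 * w 0 1) (u 1 0 * w 1 0 + u 1 1 * w 1 1)
  have h2 := nrm_add s (u 0 0 * w 0 0) (u 0 1 * w 0 1)
  have h3 := nrm_add s (u 1 0 * w 1 0) (u 1 1 * w 1 1)
  nlinarith [nrm_mul s (u 0 0) (w 0 0), nrm_mul s (u 0 1) (w 0 1), nrm_mul s (u 1 0) (w 1 0),
    nrm_mul s (u 1 1) (w 1 1), nrm_nonneg s (u 0 0), nrm_nonneg s (u 0 1), nrm_nonneg s (u 1 0),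
    nrm_nonneg s (u 1 1), nrm_nonneg s (w 0 0), nrm_nonneg s (w 0 1), nrm_nonneg s (w 1 0),
    nrm_nonneg s (w 1 1)]

theorem nrm_dot_tame (s : ℕ) : ∃ C, 0 ≤ C ∧ ∀ u w : V, nrm (s + 1) (dot u w) ≤
    vn (s + 1) u * vn 0 w + vn 0 u * vn (s + 1) w + C * (vn s u * vn s w) := by
  obtain ⟨C, hC, h⟩ := nrm_mul_tame s
  refine ⟨C * 4, by positivity, fun u w => ?_⟩
  have key : ∀ p r, nrm (s + 1) (u p r * w p r) ≤
      nrm (s + 1) (u p r) * vn 0 w + vn 0 u * nrm (s + 1) (w p r) + C * (vn s u * vn s w) :=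
    fun p r => (h _ _).trans (by
      gcongr <;> first
        | exact nrm_nonneg _ _
        | exact vn_nonneg _ _
        | exact nrm_le_vn _ _ _ _)
  refine (nrm_sum _ _ _).trans ((Finset.sum_le_sum fun p _ =>
    (nrm_sum _ _ _).trans (Finset.sum_le_sum fun r _ => key p r)).trans_eq ?_)
  simp only [Fin.sum_univ_two, vn]
  ring

theorem quad_dot {c : ℝ} {O P : V → V} (hc : 0 ≤ c) (hO : TV c 0 2 O) (hP : TV c 0 2 P)
    (hOs : ∀ u v, O (u - v) = O u - O v) (hPs : ∀ u v, P (u - v) = P u - P v) :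
    Quad (2 * c ^ 2) fun v => dot (O v) (P v) := by
  refine ⟨fun v => ?_, fun v w => ?_, fun s => ?_⟩
  · refine (nrm_dot_le 0 _ _).trans ?_
    refine (mul_le_mul (hO.1 v) (hP.1 v) (vn_nonneg _ _) (mul_nonneg hc (vn_nonneg _ _))).trans ?_
    nlinarith [sq_nonneg (c * vn 2 v)]
  · have e : dot (O v) (P v) - dot (O w) (P w) = dot (O (v - w)) (P v) + dot (O w) (P (v - w)) := by
      rw [hOs, hPs, dot_sub_left, dot_sub_right]; ring
    show nrm 0 (dot (O v) (P v) - dot (O w) (P w)) ≤ _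
    rw [e]
    refine (nrm_add _ _ _).trans ((add_le_add
      ((nrm_dot_le 0 _ _).trans (mul_le_mul (hO.1 (v - w)) (hP.1 v) (vn_nonneg _ _)
        (mul_nonneg hc (vn_nonneg _ _))))
      ((nrm_dot_le 0 _ _).trans (mul_le_mul (hO.1 w) (hP.1 (v - w)) (vn_nonneg _ _)
        (mul_nonneg hc (vn_nonneg _ _))))).trans ?_)
    nlinarith [mul_nonneg (mul_nonneg (sq_nonneg c) (vn_nonneg 2 (v - w)))
      (add_nonneg (vn_nonneg 2 v) (vn_nonneg 2 w))]
  · obtain ⟨C, hC, h⟩ := nrm_dot_tame s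
    obtain ⟨A, hA, hO'⟩ := hO.2 s
    obtain ⟨B, hB, hP'⟩ := hP.2 s
    have low : ∀ {T : V → V}, TV c 0 2 T → ∃ D, 0 ≤ D ∧ ∀ v, vn s (T v) ≤ D * vn (s + 2) v := by
      intro T hT
      cases s with
      | zero => exact ⟨c, hc, fun v => by simpa using hT.1 v⟩
      | succ t =>
        obtain ⟨E, hE, ht⟩ := hT.2 t
        exact ⟨c + E, by linarith, fun v => (ht v).trans (by
          rw [add_mul]
          exact add_le_add le_rfl (mul_le_mul_of_nonneg_left (vn_mono (by omega) v) hE))⟩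
    obtain ⟨D, hD, hDv⟩ := low hO
    obtain ⟨E, hE, hEv⟩ := low hP
    refine ⟨A * c + c * B + C * (D * E), by positivity, fun v => (h _ _).trans ?_⟩
    have hO1 : vn (s + 1) (O v) ≤ c * vn (s + 3) v + A * vn (s + 2) v := by simpa using hO' v
    have hP1 : vn (s + 1) (P v) ≤ c * vn (s + 3) v + B * vn (s + 2) v := by simpa using hP' v
    have hm : vn 2 v ≤ vn (s + 2) v := vn_mono (by omega) v
    have h2 := vn_nonneg (s + 2) v
    have h3 := vn_nonneg (s + 3) v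
    have t1 := mul_le_mul hO1 (hP.1 v) (vn_nonneg _ _) (by positivity)
    have t2 := mul_le_mul (hO.1 v) hP1 (vn_nonneg _ _) (mul_nonneg hc (vn_nonneg _ _))
    have t3 := mul_le_mul_of_nonneg_left
      (mul_le_mul (hDv v) (hEv v) (vn_nonneg _ _) (mul_nonneg hD h2)) hC
    have a1 := mul_le_mul_of_nonneg_left hm (mul_nonneg (mul_nonneg hA hc) h2)
    have a2 := mul_le_mul_of_nonneg_left hm (mul_nonneg (mul_nonneg hc hB) h2)
    nlinarith

theorem Quad.add {c c' : ℝ} {f g : V → S} (hf : Quad c f) (hg : Quad c' g) :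
    Quad (c + c') fun v => f v + g v := by
  refine ⟨fun v => (nrm_add _ _ _).trans ((add_le_add (hf.1 v) (hg.1 v)).trans_eq (by ring)),
    fun v w => ?_, fun s => ?_⟩
  · show nrm 0 (f v + g v - (f w + g w)) ≤ _
    rw [add_sub_add_comm]
    exact (nrm_add _ _ _).trans ((add_le_add (hf.2.1 v w) (hg.2.1 v w)).trans_eq (by ring))
  · obtain ⟨C, hC, h⟩ := hf.2.2 s
    obtain ⟨C', hC', h'⟩ := hg.2.2 s
    exact ⟨C + C', by linarith, fun v =>
      (nrm_add _ _ _).trans ((add_le_add (h v) (h' v)).trans_eq (by ring))⟩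

theorem Quad.smul {c : ℝ} {f : V → S} (r : ℝ) (hf : Quad c f) :
    Quad (|r| * c) fun v => r • f v := by
  refine ⟨fun v => ?_, fun v w => ?_, fun s => ?_⟩
  · rw [nrm_smul, mul_assoc]
    exact mul_le_mul_of_nonneg_left (hf.1 v) (abs_nonneg r)
  · show nrm 0 (r • f v - r • f w) ≤ _
    rw [← smul_sub, nrm_smul]
    exact (mul_le_mul_of_nonneg_left (hf.2.1 v w) (abs_nonneg r)).trans_eq (by ring)
  · obtain ⟨C, hC, h⟩ := hf.2.2 s
    refine ⟨|r| * C, by positivity, fun v => ?_⟩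
    rw [nrm_smul]
    exact (mul_le_mul_of_nonneg_left (h v) (abs_nonneg r)).trans_eq (by ring)

/-- A quadratic map with values two levels higher. -/
def Quad2 (c : ℝ) (f : V → S) : Prop :=
  (∀ v, nrm 2 (f v) ≤ c * vn 2 v ^ 2) ∧
  (∀ v w, nrm 2 (f v - f w) ≤ c * vn 2 (v - w) * (vn 2 v + vn 2 w)) ∧
  ∀ s, ∃ C, 0 ≤ C ∧ ∀ v, nrm (s + 3) (f v) ≤ c * vn (s + 3) v * vn 2 v + C * vn (s + 2) v ^ 2

theorem Quad.lift {c : ℝ} {f : V → S} (hc : 0 ≤ c) (hf : Quad c f) {G : S →ₗ[ℝ] S}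
    (hG : Tame 3 2 0 G) : Quad2 (3 * c) fun v => G (f v) := by
  refine ⟨fun v => (hG.1 _).trans ?_, fun v w => ?_, fun s => ?_⟩
  · exact (mul_le_mul_of_nonneg_left (hf.1 v) (by norm_num)).trans_eq (by ring)
  · show nrm 2 (G (f v) - G (f w)) ≤ _
    rw [← map_sub]
    exact ((hG.1 _).trans (mul_le_mul_of_nonneg_left (hf.2.1 v w) (by norm_num))).trans_eq (by ring)
  · obtain ⟨A, hA, hG'⟩ := hG.2 s
    obtain ⟨C, hC, h⟩ := hf.2.2 s
    obtain ⟨D, hD, low⟩ : ∃ D, 0 ≤ D ∧ ∀ v, nrm s (f v) ≤ D * vn (s + 2) v ^ 2 := by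
      cases s with
      | zero => exact ⟨c, hc, fun v => hf.1 v⟩
      | succ t =>
        obtain ⟨E, hE, ht⟩ := hf.2.2 t
        refine ⟨c + E, by linarith, fun v => (ht v).trans ?_⟩
        have m1 : vn 2 v ≤ vn (t + 3) v := vn_mono (by omega) v
        have m2 : vn (t + 2) v ≤ vn (t + 3) v := vn_mono (by omega) v
        have n3 := vn_nonneg (t + 3) v
        have p1 := mul_le_mul_of_nonneg_left m1 (mul_nonneg hc n3)
        have p2 := mul_le_mul_of_nonneg_left (pow_le_pow_left₀ (vn_nonneg (t + 2) v) m2 2) hE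
        show _ ≤ (c + E) * vn (t + 3) v ^ 2
        nlinarith
    refine ⟨3 * C + A * D, by positivity, fun v => ?_⟩
    have h1 := hG' (f v)
    rw [show s + 1 + 2 = s + 3 from rfl] at h1
    simp only [Nat.add_zero] at h1
    have h2 := mul_le_mul_of_nonneg_left (low v) hA
    nlinarith [h v]

end

end Vale.Agent.P205
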