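import Vale.Agent.P205.Norms
import Vale.Agent.P205.FixedPointOps

/-!
Günther's trick: small changes of the metric are reached without loss of derivatives.
-/

namespace Vale.Agent.P205

noncomputable section

/-- The five quadratic source terms. -/
def srcN (κ : Fin 2 → Fin 2 → S) (G : S →ₗ[ℝ] S) (l : Fin 2) (v : V) : S :=
  G (dot (Mop κ v) (Dt κ l v))

/-- The remainder before smoothing. -/
def srcR0 (κ : Fin 2 → Fin 2 → S) (q : Fin 3) (v : V) : S :=
  (2 : ℝ) • (dot (Dt κ 0 (Dt κ (q1 q) v)) (Dt κ 0 (Dt κ (q2 q) v))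
      + dot (Dt κ 1 (Dt κ (q1 q) v)) (Dt κ 1 (Dt κ (q2 q) v)))
    + dot (Dt κ (q1 q) v) (Dt κ (q2 q) v)
    + (-2 : ℝ) • dot (Mop κ v) (Dt κ (q1 q) (Dt κ (q2 q) v))

/-- One step of the iteration. -/
def step {κ : Fin 2 → Fin 2 → S} {F : V} (L : Solver κ F) (G : S →ₗ[ℝ] S) (h : Fin 3 → S)
    (v : V) : V := fun p r =>
  (∑ q, L.LH p r q ((1 / 2 : ℝ) • (h q - G (srcR0 κ q v)))) + ∑ l, L.LN p r l (srcN κ G l v)

theorem quad_src {κ : Fin 2 → Fin 2 → S} {Λ : ℝ} (hκ : ∀ p i, nrm 3 (κ p i) ≤ Λ) (hΛ : 1 ≤ Λ)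
    {G : S →ₗ[ℝ] S} (hG : Tame 3 2 0 G) :
    (∀ l, Quad2 (6 * (129 * Λ ^ 2) ^ 2) (srcN κ G l)) ∧
      ∀ q, Quad2 (42 * (129 * Λ ^ 2) ^ 2) fun v => G (srcR0 κ q v) := by
  have hD0 : ∀ a, TV (8 * Λ) 0 1 (Dt κ a) :=
    fun a => tv_Dt (fun p b => (nrm_mono (by omega) _).trans (hκ p b)) hΛ a
  have hD1 : ∀ a, TV (8 * Λ) 1 2 (Dt κ a) :=
    fun a => tv_Dt (fun p b => (nrm_mono (by omega) _).trans (hκ p b)) hΛ a
  have h8 : (0 : ℝ) ≤ 8 * Λ := by linarith
  set c := 129 * Λ ^ 2 with hcdef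
  have hΛ2 : Λ ≤ Λ ^ 2 := by nlinarith
  have hc : 0 ≤ c := by positivity
  have D1 : ∀ a, TV c 0 2 (Dt κ a) := fun a =>
    (hD0 a).mono h8 (by rw [hcdef]; nlinarith) (by norm_num)
  have DD : ∀ a b, TV c 0 2 (fun v => Dt κ a (Dt κ b v)) := fun a b =>
    ((hD0 a).comp h8 h8 (hD1 b)).mono (by positivity) (by rw [hcdef]; nlinarith) le_rfl
  have DM : TV c 0 2 (Mop κ) := by
    have h := (((hD0 0).comp h8 h8 (hD1 0)).add ((hD0 1).comp h8 h8 (hD1 1))).sub_id
    refine h.mono ?_ ?_ le_rfl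
    · positivity
    · rw [hcdef]; nlinarith
  have s1 : ∀ a, ∀ u v : V, Dt κ a (u - v) = Dt κ a u - Dt κ a v := fun a => Dt_sub a
  have s2 : ∀ a b, ∀ u v : V, Dt κ a (Dt κ b (u - v)) = Dt κ a (Dt κ b u) - Dt κ a (Dt κ b v) :=
    fun a b u v => by rw [Dt_sub, Dt_sub]
  refine ⟨fun l => ?_, fun q => ?_⟩
  · have h := (quad_dot hc DM (D1 l) Mop_sub (s1 l)).lift (by positivity) hG
    rw [show 6 * c ^ 2 = 3 * (2 * c ^ 2) by ring]
    exact h
  · have h := (((((quad_dot hc (DD 0 (q1 q)) (DD 0 (q2 q)) (s2 _ _) (s2 _ _)).add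
        (quad_dot hc (DD 1 (q1 q)) (DD 1 (q2 q)) (s2 _ _) (s2 _ _))).smul 2).add
        (quad_dot hc (D1 (q1 q)) (D1 (q2 q)) (s1 _) (s1 _))).add
        ((quad_dot hc DM (DD (q1 q) (q2 q)) Mop_sub (s2 _ _)).smul (-2))).lift
        (by positivity) hG
    rw [show 42 * c ^ 2 = 3 * (|(2 : ℝ)| * (2 * c ^ 2 + 2 * c ^ 2) + 2 * c ^ 2
      + |(-2 : ℝ)| * (2 * c ^ 2)) by norm_num; ring]
    exact h

theorem gram_step {κ : Fin 2 → Fin 2 → S} {F : V} (L : Solver κ F) (hκ : Closed κ)
    {G : S →ₗ[ℝ] S} (hG : ∀ f, G (lapM f) = f) (hGc : ∀ i f, G (pd i f) = pd i (G f))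
    (h : Fin 3 → S) (v : V) (hv : step L G h v = v) (q : Fin 3) :
    gram κ (F + v) q = gram κ F q + h q := by
  have hs : pd (q1 q) (dot (Dt κ (q2 q) F) (step L G h v) + srcN κ G (q2 q) v)
      + pd (q2 q) (dot (Dt κ (q1 q) F) (step L G h v) + srcN κ G (q1 q) v)
      - (2 : ℝ) • dot (Dt κ (q1 q) (Dt κ (q2 q) F)) (step L G h v)
      = (2 : ℝ) • ((1 / 2 : ℝ) • (h q - G (srcR0 κ q v))) :=
    L.spec (fun q => (1 / 2 : ℝ) • (h q - G (srcR0 κ q v))) (fun l => srcN κ G l v) q
  rw [hv, smul_smul, show (2 : ℝ) * (1 / 2) = 1 by norm_num, one_smul] at hs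
  have hgun := gunther hκ G hG hGc (q1 q) (q2 q) v
  have hR : G (srcR0 κ q v) = G (2 * (dot (Dt κ 0 (Dt κ (q1 q) v)) (Dt κ 0 (Dt κ (q2 q) v))
      + dot (Dt κ 1 (Dt κ (q1 q) v)) (Dt κ 1 (Dt κ (q2 q) v)))
      + dot (Dt κ (q1 q) v) (Dt κ (q2 q) v)
      - 2 * dot (Mop κ v) (Dt κ (q1 q) (Dt κ (q2 q) v))) := by
    congr 1
    simp only [srcR0, neg_smul, two_smul]
    ring
  simp only [map_add, pd_dot (κ := κ), srcN] at hs
  rw [Dt_comm hκ (q2 q) (q1 q) F, two_smul] at hs
  simp only [gram, Dt_add, dot_add_left, dot_add_right]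
  rw [dot_comm (Dt κ (q1 q) v) (Dt κ (q2 q) F), hgun, ← hR]
  linear_combination hs

theorem sum_apply_le {κ : Fin 2 → Fin 2 → S} {F : V} (L : Solver κ F) (p r : Fin 2) (t : ℕ)
    (H : Fin 3 → S) (Nv : Fin 2 → S) :
    nrm t ((∑ q, L.LH p r q (H q)) + ∑ l, L.LN p r l (Nv l))
      ≤ (∑ q, nrm t (L.LH p r q (H q))) + ∑ l, nrm t (L.LN p r l (Nv l)) :=
  (nrm_add _ _ _).trans (add_le_add (nrm_sum _ _ _) (nrm_sum _ _ _))

theorem exists_perturb : ∃ (C : ℝ) (k : ℕ), ∀ (κ : Fin 2 → Fin 2 → S) (F : V) (Λ K : ℝ)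
    (L : Solver κ F) (h : Fin 3 → S), Closed κ → 1 ≤ Λ → (∀ p i, nrm 3 (κ p i) ≤ Λ) →
    1 ≤ K → L.Bound K → C * (Λ * K) ^ k * ∑ q, nrm 2 (h q) < 1 →
    ∃ v : V, ∀ q, gram κ (F + v) q = gram κ F q + h q := by
  refine ⟨128 * 138 * 129 ^ 2, 4, fun κ F Λ K L h hκc hΛ hκ hK hL hsmall => ?_⟩
  obtain ⟨G, hG, hGinv, hGc⟩ := exists_G
  obtain ⟨hN, hR⟩ := quad_src hκ hΛ hG
  set H := ∑ q, nrm 2 (h q) with hH
  have hH0 : 0 ≤ H := Finset.sum_nonneg fun _ _ => nrm_nonneg _ _
  set A := 138 * (129 * Λ ^ 2) ^ 2 with hA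
  have hA0 : 0 ≤ A := by positivity
  have hkey : 128 * A * K ^ 2 * H ≤ 1 := by
    refine le_trans ?_ hsmall.le
    refine mul_le_mul_of_nonneg_right ?_ hH0
    rw [hA]
    have h4 : Λ ^ 4 * K ^ 2 ≤ (Λ * K) ^ 4 := by
      rw [mul_pow]
      exact mul_le_mul_of_nonneg_left (pow_le_pow_right₀ hK (by norm_num)) (by positivity)
    nlinarith
  -- bounds for one step
  have hK0 : 0 ≤ K := by linarith
  have step2 : ∀ v, vn 2 (step L G h v) ≤ 4 * K * (H + A * vn 2 v ^ 2) := by
    intro v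
    have hc : ∀ p r, nrm 2 (step L G h v p r) ≤ K * (H + A * vn 2 v ^ 2) := fun p r => by
      refine (sum_apply_le L p r 2 _ _).trans ?_
      have a : ∀ q, nrm 2 (L.LH p r q ((1 / 2 : ℝ) • (h q - G (srcR0 κ q v)))) ≤
          K * (nrm 2 (h q) + 42 * (129 * Λ ^ 2) ^ 2 * vn 2 v ^ 2) := fun q => by
        refine ((hL.1 p r q).1 _).trans (mul_le_mul_of_nonneg_left ?_ hK0)
        rw [nrm_smul, abs_of_nonneg (by norm_num : (0 : ℝ) ≤ 1 / 2)]
        linarith [nrm_sub 2 (h q) (G (srcR0 κ q v)), (hR q).1 v,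
          nrm_nonneg 2 (h q - G (srcR0 κ q v))]
      have b : ∀ l, nrm 2 (L.LN p r l (srcN κ G l v)) ≤
          K * (6 * (129 * Λ ^ 2) ^ 2 * vn 2 v ^ 2) := fun l =>
        ((hL.2 p r l).1 _).trans (mul_le_mul_of_nonneg_left ((hN l).1 v) hK0)
      refine (add_le_add (Finset.sum_le_sum fun q _ => a q)
        (Finset.sum_le_sum fun l _ => b l)).trans_eq ?_
      simp only [hH, hA, Fin.sum_univ_three, Fin.sum_univ_two]
      ring
    refine (Finset.sum_le_sum fun p _ => Finset.sum_le_sum fun r _ => hc p r).trans_eq ?_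
    simp only [Fin.sum_univ_two]
    ring
  have stepd : ∀ v w, vn 2 (step L G h v - step L G h w) ≤
      4 * K * (A * vn 2 (v - w) * (vn 2 v + vn 2 w)) := by
    intro v w
    have hc : ∀ p r, nrm 2 ((step L G h v - step L G h w) p r) ≤
        K * (A * vn 2 (v - w) * (vn 2 v + vn 2 w)) := fun p r => by
      simp only [Pi.sub_apply, step]
      rw [add_sub_add_comm, ← Finset.sum_sub_distrib, ← Finset.sum_sub_distrib]
      simp only [← map_sub]
      refine (sum_apply_le L p r 2 _ _).trans ?_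
      have a : ∀ q, nrm 2 (L.LH p r q ((1 / 2 : ℝ) • (h q - G (srcR0 κ q v))
          - (1 / 2 : ℝ) • (h q - G (srcR0 κ q w)))) ≤
          K * (42 * (129 * Λ ^ 2) ^ 2 * vn 2 (v - w) * (vn 2 v + vn 2 w)) := fun q => by
        refine ((hL.1 p r q).1 _).trans (mul_le_mul_of_nonneg_left ?_ hK0)
        rw [← smul_sub, sub_sub_sub_cancel_left, nrm_smul,
          abs_of_nonneg (by norm_num : (0 : ℝ) ≤ 1 / 2), ← neg_sub, nrm_neg]
        linarith [(hR q).2.1 v w, nrm_nonneg 2 (G (srcR0 κ q v) - G (srcR0 κ q w))]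
      have b : ∀ l, nrm 2 (L.LN p r l (srcN κ G l v - srcN κ G l w)) ≤
          K * (6 * (129 * Λ ^ 2) ^ 2 * vn 2 (v - w) * (vn 2 v + vn 2 w)) := fun l =>
        ((hL.2 p r l).1 _).trans (mul_le_mul_of_nonneg_left ((hN l).2.1 v w) hK0)
      refine (add_le_add (Finset.sum_le_sum fun q _ => a q)
        (Finset.sum_le_sum fun l _ => b l)).trans_eq ?_
      simp only [hA, Fin.sum_univ_three, Fin.sum_univ_two]
      ring
    refine (Finset.sum_le_sum fun p _ => Finset.sum_le_sum fun r _ => hc p r).trans_eq ?_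
    simp only [Fin.sum_univ_two]
    ring
  -- the iteration
  set u : ℕ → V := fun n => (step L G h)^[n] 0 with hu
  have u_succ : ∀ n, u (n + 1) = step L G h (u n) := fun n => Function.iterate_succ_apply' _ n 0
  set R := 8 * K * H with hRdef
  have hR0 : 0 ≤ R := by positivity
  have h8KAR : 8 * K * A * R ≤ 1 / 2 := by rw [hRdef]; nlinarith
  have ball : ∀ n, vn 2 (u n) ≤ R := by
    intro n
    induction n with
    | zero =>
      show vn 2 (0 : V) ≤ R
      rw [vn_zero]; exact hR0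
    | succ n ih =>
      rw [u_succ]
      refine (step2 _).trans ?_
      have := pow_le_pow_left₀ (vn_nonneg _ _) ih 2
      nlinarith [mul_le_mul_of_nonneg_left this (mul_nonneg hK0 hA0),
        mul_le_mul_of_nonneg_right h8KAR hR0]
  have contr : ∀ n, vn 2 (u (n + 1) - u n) ≤ R * (1 / 2) ^ n := by
    intro n
    induction n with
    | zero =>
      have h1 := ball 1
      have : u 0 = (0 : V) := rfl
      simpa [this] using h1
    | succ n ih =>
      rw [u_succ (n + 1)]
      conv_lhs => arg 2; arg 2; rw [u_succ n]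
      refine (stepd _ _).trans ?_
      have hb : vn 2 (u (n + 1)) + vn 2 (u n) ≤ 2 * R := by linarith [ball n, ball (n + 1)]
      have d0 := vn_nonneg 2 (u (n + 1) - u n)
      have e1 := mul_le_mul_of_nonneg_left hb (mul_nonneg (mul_nonneg hK0 hA0) d0)
      have e2 := mul_le_mul_of_nonneg_left h8KAR d0
      rw [pow_succ]
      nlinarith
  have bounded : ∀ s, ∃ B, 0 ≤ B ∧ ∀ n, vn (s + 2) (u n) ≤ B := by
    intro s
    induction s with
    | zero => exact ⟨R, hR0, ball⟩
    | succ s ih =>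
      obtain ⟨B, hB0, hB⟩ := ih
      have comp : ∀ p r, ∃ E, 0 ≤ E ∧ ∀ n, nrm (s + 3) (step L G h (u n) p r) ≤
          K * (A * vn (s + 3) (u n) * R) + E := by
        intro p r
        choose CH hCH hLH using fun q => (hL.1 p r q).2 s
        choose CN hCN hLN using fun l => (hL.2 p r l).2 s
        choose CR hCR hR' using fun q => (hR q).2.2 s
        choose CS hCS hN' using fun l => (hN l).2.2 s
        -- lower level bounds of the sources
        have lowQ : ∀ (f : V → S) (c : ℝ), 0 ≤ c → Quad2 c f →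
            ∃ D, 0 ≤ D ∧ ∀ n, nrm (s + 2) (f (u n)) ≤ D := by
          intro f c hc hf
          cases s with
          | zero =>
            exact ⟨c * R ^ 2, by positivity, fun n => (hf.1 _).trans
              (mul_le_mul_of_nonneg_left (pow_le_pow_left₀ (vn_nonneg _ _) (ball n) 2) hc)⟩
          | succ t =>
            obtain ⟨E, hE, ht⟩ := hf.2.2 t
            refine ⟨c * B * R + E * B ^ 2, by positivity, fun n => (ht _).trans (add_le_add
              (mul_le_mul (mul_le_mul_of_nonneg_left (hB n) hc) (ball n) (vn_nonneg _ _)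
                (mul_nonneg hc hB0))
              (mul_le_mul_of_nonneg_left (pow_le_pow_left₀ (vn_nonneg _ _)
                ((vn_mono (by omega) _).trans (hB n)) 2) hE))⟩
        choose DR hDR0 hDR using fun q => lowQ _ _ (by positivity) (hR q)
        choose DN hDN0 hDN using fun l => lowQ _ _ (by positivity) (hN l)
        refine ⟨(∑ q, (K * (nrm (s + 3) (h q) + CR q * B ^ 2)
            + CH q * (nrm (s + 2) (h q) + DR q)))
          + ∑ l, (K * (CS l * B ^ 2) + CN l * DN l), ?_, fun n => ?_⟩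
        · refine add_nonneg (Finset.sum_nonneg fun q _ => ?_) (Finset.sum_nonneg fun l _ => ?_)
          · have := hCR q
            have := hCH q
            have := hDR0 q
            have := nrm_nonneg (s + 3) (h q)
            have := nrm_nonneg (s + 2) (h q)
            positivity
          · have := hCS l
            have := hCN l
            have := hDN0 l
            positivity
        · set v := u n
          have hsq : vn (s + 2) v ^ 2 ≤ B ^ 2 := pow_le_pow_left₀ (vn_nonneg _ _) (hB n) 2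
          have hv3 := vn_nonneg (s + 3) v
          refine (sum_apply_le L p r (s + 3) _ _).trans ?_
          have a : ∀ q, nrm (s + 3) (L.LH p r q ((1 / 2 : ℝ) • (h q - G (srcR0 κ q v)))) ≤
              K * (42 * (129 * Λ ^ 2) ^ 2 * vn (s + 3) v * R)
              + (K * (nrm (s + 3) (h q) + CR q * B ^ 2)
                + CH q * (nrm (s + 2) (h q) + DR q)) := fun q => by
            refine (hLH q _).trans ?_
            have e : ∀ t, nrm t ((1 / 2 : ℝ) • (h q - G (srcR0 κ q v))) ≤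
                nrm t (h q) + nrm t (G (srcR0 κ q v)) := fun t => by
              rw [nrm_smul, abs_of_nonneg (by norm_num : (0 : ℝ) ≤ 1 / 2)]
              linarith [nrm_sub t (h q) (G (srcR0 κ q v)), nrm_nonneg t (h q - G (srcR0 κ q v))]
            have r3 : nrm (s + 3) (G (srcR0 κ q v)) ≤
                42 * (129 * Λ ^ 2) ^ 2 * vn (s + 3) v * R + CR q * B ^ 2 :=
              (hR' q v).trans (add_le_add (mul_le_mul_of_nonneg_left (ball n) (by positivity))
                (mul_le_mul_of_nonneg_left hsq (hCR q)))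
            have m1 := mul_le_mul_of_nonneg_left ((e (s + 1 + 2)).trans (add_le_add le_rfl r3)) hK0
            have m2 := mul_le_mul_of_nonneg_left
              ((e (s + 2)).trans (add_le_add le_rfl (hDR q n))) (hCH q)
            refine (add_le_add m1 m2).trans_eq ?_
            ring
          have b : ∀ l, nrm (s + 3) (L.LN p r l (srcN κ G l v)) ≤
              K * (6 * (129 * Λ ^ 2) ^ 2 * vn (s + 3) v * R)
              + (K * (CS l * B ^ 2) + CN l * DN l) := fun l => by
            refine (hLN l _).trans ?_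
            have r3 : nrm (s + 3) (srcN κ G l v) ≤
                6 * (129 * Λ ^ 2) ^ 2 * vn (s + 3) v * R + CS l * B ^ 2 :=
              (hN' l v).trans (add_le_add (mul_le_mul_of_nonneg_left (ball n) (by positivity))
                (mul_le_mul_of_nonneg_left hsq (hCS l)))
            refine (add_le_add (mul_le_mul_of_nonneg_left r3 hK0)
              (mul_le_mul_of_nonneg_left (hDN l n) (hCN l))).trans_eq ?_
            ring
          refine (add_le_add (Finset.sum_le_sum fun q _ => a q)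
            (Finset.sum_le_sum fun l _ => b l)).trans_eq ?_
          simp only [hA, Fin.sum_univ_three, Fin.sum_univ_two]
          ring
      choose E hE0 hE using comp
      set E' := ∑ p, ∑ r, E p r
      have hE' : 0 ≤ E' := Finset.sum_nonneg fun p _ => Finset.sum_nonneg fun r _ => hE0 p r
      refine ⟨2 * E', by positivity, fun n => ?_⟩
      induction n with
      | zero =>
        show vn (s + 3) (0 : V) ≤ _
        rw [vn_zero]; positivity
      | succ n ih =>
        rw [u_succ]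
        have hsum : vn (s + 3) (step L G h (u n)) ≤
            4 * K * A * R * vn (s + 3) (u n) + E' := by
          refine (Finset.sum_le_sum fun p _ => Finset.sum_le_sum fun r _ => hE p r n).trans_eq ?_
          simp only [E', Fin.sum_univ_two]
          ring
        refine hsum.trans ?_
        have := mul_le_mul_of_nonneg_left ih (show 0 ≤ 4 * K * A * R by positivity)
        nlinarith [mul_le_mul_of_nonneg_right h8KAR hE']
  have hb : ∀ p r s, ∃ B, ∀ n, nrm s (u n p r) ≤ B := fun p r s => by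
    obtain ⟨B, -, hB⟩ := bounded s
    exact ⟨B, fun n => ((nrm_le_vn _ _ _ _).trans (vn_mono (Nat.le_add_right s 2) _)).trans (hB n)⟩
  choose v hv using fun p r => exists_lim (fun n => u n p r) 2 (hb p r) (1 / 2) R (by norm_num)
    (by norm_num) fun n => (nrm_le_vn 2 (u (n + 1) - u n) p r).trans (contr n)
  have hlim : Filter.Tendsto (fun n => vn 2 (u n - (v : V))) Filter.atTop (nhds 0) := by
    have := tendsto_finsetSum Finset.univ fun p _ =>
      tendsto_finsetSum Finset.univ fun r _ => hv p r 2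
    simpa [vn] using this
  have hvball : vn 2 (v : V) ≤ R := by
    refine le_of_tendsto_of_tendsto' tendsto_const_nhds
      (by simpa using hlim.const_add R) fun n => ?_
    have h1 := vn_sub 2 (u n) (u n - v)
    rw [sub_sub_cancel] at h1
    linarith [ball n]
  have hfix : step L G h v = v := by
    have hzero : vn 2 (step L G h v - v) ≤ 0 := by
      refine le_of_tendsto_of_tendsto' tendsto_const_nhds
        (by simpa using (hlim.comp (Filter.tendsto_add_atTop_nat 1)).add hlim) fun n => ?_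
      have h1 := vn_add 2 (step L G h v - u (n + 1)) (u (n + 1) - v)
      rw [sub_add_sub_cancel] at h1
      have h2 : vn 2 (step L G h v - u (n + 1)) ≤ vn 2 (u n - v) := by
        rw [u_succ, vn_comm]
        refine (stepd _ _).trans ?_
        have hb2 : vn 2 (u n) + vn 2 (v : V) ≤ 2 * R := by linarith [ball n]
        have d0 := vn_nonneg 2 (u n - v)
        nlinarith [mul_le_mul_of_nonneg_left hb2 (mul_nonneg (mul_nonneg hK0 hA0) d0),
          mul_le_mul_of_nonneg_left h8KAR d0]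
      show vn 2 (step L G h v - v) ≤ vn 2 (u (n + 1) - v) + vn 2 (u n - v)
      linarith
    funext p r
    have h0 : nrm 2 ((step L G h v - v) p r) = 0 :=
      le_antisymm ((nrm_le_vn 2 _ p r).trans hzero) (nrm_nonneg _ _)
    refine sub_eq_zero.1 (Subtype.ext (funext fun X => abs_eq_zero.1 (le_antisymm ?_ (abs_nonneg _))))
    exact (abs_apply_le ((step L G h v - v) p r) X).trans
      ((nrm_mono (Nat.zero_le 2) _).trans h0.le)
  exact ⟨v, gram_step L hκc hGinv hGc h v hfix⟩

end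

end Vale.Agent.P205
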