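import Vale.Agent.P205.FourierLift

/-!
Fourier series of smooth functions on the torus.
-/

namespace Vale.Agent.P205

noncomputable section

open MeasureTheory

theorem fc_add (f g : S) (k : Freq) : fc (f + g) k = fc f k + fc g k := by
  simp only [fc_eq_J]
  rw [← J_add (by fun_prop) (by fun_prop)]
  congr 1
  funext X
  show ((f.1 X + g.1 X : ℝ) : ℂ) * _ = _
  push_cast
  ring

theorem fc_smul (c : ℝ) (f : S) (k : Freq) : fc (c • f) k = c • fc f k := by
  simp only [fc_eq_J, Complex.real_smul]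
  rw [← J_const_mul]
  congr 1
  funext X
  show ((c * f.1 X : ℝ) : ℂ) * _ = _
  push_cast
  ring

theorem fc_cst (c : ℝ) (k : Freq) : fc (cst c) k = if k = 0 then (c : ℂ) else 0 := by
  rw [fc_eq_J]
  change J (fun X => (c : ℂ) * ee (-k) X) = _
  rw [J_const_mul, J_ee]
  simp

theorem fc_zero_avg (f : S) : fc f 0 = (avg f : ℂ) := by
  rw [fc_eq_J]
  simp only [neg_zero, ee_zero, mul_one]
  unfold J avg
  rw [← intervalIntegral.integral_ofReal]
  refine intervalIntegral.integral_congr fun x _ => ?_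
  exact intervalIntegral.integral_ofReal

theorem fc_pd (i : Fin 2) (f : S) (k : Freq) : fc (pd i f) k = (2 * Real.pi * fq k i : ℝ) * Complex.I * fc f k := by
  simp only [fc_eq_J]
  rw [← J_const_mul]
  have hd : ∀ (X : ℝ × ℝ) (v : ℝ × ℝ),
      HasDerivAt (fun t : ℝ => (f.1 (X + t • v) : ℂ)) ((fderiv ℝ f.1 X v : ℝ) : ℂ) 0 := by
    intro X v
    have := ((f.smooth.differentiable (by simp) X).hasFDerivAt).hasLineDerivAt v
    exact HasDerivAt.ofReal_comp this
  fin_cases i
  · refine (J_swap _ (by fun_prop)).trans (Eq.trans ?_ (J_swap _ (by fun_prop)).symm)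
    refine intervalIntegral.integral_congr fun y _ => ?_
    have hd' : ∀ t : ℝ, HasDerivAt (fun t : ℝ => (f.1 (t, y) : ℂ))
        ((fderiv ℝ f.1 (t, y) (1, 0) : ℝ) : ℂ) t := by
      intro t
      have h0 := hd (t, y) (1, 0)
      simp only [Prod.smul_mk, smul_eq_mul, mul_one, mul_zero, Prod.mk_add_mk, add_zero] at h0
      have h1 : (t - t) = (0 : ℝ) := sub_self t
      have h2 := HasDerivAt.comp_sub_const t t (h1 ▸ h0)
      simpa using h2
    exact parts hd' ((pd 0 f).continuous.comp (continuous_id.prodMk continuous_const))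
      (by simpa using f.periodic (0, y) 1 0) k.1 k.2 y (fun t => by simp [ee, sub_eq_add_neg])
  · refine intervalIntegral.integral_congr fun x _ => ?_
    have hd' : ∀ t : ℝ, HasDerivAt (fun t : ℝ => (f.1 (x, t) : ℂ))
        ((fderiv ℝ f.1 (x, t) (0, 1) : ℝ) : ℂ) t := by
      intro t
      have h0 := hd (x, t) (0, 1)
      simp only [Prod.smul_mk, smul_eq_mul, mul_one, mul_zero, Prod.mk_add_mk, add_zero] at h0
      have h1 : (t - t) = (0 : ℝ) := sub_self t
      have h2 := HasDerivAt.comp_sub_const t t (h1 ▸ h0)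
      simpa using h2
    exact parts hd' ((pd 1 f).continuous.comp (continuous_const.prodMk continuous_id))
      (by simpa using f.periodic (x, 0) 0 1) k.2 k.1 x
      (fun t => by simp [ee]; ring_nf)

theorem fc_neg_freq (f : S) (k : Freq) : fc f (-k) = starRingEnd ℂ (fc f k) := by
  simp only [fc_eq_J, neg_neg]
  unfold J
  rw [← intervalIntegral.intervalIntegral_conj]
  refine intervalIntegral.integral_congr fun x _ => ?_
  rw [← intervalIntegral.intervalIntegral_conj]
  refine intervalIntegral.integral_congr fun y _ => ?_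
  dsimp only
  rw [map_mul, Complex.conj_ofReal, ← ee_neg, neg_neg]

theorem summable_nrm (s : ℕ) (f : S) : Summable fun k => wt k ^ s * ‖fc f k‖ := by
  have hfc : ∀ (g : S) (k : Freq), ∀ B : ℝ, (∀ X, |g.1 X| ≤ B) → ‖fc g k‖ ≤ B := by
    intro g k B hB
    rw [fc_eq_J]
    exact norm_J_le fun X => by simpa [norm_ee] using hB X
  have hit : ∀ (i : Fin 2) (n : ℕ) (g : S) (k : Freq),
      (2 * Real.pi * |(fq k i : ℝ)|) ^ n * ‖fc g k‖ = ‖fc (((pd i) ^ n) g) k‖ := by
    intro i n
    induction n with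
    | zero => simp
    | succ n ih =>
      intro g k
      rw [pow_succ' (pd i), Module.End.mul_apply, fc_pd, norm_mul, norm_mul, Complex.norm_I,
        mul_one, Complex.norm_real, Real.norm_eq_abs, abs_mul, abs_of_pos Real.two_pi_pos, ← ih,
        pow_succ]
      ring
  set m := s + 4 with hm
  obtain ⟨B, -, hB⟩ := exists_bound f
  obtain ⟨B0, -, hB0⟩ := exists_bound (((pd 0) ^ m) f)
  obtain ⟨B1, -, hB1⟩ := exists_bound (((pd 1) ^ m) f)
  refine Summable.of_nonneg_of_le (fun k => mul_nonneg (pow_nonneg (wt_pos k).le _) (norm_nonneg _))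
    (fun k => ?_) (summable_inv_wt.mul_left (3 ^ m * (B + B0 + B1)))
  have key : wt k ^ m * ‖fc f k‖ ≤ 3 ^ m * (B + B0 + B1) := by
    have h2 : ∀ a : ℝ, 0 ≤ a → a ≤ 2 * Real.pi * a := fun a ha => by
      nlinarith [Real.two_le_pi]
    have e0 : |(k.1 : ℝ)| ^ m * ‖fc f k‖ ≤ B0 := by
      refine le_trans ?_ ((hit 0 m f k).le.trans (hfc _ k B0 hB0))
      gcongr
      exact h2 _ (abs_nonneg _)
    have e1 : |(k.2 : ℝ)| ^ m * ‖fc f k‖ ≤ B1 := by
      refine le_trans ?_ ((hit 1 m f k).le.trans (hfc _ k B1 hB1))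
      gcongr
      exact h2 _ (abs_nonneg _)
    have e2 := hfc f k B hB
    have h3 : wt k ^ m ≤ 3 ^ m * (1 + |(k.1 : ℝ)| ^ m + |(k.2 : ℝ)| ^ m) := by
      have hM : wt k ≤ 3 * max 1 (max |(k.1 : ℝ)| |(k.2 : ℝ)|) := by
        unfold wt
        linarith [le_max_left (1 : ℝ) (max |(k.1 : ℝ)| |(k.2 : ℝ)|),
          le_max_right (1 : ℝ) (max |(k.1 : ℝ)| |(k.2 : ℝ)|),
          le_max_left |(k.1 : ℝ)| |(k.2 : ℝ)|, le_max_right |(k.1 : ℝ)| |(k.2 : ℝ)|]
      refine (pow_le_pow_left₀ (wt_pos k).le hM m).trans ?_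
      rw [mul_pow]
      refine mul_le_mul_of_nonneg_left ?_ (by positivity)
      rcases max_choice (1 : ℝ) (max |(k.1 : ℝ)| |(k.2 : ℝ)|) with h | h <;> rw [h]
      · simp only [one_pow]
        linarith [pow_nonneg (abs_nonneg (k.1 : ℝ)) m, pow_nonneg (abs_nonneg (k.2 : ℝ)) m]
      · rcases max_choice |(k.1 : ℝ)| |(k.2 : ℝ)| with h' | h' <;> rw [h'] <;>
          linarith [pow_nonneg (abs_nonneg (k.1 : ℝ)) m, pow_nonneg (abs_nonneg (k.2 : ℝ)) m]
    calc wt k ^ m * ‖fc f k‖
        ≤ 3 ^ m * (1 + |(k.1 : ℝ)| ^ m + |(k.2 : ℝ)| ^ m) * ‖fc f k‖ := by gcongr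
      _ ≤ 3 ^ m * (B + B0 + B1) := by
        rw [mul_assoc]
        refine mul_le_mul_of_nonneg_left ?_ (by positivity)
        linarith
  rw [hm, pow_add] at key
  have := wt_pos k
  rw [le_mul_inv_iff₀ (by positivity)]
  rw [hm]
  linarith

theorem hasSum_fc (f : S) (X : ℝ × ℝ) : HasSum (fun k : Freq => fc f k *
      Complex.exp ((2 * Real.pi * (k.1 * X.1 + k.2 * X.2) : ℝ) * Complex.I)) (f.1 X : ℂ) := by
  change HasSum (fun k : Freq => fc f k * ee k X) _
  have hs : Summable fun k => ‖fc f k‖ := by simpa using summable_nrm 0 f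
  obtain ⟨F, hF⟩ := exists_lift f
  let e : (Fin 2 → ℤ) ≃ Freq := finTwoArrowEquiv ℤ
  have hc : ∀ n, UnitAddTorus.mFourierCoeff F n = fc f (e n) := fun n => by
    rw [fc_eq_J, coeff_lift f F hF n]
    rfl
  have h := UnitAddTorus.hasSum_mFourier_series_apply_of_summable (f := F)
    (by
      refine Summable.of_norm ?_
      simp_rw [hc]
      exact e.summable_iff.2 hs)
    (fun i => ((![X.1, X.2] i : ℝ) : UnitAddCircle))
  rw [hF] at h
  simp only [Matrix.cons_val_zero, Matrix.cons_val_one, Matrix.cons_val_fin_one] at h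
  refine (e.hasSum_iff).1 ?_
  refine h.congr_fun fun n => ?_
  rw [Function.comp_apply, hc, mFourier_eq_ee, smul_eq_mul]
  rfl

theorem fc_injective : Function.Injective fun (f : S) (k : Freq) => fc f k := by
  intro f g h
  refine Subtype.ext (funext fun X => ?_)
  have hf := hasSum_fc f X
  have hg := hasSum_fc g X
  simp only [funext_iff] at h
  simp only [h] at hf
  exact_mod_cast hf.unique hg

theorem exists_synth (c : Freq → ℂ) (hc : ∀ k, c (-k) = starRingEnd ℂ (c k))
    (hs : ∀ s : ℕ, Summable fun k => wt k ^ s * ‖c k‖) : ∃ f : S, ∀ k, fc f k = c k := by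
  have h0 : Summable fun k => ‖c k‖ := by simpa using hs 0
  let T : ℝ × ℝ → ℂ := fun X => ∑' k, c k * ee k X
  have hT : ∀ X, HasSum (fun k => c k * ee k X) (T X) := fun X =>
    (Summable.of_norm (by simpa [norm_ee] using h0)).hasSum
  have hTper : ∀ (X : ℝ × ℝ) (m n : ℤ), T (X.1 + m, X.2 + n) = T X := fun X m n => by
    simp [T, ee_periodic]
  have hTsm : ContDiff ℝ (⊤ : ℕ∞) T := by
    refine contDiff_tsum (v := fun m k => (2 * Real.pi) ^ m * (wt k ^ m * ‖c k‖))
      (fun k => contDiff_const.mul (contDiff_ee k)) (fun m _ => (hs m).mul_left _)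
      fun m k X _ => norm_iteratedFDeriv_ee_le c m k X
  have hreal : ∀ X, (T X).im = 0 := fun X => by
    rw [← Complex.conj_eq_iff_im]
    refine HasSum.unique ((Complex.hasSum_conj'.2 (hT X))) ?_
    refine ((Equiv.neg Freq).hasSum_iff.2 (hT X)).congr_fun fun k => ?_
    simp [hc, ee_neg]
  refine ⟨⟨fun X => (T X).re, Complex.reCLM.contDiff.comp hTsm,
    fun X m n => by simp [hTper X m n]⟩, fun k => ?_⟩
  rw [fc_eq_J]
  have hTre : ∀ X, ((T X).re : ℂ) = T X := fun X =>
    Complex.ext (by simp) (by simp [hreal X])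
  simp only [hTre]
  have h1 := hasSum_J (φ := fun l X => c l * ee (l - k) X) (Φ := fun X => T X * ee (-k) X) h0
    (fun l => by fun_prop) (fun l X => by simp [norm_ee]) (fun X => by
      refine ((hT X).mul_right (ee (-k) X)).congr_fun fun l => ?_
      rw [sub_eq_add_neg, ee_add]
      ring)
  simp only [J_const_mul, J_ee] at h1
  refine h1.unique ?_
  convert hasSum_single k fun l hl => ?_ using 1
  · simp
  · rw [if_neg (sub_ne_zero.2 hl), mul_zero]

theorem hasSum_fc_mul (f g : S) (k : Freq) : HasSum (fun l : Freq => fc f l * fc g (k - l)) (fc (f * g) k) := by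
  obtain ⟨B, -, hB⟩ := exists_bound g
  have h0 : Summable fun l => ‖fc f l‖ := by simpa using summable_nrm 0 f
  have h := hasSum_J (φ := fun l X => fc f l * ((g.1 X : ℂ) * ee (-(k - l)) X))
    (Φ := fun X => ((f * g).1 X : ℂ) * ee (-k) X) (h0.mul_right B)
    (fun l => by fun_prop) (fun l X => by
      simp only [norm_mul, norm_ee, mul_one, Complex.norm_real, Real.norm_eq_abs]
      exact mul_le_mul_of_nonneg_left (hB X) (norm_nonneg _))
    (fun X => by
      have hf : HasSum (fun l => fc f l * ee l X) (f.1 X : ℂ) := hasSum_fc f X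
      refine ((hf.mul_right ((g.1 X : ℂ) * ee (-k) X)).congr_fun fun l => ?_).trans_eq ?_
      · rw [neg_sub, sub_eq_add_neg, ee_add]
        ring
      · rw [show (f * g).1 X = f.1 X * g.1 X from rfl]
        push_cast
        ring)
  simpa only [J_const_mul, ← fc_eq_J] using h

theorem avg_sq_pos (f : S) (hf : f ≠ 0) : 0 < avg (f * f) := by
  have h := hasSum_fc_mul f f 0
  simp only [zero_sub, fc_neg_freq, Complex.mul_conj, Complex.normSq_eq_norm_sq] at h
  rw [fc_zero_avg, Complex.hasSum_ofReal] at h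
  obtain ⟨k, hk⟩ : ∃ k, fc f k ≠ 0 := by
    by_contra hall
    push Not at hall
    refine hf (fc_injective (funext fun k => ?_))
    simpa [hall k] using (fc_smul 0 f k).symm
  refine lt_of_lt_of_le (by positivity : (0 : ℝ) < ‖fc f k‖ ^ 2) (le_hasSum h k fun l _ => ?_)
  positivity

/-- Fourier multipliers with a real, even, bounded symbol. -/
theorem exists_mult (m : Freq → ℝ) (hev : ∀ k, m (-k) = m k) (B : ℝ) (hb : ∀ k, |m k| ≤ B) : ∃ L : S →ₗ[ℝ] S, ∀ f k, fc (L f) k = m k • fc f k := by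
  have hB0 : 0 ≤ B := (abs_nonneg _).trans (hb 0)
  have h : ∀ f : S, ∃ g : S, ∀ k, fc g k = m k • fc f k := fun f =>
    exists_synth _ (fun k => by simp [hev, fc_neg_freq, Complex.real_smul])
      fun s => Summable.of_nonneg_of_le
        (fun k => mul_nonneg (pow_nonneg (wt_pos k).le _) (norm_nonneg _))
        (fun k => by
          rw [norm_smul, Real.norm_eq_abs, mul_left_comm]
          exact mul_le_mul_of_nonneg_right (hb k)
            (mul_nonneg (pow_nonneg (wt_pos k).le _) (norm_nonneg _)))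
        ((summable_nrm s f).mul_left B)
  choose L hL using h
  refine ⟨{ toFun := L, map_add' := fun f g => ?_, map_smul' := fun c f => ?_ }, hL⟩
  · exact fc_injective (funext fun k => by simp [fc_add, hL, smul_add])
  · exact fc_injective (funext fun k => by simp [fc_smul, hL]; ring)

end

end Vale.Agent.P205
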