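import Vale.Agent.P205.Defs

/-!
Auxiliary facts on integrals over the unit square and on exponentials of frequencies.
-/

namespace Vale.Agent.P205

noncomputable section

open MeasureTheory intervalIntegral
open scoped Interval

/-- The exponential of a frequency. -/
def ee (k : Freq) (X : ℝ × ℝ) : ℂ :=
  Complex.exp ((2 * Real.pi * (k.1 * X.1 + k.2 * X.2) : ℝ) * Complex.I)

theorem norm_ee (k : Freq) (X : ℝ × ℝ) : ‖ee k X‖ = 1 := Complex.norm_exp_ofReal_mul_I _

theorem ee_add (k l : Freq) (X : ℝ × ℝ) : ee (k + l) X = ee k X * ee l X := by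
  unfold ee
  rw [← Complex.exp_add]
  congr 1
  simp only [Prod.fst_add, Prod.snd_add]
  push_cast
  ring

theorem ee_zero (X : ℝ × ℝ) : ee 0 X = 1 := by simp [ee]

theorem ee_neg (k : Freq) (X : ℝ × ℝ) : ee (-k) X = starRingEnd ℂ (ee k X) := by
  unfold ee
  rw [← Complex.exp_conj, map_mul, Complex.conj_I, Complex.conj_ofReal]
  congr 1
  simp only [Prod.fst_neg, Prod.snd_neg]
  push_cast
  ring

@[fun_prop]
theorem continuous_ee (k : Freq) : Continuous (ee k) := by
  unfold ee
  fun_prop

theorem ee_periodic (k : Freq) (X : ℝ × ℝ) (m n : ℤ) : ee k (X.1 + m, X.2 + n) = ee k X := by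
  unfold ee
  rw [Complex.exp_eq_exp_iff_exists_int]
  exact ⟨k.1 * m + k.2 * n, by push_cast; ring⟩

theorem ee_mk (k : Freq) (x y : ℝ) :
    ee k (x, y) = ee (k.1, 0) (x, y) * ee (0, k.2) (x, y) := by
  rw [← ee_add]
  simp

/-- The integral over the unit square. -/
def J (φ : ℝ × ℝ → ℂ) : ℂ := ∫ x in (0 : ℝ)..1, ∫ y in (0 : ℝ)..1, φ (x, y)

theorem continuous_inner {φ : ℝ × ℝ → ℂ} (hφ : Continuous φ) :
    Continuous fun x => ∫ y in (0 : ℝ)..1, φ (x, y) :=
  continuous_parametric_intervalIntegral_of_continuous' (f := fun x y => φ (x, y))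
    (hφ.comp (continuous_fst.prodMk continuous_snd)) 0 1

theorem J_add {φ ψ : ℝ × ℝ → ℂ} (hφ : Continuous φ) (hψ : Continuous ψ) :
    J (fun X => φ X + ψ X) = J φ + J ψ := by
  unfold J
  rw [← intervalIntegral.integral_add ((continuous_inner hφ).intervalIntegrable 0 1)
    ((continuous_inner hψ).intervalIntegrable 0 1)]
  refine intervalIntegral.integral_congr fun x _ => ?_
  exact intervalIntegral.integral_add ((hφ.comp (by fun_prop)).intervalIntegrable 0 1)
    ((hψ.comp (by fun_prop)).intervalIntegrable 0 1)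

theorem J_const_mul (c : ℂ) (φ : ℝ × ℝ → ℂ) : J (fun X => c * φ X) = c * J φ := by
  unfold J
  simp_rw [intervalIntegral.integral_const_mul]

theorem norm_J_le {φ : ℝ × ℝ → ℂ} {B : ℝ} (hB : ∀ X, ‖φ X‖ ≤ B) : ‖J φ‖ ≤ B := by
  refine (intervalIntegral.norm_integral_le_of_norm_le_const (C := B) fun x _ => ?_).trans
    (by simp)
  exact (intervalIntegral.norm_integral_le_of_norm_le_const (C := B) fun y _ => hB _).trans
    (by simp)

/-- Termwise integration of a uniformly summable family. -/
theorem hasSum_J {ι : Type*} [Countable ι] {φ : ι → ℝ × ℝ → ℂ} {Φ : ℝ × ℝ → ℂ} {u : ι → ℝ}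
    (hu : Summable u) (hc : ∀ l, Continuous (φ l)) (hb : ∀ l X, ‖φ l X‖ ≤ u l)
    (hs : ∀ X, HasSum (fun l => φ l X) (Φ X)) : HasSum (fun l => J (φ l)) (J Φ) := by
  unfold J
  refine intervalIntegral.hasSum_integral_of_dominated_convergence (fun l _ => u l)
    (fun l => (continuous_inner (hc l)).aestronglyMeasurable)
    (fun l => Filter.Eventually.of_forall fun x _ => ?_)
    (Filter.Eventually.of_forall fun x _ => hu) intervalIntegrable_const
    (Filter.Eventually.of_forall fun x _ => ?_)
  · exact (intervalIntegral.norm_integral_le_of_norm_le_const fun y _ => hb l _).trans (by simp)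
  · exact intervalIntegral.hasSum_integral_of_dominated_convergence (fun l _ => u l)
      (fun l => ((hc l).comp (by fun_prop)).aestronglyMeasurable)
      (fun l => Filter.Eventually.of_forall fun y _ => hb l _)
      (Filter.Eventually.of_forall fun y _ => hu) intervalIntegrable_const
      (Filter.Eventually.of_forall fun y _ => hs _)

theorem integral_one_exp (n : ℤ) :
    ∫ x in (0 : ℝ)..1, Complex.exp ((2 * Real.pi * (n * x) : ℝ) * Complex.I)
      = if n = 0 then 1 else 0 := by
  rcases eq_or_ne n 0 with rfl | hn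
  · simp
  · rw [if_neg hn]
    have hc : (2 * Real.pi * n * Complex.I : ℂ) ≠ 0 := by
      simp [Real.pi_ne_zero, Complex.I_ne_zero, hn]
    have : (fun x : ℝ => Complex.exp ((2 * Real.pi * (n * x) : ℝ) * Complex.I))
        = fun x : ℝ => Complex.exp ((2 * Real.pi * n * Complex.I) * x) := by
      funext x; congr 1; push_cast; ring
    rw [this, integral_exp_mul_complex hc]
    have h1 : Complex.exp ((2 * Real.pi * n * Complex.I) * (1 : ℝ)) = 1 := by
      rw [← Complex.exp_int_mul_two_pi_mul_I n]; congr 1; push_cast; ring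
    rw [h1]
    simp

theorem J_ee (k : Freq) : J (ee k) = if k = 0 then 1 else 0 := by
  unfold J
  have h : ∀ x : ℝ, ∫ y in (0 : ℝ)..1, ee k (x, y)
      = Complex.exp ((2 * Real.pi * (k.1 * x) : ℝ) * Complex.I) * if k.2 = 0 then 1 else 0 := by
    intro x
    rw [← integral_one_exp k.2, ← intervalIntegral.integral_const_mul]
    refine intervalIntegral.integral_congr fun y _ => ?_
    simp only [ee]
    rw [← Complex.exp_add]
    congr 1
    push_cast
    ring
  simp_rw [h]
  rw [intervalIntegral.integral_mul_const, integral_one_exp]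
  rcases eq_or_ne k 0 with rfl | hk
  · simp
  · rw [if_neg hk]
    by_cases h1 : k.1 = 0
    · have h2 : k.2 ≠ 0 := fun h2 => hk (Prod.ext h1 h2)
      simp [h2]
    · simp [h1]

theorem fc_eq_J (f : S) (k : Freq) : fc f k = J fun X => (f.1 X : ℂ) * ee (-k) X := by
  unfold fc J ee
  refine intervalIntegral.integral_congr fun x _ =>
    intervalIntegral.integral_congr fun y _ => ?_
  simp only [Prod.fst_neg, Prod.snd_neg]
  congr 2
  push_cast
  ring

@[fun_prop]
theorem S.continuous (f : S) : Continuous f.1 := f.smooth.continuous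

theorem exists_bound (f : S) : ∃ B, 0 ≤ B ∧ ∀ X, |f.1 X| ≤ B := by
  obtain ⟨B, hB⟩ := ((isCompact_Icc.prod isCompact_Icc : IsCompact
    (Set.Icc (0 : ℝ) 1 ×ˢ Set.Icc (0 : ℝ) 1)).exists_bound_of_continuousOn
    f.continuous.continuousOn)
  refine ⟨max B 0, le_max_right _ _, fun X => ?_⟩
  have hX : f.1 X = f.1 (Int.fract X.1, Int.fract X.2) := by
    have := f.periodic (Int.fract X.1, Int.fract X.2) ⌊X.1⌋ ⌊X.2⌋
    simpa [Int.fract_add_floor] using this
  rw [hX]
  exact (hB _ ⟨⟨Int.fract_nonneg _, (Int.fract_lt_one _).le⟩,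
    Int.fract_nonneg _, (Int.fract_lt_one _).le⟩).trans (le_max_left _ _)

theorem wt_pos (k : Freq) : 0 < wt k := by unfold wt; positivity

theorem one_le_wt (k : Freq) : 1 ≤ wt k := by
  unfold wt
  have h1 := abs_nonneg (k.1 : ℝ)
  have h2 := abs_nonneg (k.2 : ℝ)
  linarith

theorem wt_neg (k : Freq) : wt (-k) = wt k := by simp [wt]

theorem summable_inv_wt : Summable fun k : Freq => (wt k ^ 4)⁻¹ := by
  have h1 : Summable fun n : ℤ => ((1 + |(n : ℝ)|) ^ 2)⁻¹ := by
    refine Summable.of_nonneg_of_le (fun n => by positivity) (fun n => ?_)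
      ((Real.summable_one_div_int_pow.2 one_lt_two).add
        (summable_of_hasFiniteSupport (Set.Finite.subset (Set.finite_singleton (0 : ℤ))
          (by intro n hn; simpa using hn) :
          (Function.support fun n : ℤ => if n = 0 then (1 : ℝ) else 0).Finite)))
    rcases eq_or_ne n 0 with rfl | hn
    · simp
    · have hpos : (0 : ℝ) < |(n : ℝ)| := by simpa using hn
      rw [if_neg hn, add_zero, one_div, ← sq_abs (n : ℝ)]
      gcongr
      linarith
  refine Summable.of_nonneg_of_le (fun k => by have := wt_pos k; positivity) (fun k => ?_)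
    (h1.mul_of_nonneg h1 (fun n => by positivity) fun n => by positivity)
  rw [← mul_inv]
  gcongr
  calc (1 + |(k.1 : ℝ)|) ^ 2 * (1 + |(k.2 : ℝ)|) ^ 2 ≤ wt k ^ 2 * wt k ^ 2 := by
        gcongr <;> (unfold wt; linarith [abs_nonneg (k.1 : ℝ), abs_nonneg (k.2 : ℝ)])
    _ = wt k ^ 4 := by ring

end

end Vale.Agent.P205
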