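import Vale.Agent.P205.FourierAux

/-!
Lifting to the torus, integration by parts, and bounds on derivatives of exponentials.
-/

namespace Vale.Agent.P205

noncomputable section

open MeasureTheory

theorem J_swap (φ : ℝ × ℝ → ℂ) (hφ : Continuous φ) :
    J φ = ∫ y in (0 : ℝ)..1, ∫ x in (0 : ℝ)..1, φ (x, y) := by
  unfold J
  simp only [intervalIntegral.integral_of_le (zero_le_one' ℝ)]
  refine integral_integral_swap ?_
  rw [Measure.prod_restrict]
  exact ((hφ.integrableOn_Icc).mono_set (by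
    rintro ⟨x, y⟩ ⟨⟨hx1, hx2⟩, hy1, hy2⟩
    exact ⟨⟨hx1.le, hy1.le⟩, hx2, hy2⟩ : Set.Ioc (0 : ℝ) 1 ×ˢ Set.Ioc (0 : ℝ) 1 ⊆
      Set.Icc ((0 : ℝ), (0 : ℝ)) (1, 1)))

theorem parts {g : ℝ → ℝ} {g' : ℝ → ℝ}
    (hd : ∀ t, HasDerivAt (fun t => (g t : ℂ)) (g' t : ℂ) t) (hc : Continuous g')
    (hper : g (0 + (1 : ℤ)) = g 0) (a b : ℤ) (z : ℝ) {E : ℝ → ℂ}
    (hE : ∀ t, E t = Complex.exp ((2 * Real.pi * (-(a * t) - b * z) : ℝ) * Complex.I)) :
    ∫ t in (0 : ℝ)..1, (g' t : ℂ) * E t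
      = ∫ t in (0 : ℝ)..1, (2 * Real.pi * a : ℝ) * Complex.I * ((g t : ℂ) * E t) := by
  have hE' : E = fun t => Complex.exp ((2 * Real.pi * (-(a * t) - b * z) : ℝ) * Complex.I) :=
    funext hE
  subst hE'
  set w : ℂ := -((2 * Real.pi * a : ℝ) * Complex.I) with hw
  set E : ℝ → ℂ := fun t =>
    Complex.exp ((2 * Real.pi * (-(a * t) - b * z) : ℝ) * Complex.I) with hEd
  have hEder : ∀ t, HasDerivAt E (E t * w) t := fun t => by
    have h1 : HasDerivAt (fun t : ℝ => 2 * Real.pi * (-(a * t) - b * z))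
        (-(2 * Real.pi * a)) t := by
      have := (((hasDerivAt_id t).const_mul (a : ℝ)).neg.sub_const (b * z)).const_mul (2 * Real.pi)
      simpa [mul_comm, mul_left_comm, mul_assoc] using this
    have h2 := (h1.ofReal_comp.mul_const Complex.I).cexp
    simpa [hEd, hw] using h2
  have hEper : E 1 = E 0 := by
    simp only [hEd]
    rw [Complex.exp_eq_exp_iff_exists_int]
    exact ⟨-a, by push_cast; ring⟩
  have hEc : Continuous E := continuous_iff_continuousAt.2 fun t => (hEder t).continuousAt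
  have := intervalIntegral.integral_mul_deriv_eq_deriv_mul (a := (0 : ℝ)) (b := 1)
    (fun t _ => hEder t) (fun t _ => hd t)
    ((hEc.mul continuous_const).intervalIntegrable 0 1)
    ((Complex.continuous_ofReal.comp hc).intervalIntegrable 0 1)
  rw [Int.cast_one, zero_add] at hper
  rw [hEper, hper, sub_self, zero_sub, ← intervalIntegral.integral_neg] at this
  refine Eq.trans (intervalIntegral.integral_congr fun t _ => mul_comm _ _) (this.trans ?_)
  exact intervalIntegral.integral_congr fun t _ => by simp [hw]; ring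

theorem exists_lift (f : S) : ∃ F : C(UnitAddTorus (Fin 2), ℂ), ∀ x : Fin 2 → ℝ,
    F (fun i => (x i : UnitAddCircle)) = (f.1 (x 0, x 1) : ℂ) := by
  let g : UnitAddTorus (Fin 2) → ℂ := fun z =>
    (f.1 ((AddCircle.equivIco 1 0 (z 0) : ℝ), (AddCircle.equivIco 1 0 (z 1) : ℝ)) : ℂ)
  have hg : ∀ x : Fin 2 → ℝ, g (fun i => (x i : UnitAddCircle)) = (f.1 (x 0, x 1) : ℂ) := by
    intro x
    have hfl : ∀ t : ℝ, ∃ n : ℤ, (AddCircle.equivIco 1 0 (t : UnitAddCircle) : ℝ) = t + n :=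
      fun t => ⟨-⌊t⌋, by simp [AddCircle.coe_equivIco_mk_apply, Int.fract, sub_eq_add_neg]⟩
    obtain ⟨m, hm⟩ := hfl (x 0)
    obtain ⟨n, hn⟩ := hfl (x 1)
    simp only [g, hm, hn]
    exact congrArg _ (f.periodic (x 0, x 1) m n)
  refine ⟨⟨g, ?_⟩, hg⟩
  have hq : IsOpenQuotientMap (Prod.map (QuotientAddGroup.mk : ℝ → UnitAddCircle)
      (QuotientAddGroup.mk : ℝ → UnitAddCircle)) :=
    QuotientAddGroup.isOpenQuotientMap_mk.prodMap QuotientAddGroup.isOpenQuotientMap_mk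
  have hG : Continuous fun p : UnitAddCircle × UnitAddCircle => g ![p.1, p.2] := by
    refine hq.continuous_comp_iff.1 ?_
    have : ((fun p : UnitAddCircle × UnitAddCircle => g ![p.1, p.2]) ∘
        Prod.map (QuotientAddGroup.mk : ℝ → UnitAddCircle) QuotientAddGroup.mk)
        = fun X : ℝ × ℝ => (f.1 X : ℂ) := by
      funext X
      have h1 := hg ![X.1, X.2]
      simp only [Matrix.cons_val_zero, Matrix.cons_val_one, Matrix.cons_val_fin_one] at h1
      rw [← h1, Function.comp_apply]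
      congr 1
    rw [this]
    fun_prop
  have : g = (fun p : UnitAddCircle × UnitAddCircle => g ![p.1, p.2]) ∘
      fun z : UnitAddTorus (Fin 2) => (z 0, z 1) := by
    funext z
    rw [Function.comp_apply]
    congr 1
    funext i
    fin_cases i <;> rfl
  rw [this]
  exact hG.comp ((continuous_apply 0).prodMk (continuous_apply 1))

theorem mFourier_eq_ee (n : Fin 2 → ℤ) (X : ℝ × ℝ) :
    UnitAddTorus.mFourier n (fun i => ((![X.1, X.2] i : ℝ) : UnitAddCircle))
      = ee (n 0, n 1) X := by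
  simp only [UnitAddTorus.mFourier, ContinuousMap.coe_mk, Fin.prod_univ_two, fourier_coe_apply,
    Matrix.cons_val_zero, Matrix.cons_val_one, Matrix.cons_val_fin_one]
  rw [ee, ← Complex.exp_add]
  congr 1
  push_cast
  ring

theorem coeff_lift (f : S) (F : C(UnitAddTorus (Fin 2), ℂ))
    (hF : ∀ x : Fin 2 → ℝ, F (fun i => (x i : UnitAddCircle)) = (f.1 (x 0, x 1) : ℂ))
    (n : Fin 2 → ℤ) :
    UnitAddTorus.mFourierCoeff F n = J fun X => (f.1 X : ℂ) * ee (-(n 0, n 1)) X := by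
  rw [UnitAddTorus.mFourierCoeff_eq_integral F n 0]
  have hset : {x : Fin 2 → ℝ | ∀ i, x i ∈ Set.Ioc ((0 : Fin 2 → ℝ) i) ((0 : Fin 2 → ℝ) i + 1)}
      = (MeasurableEquiv.finTwoArrow : (Fin 2 → ℝ) ≃ᵐ ℝ × ℝ) ⁻¹'
        (Set.Ioc (0 : ℝ) 1 ×ˢ Set.Ioc (0 : ℝ) 1) := by
    ext x
    simp [Fin.forall_fin_two, MeasurableEquiv.finTwoArrow, MeasurableEquiv.piFinTwo]
  rw [hset]
  refine Eq.trans (Eq.trans ?_ ((volume_preserving_finTwoArrow ℝ).setIntegral_preimage_emb
    MeasurableEquiv.finTwoArrow.measurableEmbedding (fun X : ℝ × ℝ =>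
      (f.1 X : ℂ) * ee (-(n 0, n 1)) X) (Set.Ioc (0 : ℝ) 1 ×ˢ Set.Ioc (0 : ℝ) 1))) ?_
  · refine setIntegral_congr_fun
      ((measurableSet_Ioc.prod measurableSet_Ioc).preimage MeasurableEquiv.finTwoArrow.measurable)
      fun x _ => ?_
    rw [smul_eq_mul, hF, mul_comm]
    congr 1
    show _ = ee (-(n 0, n 1)) (x 0, x 1)
    rw [show (-(n 0, n 1) : Freq) = ((-n) 0, (-n) 1) from rfl, ← mFourier_eq_ee]
    congr 1
    funext i
    fin_cases i <;> rfl
  · rw [Measure.volume_eq_prod]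
    unfold J
    simp only [intervalIntegral.integral_of_le (zero_le_one' ℝ)]
    refine setIntegral_prod _ ?_
    exact ((show Continuous (fun X : ℝ × ℝ => (f.1 X : ℂ) * ee (-(n 0, n 1)) X) by
      fun_prop).integrableOn_Icc).mono_set (by
      rintro ⟨x, y⟩ ⟨⟨hx1, hx2⟩, hy1, hy2⟩
      exact ⟨⟨hx1.le, hy1.le⟩, hx2, hy2⟩ : Set.Ioc (0 : ℝ) 1 ×ˢ Set.Ioc (0 : ℝ) 1 ⊆
        Set.Icc ((0 : ℝ), (0 : ℝ)) (1, 1))

theorem contDiff_ee (k : Freq) : ContDiff ℝ (⊤ : ℕ∞) (ee k) := by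
  unfold ee
  have h : ContDiff ℝ (⊤ : ℕ∞) fun X : ℝ × ℝ => 2 * Real.pi * (k.1 * X.1 + k.2 * X.2) :=
    contDiff_const.mul ((contDiff_const.mul contDiff_fst).add (contDiff_const.mul contDiff_snd))
  exact ((Complex.ofRealCLM.contDiff.comp h).mul contDiff_const).cexp

theorem norm_iteratedFDeriv_ee_le (c : Freq → ℂ) (m : ℕ) (k : Freq) (X : ℝ × ℝ) :
    ‖iteratedFDeriv ℝ m (fun Y => c k * ee k Y) X‖
      ≤ (2 * Real.pi) ^ m * (wt k ^ m * ‖c k‖) := by
  let L : ℝ × ℝ →L[ℝ] ℝ :=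
    (2 * Real.pi * k.1) • ContinuousLinearMap.fst ℝ ℝ ℝ +
      (2 * Real.pi * k.2) • ContinuousLinearMap.snd ℝ ℝ ℝ
  let h : ℝ → ℂ := fun t => c k * Complex.exp ((t : ℂ) * Complex.I)
  have hfun : (fun Y => c k * ee k Y) = h ∘ L := by
    funext Y
    simp [h, L, ee, mul_add, mul_assoc]
  have hh : ∀ (m : ℕ), iteratedDeriv m h = fun t => Complex.I ^ m * h t := by
    intro m
    induction m with
    | zero => simp
    | succ m ih =>
      rw [iteratedDeriv_succ, ih]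
      funext t
      have : HasDerivAt (fun t => Complex.I ^ m * h t) (Complex.I ^ (m + 1) * h t) t := by
        have h1 := ((((hasDerivAt_id t).ofReal_comp).mul_const Complex.I).cexp.const_mul
          (c k)).const_mul (Complex.I ^ m)
        refine h1.congr_deriv ?_
        simp [h]
        ring
      exact this.deriv
  have hsm : ContDiff ℝ (⊤ : ℕ∞) h :=
    contDiff_const.mul (Complex.ofRealCLM.contDiff.mul contDiff_const).cexp
  rw [hfun, ContinuousLinearMap.iteratedFDeriv_comp_right L hsm X (by exact_mod_cast le_top)]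
  refine (ContinuousMultilinearMap.norm_compContinuousLinearMap_le _ _).trans ?_
  rw [norm_iteratedFDeriv_eq_norm_iteratedDeriv, hh, Finset.prod_const, Finset.card_univ,
    Fintype.card_fin]
  have hL : ‖L‖ ≤ 2 * Real.pi * wt k := by
    refine L.opNorm_le_bound (by have := wt_pos k; positivity) fun Y => ?_
    have h1 : |Y.1| ≤ ‖Y‖ := norm_fst_le Y
    have h2 : |Y.2| ≤ ‖Y‖ := norm_snd_le Y
    simp only [L, add_apply, smul_apply, ContinuousLinearMap.coe_fst',
      ContinuousLinearMap.coe_snd', smul_eq_mul, Real.norm_eq_abs]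
    refine (abs_add_le _ _).trans ?_
    have e : ∀ a b : ℝ, |2 * Real.pi * a * b| = 2 * Real.pi * |a| * |b| := fun a b => by
      rw [abs_mul, abs_mul, abs_of_pos Real.two_pi_pos]
    rw [e, e]
    calc 2 * Real.pi * |(k.1 : ℝ)| * |Y.1| + 2 * Real.pi * |(k.2 : ℝ)| * |Y.2|
        ≤ 2 * Real.pi * |(k.1 : ℝ)| * ‖Y‖ + 2 * Real.pi * |(k.2 : ℝ)| * ‖Y‖ := by gcongr
      _ ≤ 2 * Real.pi * wt k * ‖Y‖ := by
        unfold wt
        nlinarith [mul_nonneg Real.two_pi_pos.le (norm_nonneg Y)]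
  calc _ ≤ ‖c k‖ * (2 * Real.pi * wt k) ^ m := by
        refine mul_le_mul (le_of_eq ?_) (pow_le_pow_left₀ (norm_nonneg _) hL m) (by positivity)
          (norm_nonneg _)
        simp [h, Complex.norm_exp_ofReal_mul_I]
    _ = _ := by rw [mul_pow]; ring

end

end Vale.Agent.P205
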