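import Vale.Agent.P205.Defs

/-!
From the rotating frame to maps into `ℝ⁴`.
-/

namespace Vale.Agent.P205

noncomputable section

open Polynomial
open scoped RealInnerProductSpace

theorem dPoly_zero (i : Fin 2) : dPoly i 0 = 0 := Polynomial.sum_zero_index _

theorem dPoly_add (i : Fin 2) (A B : Polynomial S) : dPoly i (A + B) = dPoly i A + dPoly i B :=
  Polynomial.sum_add_index A B _ (fun n => by simp) fun n a b => by simp

theorem eval_dPoly (i : Fin 2) (A : Polynomial S) (t : ℝ) :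
    (dPoly i A).eval (cst t) = pd i (A.eval (cst t)) := by
  induction A using Polynomial.induction_on' with
  | add p q hp hq => rw [dPoly_add, eval_add, eval_add, map_add, hp, hq]
  | monomial n c =>
    rw [dPoly, Polynomial.sum_monomial_index _ _ (by simp), eval_monomial, eval_monomial,
      show cst t ^ n = cst (t ^ n) from (map_pow (algebraMap ℝ S) t n).symm, pd_mul, pd_cst,
      mul_zero, add_zero]

theorem fderiv_eq_pd (f : S) (X v : ℝ × ℝ) :
    fderiv ℝ f.1 X v = v.1 * (pd 0 f).1 X + v.2 * (pd 1 f).1 X := by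
  have hv : v = v.1 • unitV 0 + v.2 • unitV 1 := by simp [unitV]
  conv_lhs => rw [hv, map_add, map_smul, map_smul]
  rfl

/-- The phase with periods `n · per` and periodic part `n · ph`. -/
def theta (n : ℕ) (per : Fin 2 → ℝ) (ph : S) (X : ℝ × ℝ) : ℝ :=
  (n : ℝ) * (per 0 * X.1 + per 1 * X.2 + ph.1 X)

theorem theta_smooth (n : ℕ) (per : Fin 2 → ℝ) (ph : S) :
    ContDiff ℝ (⊤ : ℕ∞) (theta n per ph) :=
  contDiff_const.mul (((contDiff_const.mul contDiff_fst).add (contDiff_const.mul contDiff_snd)).add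
    ph.smooth)

theorem fderiv_theta (n : ℕ) (per : Fin 2 → ℝ) (ph : S) (X v : ℝ × ℝ) :
    fderiv ℝ (theta n per ph) X v = v.1 * ((n : ℝ) • (cst (per 0) + pd 0 ph)).1 X
      + v.2 * ((n : ℝ) • (cst (per 1) + pd 1 ph)).1 X := by
  have h := ((((hasFDerivAt_fst (𝕜 := ℝ) (p := X)).const_mul (per 0)).add
    ((hasFDerivAt_snd (𝕜 := ℝ) (p := X)).const_mul (per 1))).add
    (ph.smooth.differentiable (by simp) X).hasFDerivAt).const_mul (n : ℝ)
  have h' : HasFDerivAt (theta n per ph) _ X := h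
  rw [h'.fderiv]
  simp [cst, -pd_apply]
  rw [fderiv_eq_pd]
  ring

/-- The components in a plane. -/
def rot (θ : ℝ × ℝ → ℝ) (a b : S) (r : Fin 2) (X : ℝ × ℝ) : ℝ :=
  if r = 0 then Real.cos (θ X) * a.1 X - Real.sin (θ X) * b.1 X
  else Real.sin (θ X) * a.1 X + Real.cos (θ X) * b.1 X

theorem rot_smooth {θ : ℝ × ℝ → ℝ} (hθ : ContDiff ℝ (⊤ : ℕ∞) θ) (a b : S) (r : Fin 2) :
    ContDiff ℝ (⊤ : ℕ∞) (rot θ a b r) := by
  unfold rot
  split
  · exact (hθ.cos.mul a.smooth).sub (hθ.sin.mul b.smooth)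
  · exact (hθ.sin.mul a.smooth).add (hθ.cos.mul b.smooth)

theorem fderiv_rot {θ : ℝ × ℝ → ℝ} (hθ : ContDiff ℝ (⊤ : ℕ∞) θ) (a b : S) (X v : ℝ × ℝ) :
    fderiv ℝ (rot θ a b 0) X v
        = Real.cos (θ X) * (fderiv ℝ a.1 X v - fderiv ℝ θ X v * b.1 X)
          - Real.sin (θ X) * (fderiv ℝ b.1 X v + fderiv ℝ θ X v * a.1 X) ∧
      fderiv ℝ (rot θ a b 1) X v
        = Real.sin (θ X) * (fderiv ℝ a.1 X v - fderiv ℝ θ X v * b.1 X)
          + Real.cos (θ X) * (fderiv ℝ b.1 X v + fderiv ℝ θ X v * a.1 X) := by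
  have hd := (hθ.differentiable (by simp) X).hasFDerivAt
  have ha := (a.smooth.differentiable (by simp) X).hasFDerivAt
  have hb := (b.smooth.differentiable (by simp) X).hasFDerivAt
  have h0 : HasFDerivAt (rot θ a b 0) _ X := (hd.cos.mul ha).sub (hd.sin.mul hb)
  have h1 : HasFDerivAt (rot θ a b 1) _ X := (hd.sin.mul ha).add (hd.cos.mul hb)
  rw [h0.fderiv, h1.fderiv]
  constructor <;> simp <;> ring

theorem rot_pair (t a b a' b' : ℝ) :
    (Real.cos t * a' - Real.sin t * b') * (Real.cos t * a - Real.sin t * b)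
      + (Real.sin t * a' + Real.cos t * b') * (Real.sin t * a + Real.cos t * b)
      = a' * a + b' * b := by
  linear_combination (a' * a + b' * b) * Real.sin_sq_add_cos_sq t

/-- The map into `ℝ⁴` of a periodic vector in the rotating frame. -/
def toMap (n : ℕ) (per : Fin 2 → Fin 2 → ℝ) (ph : Fin 2 → S) (u : V) (X : ℝ × ℝ) :
    EuclideanSpace ℝ (Fin 4) :=
  WithLp.toLp 2 fun m => ![rot (theta n (per 0) (ph 0)) (u 0 0) (u 0 1) 0 X,
    rot (theta n (per 0) (ph 0)) (u 0 0) (u 0 1) 1 X,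
    rot (theta n (per 1) (ph 1)) (u 1 0) (u 1 1) 0 X,
    rot (theta n (per 1) (ph 1)) (u 1 0) (u 1 1) 1 X] m

theorem toMap_smooth (n : ℕ) (per : Fin 2 → Fin 2 → ℝ) (ph : Fin 2 → S) (u : V) :
    ContDiff ℝ (⊤ : ℕ∞) (toMap n per ph u) := by
  rw [contDiff_piLp]
  intro m
  fin_cases m
  · exact rot_smooth (theta_smooth n (per 0) (ph 0)) (u 0 0) (u 0 1) 0
  · exact rot_smooth (theta_smooth n (per 0) (ph 0)) (u 0 0) (u 0 1) 1
  · exact rot_smooth (theta_smooth n (per 1) (ph 1)) (u 1 0) (u 1 1) 0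
  · exact rot_smooth (theta_smooth n (per 1) (ph 1)) (u 1 0) (u 1 1) 1

theorem toMap_periodic (n : ℕ) (per : Fin 2 → Fin 2 → ℝ) (ph : Fin 2 → S) (u : V)
    (hint : ∀ p i, ∃ z : ℤ, (n : ℝ) * per p i = 2 * Real.pi * z) :
    Periodic2 (toMap n per ph u) := by
  intro X l m
  have ht : ∀ p, ∃ z : ℤ, theta n (per p) (ph p) (X.1 + l, X.2 + m)
      = theta n (per p) (ph p) X + z * (2 * Real.pi) := fun p => by
    obtain ⟨z₀, h₀⟩ := hint p 0
    obtain ⟨z₁, h₁⟩ := hint p 1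
    refine ⟨z₀ * l + z₁ * m, ?_⟩
    simp only [theta, (ph p).periodic X l m]
    push_cast
    linear_combination (l : ℝ) * h₀ + (m : ℝ) * h₁
  obtain ⟨z, hz⟩ := ht 0
  obtain ⟨z', hz'⟩ := ht 1
  ext i
  fin_cases i <;>
    simp [toMap, rot, hz, hz', (u 0 0).periodic X l m, (u 0 1).periodic X l m,
      (u 1 0).periodic X l m, (u 1 1).periodic X l m]

theorem inner_fderiv_toMap (n : ℕ) (per : Fin 2 → Fin 2 → ℝ) (ph : Fin 2 → S) (u : V)
    (κ : Fin 2 → Fin 2 → S) (hκ : ∀ p i, κ p i = (n : ℝ) • (cst (per p i) + pd i (ph p)))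
    (X v w : ℝ × ℝ) :
    ⟪fderiv ℝ (toMap n per ph u) X v, fderiv ℝ (toMap n per ph u) X w⟫
      = v.1 * w.1 * (gram κ u 0).1 X + (v.1 * w.2 + v.2 * w.1) * (gram κ u 1).1 X
        + v.2 * w.2 * (gram κ u 2).1 X := by
  have hdiff : DifferentiableAt ℝ (toMap n per ph u) X :=
    (toMap_smooth n per ph u).differentiable (by simp) X
  have hc : ∀ (m : Fin 4) (z : ℝ × ℝ), fderiv ℝ (toMap n per ph u) X z m
      = fderiv ℝ (fun Y => toMap n per ph u Y m) X z := fun m z => by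
    have h := ((EuclideanSpace.proj (𝕜 := ℝ) m).hasFDerivAt.comp X hdiff.hasFDerivAt).fderiv
    exact (congrArg (fun L : (ℝ × ℝ) →L[ℝ] ℝ => L z) h).symm
  rw [PiLp.inner_apply, Fin.sum_univ_four]
  simp only [RCLike.inner_apply, conj_trivial, hc]
  have e0 : (fun Y => toMap n per ph u Y 0) = rot (theta n (per 0) (ph 0)) (u 0 0) (u 0 1) 0 := rfl
  have e1 : (fun Y => toMap n per ph u Y 1) = rot (theta n (per 0) (ph 0)) (u 0 0) (u 0 1) 1 := rfl
  have e2 : (fun Y => toMap n per ph u Y 2) = rot (theta n (per 1) (ph 1)) (u 1 0) (u 1 1) 0 := rfl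
  have e3 : (fun Y => toMap n per ph u Y 3) = rot (theta n (per 1) (ph 1)) (u 1 0) (u 1 1) 1 := rfl
  rw [e0, e1, e2, e3]
  simp only [fun p z => (fderiv_rot (theta_smooth n (per p) (ph p)) (u p 0) (u p 1) X z).1,
    fun p z => (fderiv_rot (theta_smooth n (per p) (ph p)) (u p 0) (u p 1) X z).2]
  simp only [rot_pair, add_assoc]
  simp only [fderiv_theta, ← hκ, fderiv_eq_pd]
  have hg : ∀ q, (gram κ u q).1 X = ∑ p, ∑ r,
      (Dt κ (q1 q) u p r).1 X * (Dt κ (q2 q) u p r).1 X := fun q => by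
    simp [gram, dot, Fin.sum_univ_two]
  simp only [hg, Fin.sum_univ_two, Dt]
  simp [q1, q2, -pd_apply]
  ring

end

end Vale.Agent.P205
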