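import Vale.Agent.P205.Norms

/-!
Approximate solutions to every order in `ε`.
-/

namespace Vale.Agent.P205

noncomputable section

open Polynomial

theorem dPoly_coeff (i : Fin 2) (A : Polynomial S) (n : ℕ) :
    (dPoly i A).coeff n = pd i (A.coeff n) := by
  classical
  rw [dPoly, Polynomial.sum_def, finsetSum_coeff, Finset.sum_eq_single n]
  · simp
  · intro b _ hb
    simp [coeff_monomial, hb]
  · intro hn
    simp [notMem_support_iff.1 hn]

theorem dPhase_eq {g : Fin 3 → S} (N : Net g) (Q : Fin 2 → Polynomial S) (p i : Fin 2) :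
    dPhase N Q p i = C (cst (N.per p i)) + dPoly i (Q p) := rfl

theorem dPoly_add_monomial (i : Fin 2) (A : Polynomial S) (n : ℕ) (c : S) :
    dPoly i (A + C c * X ^ n) = dPoly i A + C (pd i c) * X ^ n := by
  ext m : 1
  rw [coeff_add, dPoly_coeff, dPoly_coeff, coeff_add, coeff_C_mul_X_pow, coeff_C_mul_X_pow,
    map_add]
  split <;> simp

/-- The differential of the net. -/
def Net.dph {g : Fin 3 → S} (N : Net g) (p i : Fin 2) : S := cst (N.per p i) + pd i (N.ph p)

theorem Net.dual' {g : Fin 3 → S} (N : Net g) (i j : Fin 2) :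
    ∑ a, N.frame a i * N.dph a j = if i = j then 1 else 0 := by
  have h : (Matrix.of fun p i => N.dph p i) * (Matrix.of fun i a => N.frame a i) = 1 :=
    Matrix.ext fun p a => by
      simpa [Matrix.mul_apply, Matrix.one_apply, Net.dph] using N.dual p a
  have h' := congrArg (fun M : Matrix (Fin 2) (Fin 2) S => M i j) (mul_eq_one_comm.1 h)
  simpa [Matrix.mul_apply, Matrix.one_apply] using h'

/-- The linearised metric at `ε = 0`. -/
def lin0 {g : Fin 3 → S} (N : Net g) (α π : Fin 2 → S) (q : Fin 3) : S :=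
  ∑ p, (2 * N.amp p * α p * (N.dph p (q1 q) * N.dph p (q2 q))
    + N.amp p * N.amp p * (N.dph p (q1 q) * pd (q2 q) (π p) + pd (q1 q) (π p) * N.dph p (q2 q)))

theorem exists_lin0 {g : Fin 3 → S} (N : Net g) (r : Fin 3 → S) :
    ∃ α π : Fin 2 → S, ∀ q, lin0 N α π q = r q := by
  let T : Fin 2 → Fin 2 → S := fun a b =>
    N.frame a 0 * N.frame b 0 * r 0 + N.frame a 0 * N.frame b 1 * r 1
      + N.frame a 1 * N.frame b 0 * r 1 + N.frame a 1 * N.frame b 1 * r 2
  let π : Fin 2 → S := fun p => N.rinv p (T 0 1)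
  let D : Fin 2 → Fin 2 → S := fun a p => ∑ i, N.frame a i * pd i (π p)
  let α : Fin 2 → S := fun p => N.ampInv p * (cst (1 / 2) * T p p) - N.amp p * D p p
  refine ⟨α, π, fun q => ?_⟩
  have hD : ∀ j p, pd j (π p) = N.dph 0 j * D 0 p + N.dph 1 j * D 1 p := fun j p => by
    have h0 := N.dual' 0 j
    have h1 := N.dual' 1 j
    simp only [Fin.sum_univ_two] at h0 h1
    simp only [D, Fin.sum_univ_two]
    fin_cases j <;> simp at h0 h1 ⊢ <;>
      linear_combination (-(pd 0 (π p))) * h0 + (-(pd 1 (π p))) * h1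
  have h01 : T 0 1 = N.amp 0 * N.amp 0 * D 1 0 + N.amp 1 * N.amp 1 * D 0 1 :=
    (N.rinv_spec (T 0 1)).symm
  have hh : (2 : S) * cst (1 / 2) = 1 := by
    rw [show (2 : S) = cst 2 from (map_ofNat (algebraMap ℝ S) 2).symm, cst, cst, ← map_mul]
    norm_num
  have hα : ∀ p, 2 * N.amp p * α p = T p p - 2 * (N.amp p * N.amp p * D p p) := fun p => by
    simp only [α]
    linear_combination (2 * cst (1 / 2) * T p p) * N.amp_inv p + T p p * hh
  have e00 := N.dual' 0 0
  have e01 := N.dual' 0 1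
  have e10 := N.dual' 1 0
  have e11 := N.dual' 1 1
  simp [Fin.sum_univ_two] at e00 e01 e10 e11
  have hr : r q = N.dph 0 (q1 q) * N.dph 0 (q2 q) * T 0 0
      + (N.dph 0 (q1 q) * N.dph 1 (q2 q) + N.dph 1 (q1 q) * N.dph 0 (q2 q)) * T 0 1
      + N.dph 1 (q1 q) * N.dph 1 (q2 q) * T 1 1 := by
    -- contract twice with the dual frame
    let P : Fin 2 → Fin 2 → S := fun i j => N.frame 0 i * N.dph 0 j + N.frame 1 i * N.dph 1 j
    have hP : ∀ i j, P i j = if i = j then 1 else 0 := fun i j => by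
      rw [← N.dual' i j, Fin.sum_univ_two]
    calc r q = P 0 (q1 q) * P 0 (q2 q) * r 0
          + (P 0 (q1 q) * P 1 (q2 q) + P 1 (q1 q) * P 0 (q2 q)) * r 1
          + P 1 (q1 q) * P 1 (q2 q) * r 2 := by
          simp only [hP]; fin_cases q <;> simp [q1, q2]
      _ = _ := by simp only [P, T]; ring
  rw [hr, h01]
  simp only [lin0, Fin.sum_univ_two, hD, hα]
  ring

theorem residual_step {g : Fin 3 → S} (N : Net g) (A Q : Fin 2 → Polynomial S) (n : ℕ)
    (hn : n ≠ 0) (hA : ∀ p, (A p).coeff 0 = N.amp p) (hQ : ∀ p, (Q p).coeff 0 = N.ph p)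
    (h : ∀ q, X ^ n ∣ residual N A Q q) :
    ∃ A' Q' : Fin 2 → Polynomial S, (∀ p, (A' p).coeff 0 = N.amp p) ∧
      (∀ p, (Q' p).coeff 0 = N.ph p) ∧ ∀ q, X ^ (n + 1) ∣ residual N A' Q' q := by
  choose R hR using h
  obtain ⟨α, π, hw⟩ := exists_lin0 N fun q => -(R q).coeff 0
  refine ⟨fun p => A p + C (α p) * X ^ n, fun p => Q p + C (π p) * X ^ n, fun p => ?_, fun p => ?_,
    fun q => ?_⟩
  · simp [coeff_C_mul_X_pow, hn.symm, hA]
  · simp [coeff_C_mul_X_pow, hn.symm, hQ]
  let i := q1 q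
  let j := q2 q
  let K : Polynomial S := ∑ p,
    ((2 * A p * C (α p) + C (α p) * C (α p) * X ^ n)
        * ((dPhase N Q p i + C (pd i (π p)) * X ^ n) * (dPhase N Q p j + C (pd j (π p)) * X ^ n))
      + A p * A p * (dPhase N Q p i * C (pd j (π p)) + C (pd i (π p)) * dPhase N Q p j
          + C (pd i (π p)) * C (pd j (π p)) * X ^ n)
      + X ^ 2 * (dPoly i (A p) * C (pd j (α p)) + C (pd i (α p)) * dPoly j (A p)
          + C (pd i (α p)) * C (pd j (α p)) * X ^ n))
  have e : residual N (fun p => A p + C (α p) * X ^ n) (fun p => Q p + C (π p) * X ^ n) q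
      = X ^ n * (R q + K) := by
    rw [mul_add, ← hR q]
    simp only [residual, dPhase_eq, dPoly_add_monomial, K, i, j, Fin.sum_univ_two]
    ring
  rw [e, pow_succ]
  refine mul_dvd_mul_left _ (X_dvd_iff.2 ?_)
  have hK : K.coeff 0 = lin0 N α π q := by
    simp only [K, lin0, Fin.sum_univ_two, coeff_add, mul_coeff_zero, dPhase_eq, dPoly_coeff,
      coeff_C_zero, coeff_X_pow, hA, hQ, Net.dph, i, j]
    simp [hn.symm]
  rw [coeff_add, hK, hw q, add_neg_cancel]

theorem exists_series {g : Fin 3 → S} (N : Net g) (M : ℕ) :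
    ∃ A Q : Fin 2 → Polynomial S, (∀ p, (A p).coeff 0 = N.amp p) ∧
      (∀ p, (Q p).coeff 0 = N.ph p) ∧ ∀ q, Polynomial.X ^ M ∣ residual N A Q q := by
  suffices H : ∀ M, ∃ A Q : Fin 2 → Polynomial S, (∀ p, (A p).coeff 0 = N.amp p) ∧
      (∀ p, (Q p).coeff 0 = N.ph p) ∧ ∀ q, Polynomial.X ^ (M + 1) ∣ residual N A Q q by
    obtain ⟨A, Q, hA, hQ, h⟩ := H M
    exact ⟨A, Q, hA, hQ, fun q => dvd_trans (pow_dvd_pow _ (Nat.le_succ M)) (h q)⟩
  intro M
  induction M with
  | zero =>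
    refine ⟨fun p => C (N.amp p), fun p => C (N.ph p), fun p => coeff_C_zero, fun p => coeff_C_zero,
      fun q => ?_⟩
    rw [zero_add, pow_one, X_dvd_iff]
    simp only [residual, dPhase_eq, coeff_sub, coeff_C_zero, finsetSum_coeff, coeff_add,
      mul_coeff_zero, dPoly_coeff, coeff_X_pow]
    rw [sub_eq_zero, N.metric q]
    simp
  | succ M ih =>
    obtain ⟨A, Q, hA, hQ, h⟩ := ih
    exact residual_step N A Q (M + 1) (Nat.succ_ne_zero M) hA hQ h

end

end Vale.Agent.P205
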