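import Vale.Agent.P205.SolverFamily

/-!
The linearised equation at the ansatz, for small `ε`.
-/

namespace Vale.Agent.P205

noncomputable section

namespace Solve

open Filter

theorem TameFam.add {L L' : ℕ → S →ₗ[ℝ] S} (h : TameFam L) (h' : TameFam L') :
    TameFam fun n => L n + L' n := by
  obtain ⟨C, hC, h⟩ := h
  obtain ⟨C', hC', h'⟩ := h'
  exact ⟨C + C', add_nonneg hC hC', (h.and h').mono fun n hn => hn.1.add hn.2⟩

theorem TameFam.comp {L L' : ℕ → S →ₗ[ℝ] S} (h : TameFam L) (h' : TameFam L') :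
    TameFam fun n => L n ∘ₗ L' n := by
  obtain ⟨C, hC, h⟩ := h
  obtain ⟨C', hC', h'⟩ := h'
  exact ⟨C * C', mul_nonneg hC hC', (h.and h').mono fun n hn => hn.1.comp hC hn.2⟩

theorem GoodFam.sum2 {P : Fin 2 → ℕ → Data →ₗ[ℝ] S} (h : ∀ i, GoodFam (P i)) :
    GoodFam fun n => ∑ i, P i n := by
  simpa only [Fin.sum_univ_two] using (h 0).add (h 1)

/-- A symmetric tensor of maps on the data. -/
def symL (G : Fin 3 → Data →ₗ[ℝ] S) (i j : Fin 2) : Data →ₗ[ℝ] S :=
  if i = 0 then (if j = 0 then G 0 else G 1) else (if j = 0 then G 1 else G 2)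

/-- The component of a tensor of maps in a frame. -/
def projL (f : Fin 2 → Fin 2 → S) (a b : Fin 2) (G : Fin 3 → Data →ₗ[ℝ] S) : Data →ₗ[ℝ] S :=
  ∑ i, ∑ j, mu (f a i * f b j) ∘ₗ symL G i j

theorem projL_apply (f : Fin 2 → Fin 2 → S) (a b : Fin 2) (G : Fin 3 → Data →ₗ[ℝ] S) (d : Data) :
    projL f a b G d = proj f a b fun k => G k d := by
  simp [projL, proj, symL, symq, mu, Fin.sum_univ_two, mul_assoc]

variable {g : Fin 3 → S} (N : Net g) (A Q : Fin 2 → Polynomial S)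

/-- The gradient data in the frame, as a map. -/
def fNL (n : ℕ) (p : Fin 2) : Data →ₗ[ℝ] S := ∑ j, mu ((cc N A Q n).f p j) ∘ₗ prN j

/-- The gradient data in the metric equations, as a map. -/
def BNL (n : ℕ) (k : Fin 3) : Data →ₗ[ℝ] S :=
  ∑ p, mu ((cc N A Q n).B p (q1 k) (q2 k) * (cc N A Q n).ai p) ∘ₗ fNL N A Q n p

/-- The data in the frame, as a map. -/
def rdL (n : ℕ) (a b : Fin 2) : Data →ₗ[ℝ] S :=
  projL (cc N A Q n).f a b prH - projL (cc N A Q n).f a b (BNL N A Q n)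

/-- The right-hand side of the remaining equation, as a map. -/
def rhsL (n : ℕ) : Data →ₗ[ℝ] S :=
  rdL N A Q n 0 1 + rdL N A Q n 0 1
    - ∑ a, mu ((eps n ^ 2 + eps n ^ 2) * (cc N A Q n).g a) ∘ₗ rdL N A Q n a a

/-- The other index. -/
def sw (p : Fin 2) : Fin 2 := if p = 0 then 1 else 0

/-- The coefficients of the perturbation. -/
def cK (n : ℕ) (p i : Fin 2) : S :=
  av A p n * av A p n * fv N Q (sw p) i n
    - (eps n ^ 2 + eps n ^ 2) * ((cc N A Q n).g p * (av A p n * av A p n) * fv N Q p i n)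
    - N.amp p * N.amp p * N.frame (sw p) i

/-- The perturbation. -/
def pert (n : ℕ) : S →ₗ[ℝ] S := ∑ p, ∑ i, mu (cK N A Q n p i) ∘ₗ (pd i ∘ₗ N.rinv p)

open Classical in
/-- The inverse of the perturbed operator. -/
def corr (n : ℕ) : S →ₗ[ℝ] S :=
  if h : ∃ J : S →ₗ[ℝ] S, Tame 2 2 2 J ∧ ∀ u, J u + pert N A Q n (J u) = u then h.choose else 0

/-- The first unknown. -/
def piL (n : ℕ) (p : Fin 2) : Data →ₗ[ℝ] S :=
  N.rinv p ∘ₗ (corr N A Q n ∘ₗ rhsL N A Q n)

/-- The second unknown. -/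
def xiL (n : ℕ) (q : Fin 2) : Data →ₗ[ℝ] S :=
  ∑ a, mu ((cc N A Q n).Mi q a) ∘ₗ (rdL N A Q n a a - ∑ i,
    mu (av A a n * av A a n * fv N Q a i n) ∘ₗ (pd i ∘ₗ piL N A Q n a))

/-- The vector field. -/
def vL (n : ℕ) (p r : Fin 2) : Data →ₗ[ℝ] S :=
  if r = 0 then mu (eps n) ∘ₗ xiL N A Q n p
  else mu (av A p n) ∘ₗ piL N A Q n p - mu (inv' (av A p n)) ∘ₗ
    (fNL N A Q n p + mu (eps n ^ 2) ∘ₗ ∑ q, mu ((cc N A Q n).cf p q) ∘ₗ xiL N A Q n q)

variable {N A Q}
variable (hA : ∀ p, (A p).coeff 0 = N.amp p) (hQ : ∀ p, (Q p).coeff 0 = N.ph p)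

include hQ in
theorem good_fNL (p : Fin 2) : GoodFam fun n => fNL N A Q n p :=
  GoodFam.sum2 fun j => GoodFam.mul ((det_facts hQ).2 p j).1 (goodFam_prN j)

include hA hQ in
theorem good_rdL (a b : Fin 2) : GoodFam fun n => rdL N A Q n a b := by
  have hp : ∀ G : ℕ → Fin 3 → Data →ₗ[ℝ] S, (∀ k, GoodFam fun n => G n k) →
      GoodFam fun n => projL (cc N A Q n).f a b (G n) := fun G hG => by
    refine GoodFam.sum2 fun i => GoodFam.sum2 fun j => ?_
    refine GoodFam.mul (((det_facts hQ).2 a i).1.mul ((det_facts hQ).2 b j).1) ?_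
    fin_cases i <;> fin_cases j <;> exact hG _
  exact (hp (fun _ => prH) goodFam_prH).sub (hp (fun n => BNL N A Q n) fun k =>
    GoodFam.sum2 fun p => GoodFam.mul (bdd_B hA hQ p _ _) (good_fNL hQ p))

include hA hQ in
theorem good_rhsL : GoodFam (rhsL N A Q) :=
  ((good_rdL hA hQ 0 1).add (good_rdL hA hQ 0 1)).sub (GoodFam.sum2 fun a =>
    GoodFam.mul ((bdd_eps_sq.add bdd_eps_sq).mul (bdd_g hA hQ a)) (good_rdL hA hQ a a))

theorem tame_pd_rinv (p i : Fin 2) : Tame (7 * N.bound) 2 2 (pd i ∘ₗ N.rinv p) :=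
  (tame_pd 2 i).comp (by norm_num) (N.rinv_tame p)

include hA hQ in
theorem small_cK (p i : Fin 2) : Small fun n => cK N A Q n p i := by
  obtain ⟨-, -, ha⟩ := amp_facts hA p
  obtain ⟨hf, hf'⟩ := (det_facts hQ).2 (sw p) i
  have hfp := ((det_facts hQ).2 p i).1
  refine ((((ha.mul ((bdd_a (A := A) p).add (Bdd.const (N.amp p)))).mul hf).add
    (Small.mul_left (Bdd.const (N.amp p * N.amp p)) hf')).sub
    ((small_eps_sq.add small_eps_sq).mul
      (((bdd_g hA hQ p).mul ((bdd_a (A := A) p).mul (bdd_a (A := A) p))).mul hfp))).congr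
    (Eventually.of_forall fun n => ?_)
  simp only [cK]
  ring

include hA hQ in
theorem corr_facts : ∀ᶠ n in atTop, Tame 2 2 2 (corr N A Q n) ∧
    ∀ u, corr N A Q n u + pert N A Q n (corr N A Q n u) = u := by
  have hδ : 0 < 1 / (56 * N.bound) := by have := N.bound_pos; positivity
  have hsmall : ∀ᶠ n in atTop, ∀ p i, nrm 2 (cK N A Q n p i) ≤ 1 / (56 * N.bound) :=
    eventually_all.2 fun p => eventually_all.2 fun i => (small_cK hA hQ p i).eventually_le hδ
  filter_upwards [hsmall] with n hn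
  have h1 : ∀ p i, Tame (1 / 8) 2 2 (mu (cK N A Q n p i) ∘ₗ (pd i ∘ₗ N.rinv p)) := fun p i => by
    refine ((tame_mul 2 _).comp (nrm_nonneg _ _) (tame_pd_rinv p i)).mono ?_
    have := N.bound_pos
    calc nrm 2 (cK N A Q n p i) * (7 * N.bound) ≤ 1 / (56 * N.bound) * (7 * N.bound) :=
          mul_le_mul_of_nonneg_right (hn p i) (by positivity)
      _ = 1 / 8 := by field_simp; norm_num
  have hT : Tame (1 / 2) 2 2 (pert N A Q n) := by
    simp only [pert, Fin.sum_univ_two]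
    exact (((h1 0 0).add (h1 0 1)).add ((h1 1 0).add (h1 1 1))).mono (by norm_num)
  obtain ⟨J, hJ, hJ'⟩ := exists_neumann _ (1 / 2) 2 (by norm_num) (by norm_num) hT
  have hex : ∃ J : S →ₗ[ℝ] S, Tame 2 2 2 J ∧ ∀ u, J u + pert N A Q n (J u) = u :=
    ⟨J, hJ.mono (by norm_num), hJ'⟩
  rw [corr, dif_pos hex]
  exact hex.choose_spec

include hA hQ in
theorem tameFam_corr : TameFam (corr N A Q) :=
  ⟨2, zero_le_two, (corr_facts hA hQ).mono fun _ h => h.1⟩

include hA hQ in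
theorem good_piL (p : Fin 2) : GoodFam fun n => piL N A Q n p := by
  refine GoodFam.comp ⟨1 * N.bound, by simpa using N.bound_pos.le, Eventually.of_forall fun n => ?_⟩
    (GoodFam.comp (tameFam_corr hA hQ) (good_rhsL hA hQ))
  have h := (tame_weaken 2).comp zero_le_one (N.rinv_tame p)
  rwa [LinearMap.id_comp] at h

include hA hQ in
theorem good_dpiL (p i : Fin 2) : GoodFam fun n => pd i ∘ₗ piL N A Q n p := by
  have h : GoodFam fun n => (pd i ∘ₗ N.rinv p) ∘ₗ (corr N A Q n ∘ₗ rhsL N A Q n) :=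
    GoodFam.comp ⟨7 * N.bound, by have := N.bound_pos; positivity,
      Eventually.of_forall fun _ => tame_pd_rinv p i⟩
      (GoodFam.comp (tameFam_corr hA hQ) (good_rhsL hA hQ))
  exact h

include hA hQ in
theorem good_xiL (q : Fin 2) : GoodFam fun n => xiL N A Q n q :=
  GoodFam.sum2 fun a => GoodFam.mul ((M_facts hA hQ).2 q a) ((good_rdL hA hQ a a).sub
    (GoodFam.sum2 fun i => GoodFam.mul (((bdd_a (A := A) a).mul (bdd_a (A := A) a)).mul ((det_facts hQ).2 a i).1)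
      (good_dpiL hA hQ a i)))

include hA hQ in
theorem good_vL (p r : Fin 2) : GoodFam fun n => vL N A Q n p r := by
  fin_cases r
  · exact GoodFam.mul Bdd.eps (good_xiL hA hQ p)
  · exact (GoodFam.mul (bdd_a (A := A) p) (good_piL hA hQ p)).sub (GoodFam.mul (amp_facts hA p).2.1
      ((good_fNL hQ p).add (GoodFam.mul bdd_eps_sq
        (GoodFam.sum2 fun q => GoodFam.mul (bdd_cf hQ p q) (good_xiL hA hQ q)))))

theorem ansK_eq (n : ℕ) : ansK N Q n = (cc N A Q n).kap := by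
  funext p i
  simp only [ansK, Cf.kap, cc, wv, eps, dPhase, Polynomial.eval_add, Polynomial.eval_C, pd_eval,
    cst_mul]

theorem ansF_eq (n : ℕ) : ansF A n = (cc N A Q n).amb := by
  funext p r
  simp only [ansF, Cf.amb, cc, av, eps, cst_mul]

theorem data_eq (H : Fin 3 → S) (Nv : Fin 2 → S) :
    ((∑ q, inH q (H q)) + ∑ l, inN l (Nv l)) = ((H, Nv) : Data) := by
  refine Prod.ext ?_ ?_
  · simp [inH, inN, Prod.fst_sum, Finset.univ_sum_single]
  · funext i
    fin_cases i <;> simp [inH, inN, Prod.snd_sum, Fin.sum_univ_three]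

include hA hQ in
theorem solved : ∀ᶠ n in atTop, ∀ (H : Fin 3 → S) (Nv : Fin 2 → S),
    let v : V := fun p r => (∑ q, (vL N A Q n p r ∘ₗ inH q) (H q))
      + ∑ l, (vL N A Q n p r ∘ₗ inN l) (Nv l)
    ∀ q, pd (q1 q) (dot (Dt (ansK N Q n) (q2 q) (ansF A n)) v + Nv (q2 q))
        + pd (q2 q) (dot (Dt (ansK N Q n) (q1 q) (ansF A n)) v + Nv (q1 q))
        - (2 : ℝ) • dot (Dt (ansK N Q n) (q1 q) (Dt (ansK N Q n) (q2 q) (ansF A n))) v
        = (2 : ℝ) • H q := by
  filter_upwards [eventually_ok hA hQ, corr_facts hA hQ] with n hok hcorr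
  intro H Nv v q
  set c := cc N A Q n with hc
  set π : Fin 2 → S := fun p => piL N A Q n p (H, Nv) with hπdef
  set ξ : Fin 2 → S := fun p => xiL N A Q n p (H, Nv) with hξdef
  have hfN : ∀ p, fNL N A Q n p (H, Nv) = c.fN Nv p := fun p => by
    simp [fNL, Cf.fN, prN, mu, hc]
  have hBN : ∀ k, BNL N A Q n k (H, Nv) = c.BN Nv k := fun k => by
    simp [BNL, Cf.BN, hfN, mu, hc, mul_assoc]
  have hrd : ∀ a b, rdL N A Q n a b (H, Nv) = c.rd H Nv a b := fun a b => by
    simp [rdL, Cf.rd, projL_apply, hBN, prH, hc]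
  have hv : v = c.vec π ξ Nv := by
    funext p r
    have h1 : v p r = vL N A Q n p r (H, Nv) := by
      rw [← data_eq H Nv]
      simp only [v, LinearMap.comp_apply, map_add, map_sum]
    rw [h1]
    fin_cases r
    · simp [vL, Cf.vec, mu, hc, cc, hξdef]
    · simp [vL, Cf.vec, hfN, mu, hc, cc, hξdef, hπdef, av]
  rw [hv, ansK_eq, ansF_eq (N := N) (Q := Q)]
  refine sub_eq_zero.1 ?_
  rw [Cf.eq_defect _ hok]
  refine Cf.defect_zero _ hok π ξ H Nv (fun p => ?_) ?_ q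
  · simp only [hξdef, xiL, LinearMap.sum_apply, LinearMap.comp_apply, LinearMap.sub_apply, mu,
      LinearMap.mulLeft_apply, hrd]
    refine Finset.sum_congr rfl fun a _ => ?_
    simp only [Cf.dp, hπdef, Finset.mul_sum, ← hc]
    congr 2
    refine Finset.sum_congr rfl fun i _ => ?_
    simp only [hc, cc]
    ring
  · obtain ⟨-, hJ⟩ := hcorr
    set u := corr N A Q n (rhsL N A Q n (H, Nv)) with hu
    have e1 := hJ (rhsL N A Q n (H, Nv))
    rw [← hu] at e1
    have e2 := N.rinv_spec u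
    have hπ : ∀ p, π p = N.rinv p u := fun p => rfl
    simp only [pert, cK, sw, LinearMap.sum_apply, LinearMap.comp_apply, mu,
      LinearMap.mulLeft_apply, Fin.sum_univ_two, if_true, show (1 : Fin 2) ≠ 0 by decide,
      if_false] at e1
    simp only [rhsL, LinearMap.sub_apply, LinearMap.add_apply, LinearMap.sum_apply,
      LinearMap.comp_apply, mu, LinearMap.mulLeft_apply, hrd, Fin.sum_univ_two, ← hc] at e1
    simp only [Fin.sum_univ_two] at e2
    simp only [Cf.dp, hπ, Fin.sum_univ_two]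
    simp only [hc, cc] at e1 ⊢
    linear_combination e1 + e2

end Solve

open Filter Solve in
theorem exists_solver : ∃ k : ℕ, ∀ {g : Fin 3 → S} (N : Net g) (A Q : Fin 2 → Polynomial S),
    (∀ p, (A p).coeff 0 = N.amp p) → (∀ p, (Q p).coeff 0 = N.ph p) →
    ∃ (n₀ : ℕ) (C : ℝ), ∀ n : ℕ, n₀ ≤ n →
      ∃ L : Solver (ansK N Q n) (ansF A n), L.Bound (C * (n : ℝ) ^ k) := by
  refine ⟨0, fun N A Q hA hQ => ?_⟩
  choose C hC hgood using fun pr : Fin 2 × Fin 2 => good_vL hA hQ pr.1 pr.2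
  have hev := (solved hA hQ).and (eventually_all.2 hgood)
  obtain ⟨n₀, hn₀⟩ := eventually_atTop.1 hev
  refine ⟨n₀, ∑ pr, C pr, fun n hn => ?_⟩
  obtain ⟨hs, hb⟩ := hn₀ n hn
  have hle : ∀ p r, C (p, r) ≤ (∑ pr, C pr) * (n : ℝ) ^ 0 := fun p r => by
    rw [pow_zero, mul_one]
    exact Finset.single_le_sum (fun i _ => hC i) (Finset.mem_univ (p, r))
  exact ⟨⟨fun p r q => vL N A Q n p r ∘ₗ inH q, fun p r l => vL N A Q n p r ∘ₗ inN l, hs⟩,
    fun p r q => ((hb (p, r)).1 q).mono (hle p r), fun p r l => ((hb (p, r)).2 l).mono (hle p r)⟩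

end

end Vale.Agent.P205
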