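import Vale.Agent.P205.NetExists
import Vale.Agent.P205.Series
import Vale.Agent.P205.SolverExists
import Vale.Agent.P205.FixedPoint
import Vale.Agent.P205.Rotate

/-!
Isometric immersions into `ℝ⁴` of the conformally flat tori.
-/

namespace Vale.Agent.P205

noncomputable section

open Polynomial Filter
open scoped RealInnerProductSpace

theorem Dt_ansF {g : Fin 3 → S} (N : Net g) (A Q : Fin 2 → Polynomial S) (n : ℕ) (hn : n ≠ 0)
    (p i : Fin 2) :
    Dt (ansK N Q n) i (ansF A n) p 0 = (dPoly i (A p)).eval (cst (1 / (n : ℝ))) * cst (1 / (n : ℝ)) ∧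
    Dt (ansK N Q n) i (ansF A n) p 1
      = (dPhase N Q p i).eval (cst (1 / (n : ℝ))) * (A p).eval (cst (1 / (n : ℝ))) := by
  constructor
  · simp only [Dt, ansF, ↓reduceIte, if_neg (show (1 : Fin 2) ≠ 0 by decide), mul_zero, sub_zero,
      map_smul, eval_dPoly]
    rw [← cst_mul, mul_comm]
  · simp only [Dt, ansF, ansK, ↓reduceIte, if_neg (show (1 : Fin 2) ≠ 0 by decide), map_zero,
      zero_add]
    rw [smul_mul_smul_comm, show (n : ℝ) * (1 / (n : ℝ)) = 1 by field_simp, one_smul]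

theorem gram_ansF {g : Fin 3 → S} (N : Net g) (A Q : Fin 2 → Polynomial S) (n : ℕ) (hn : n ≠ 0)
    (q : Fin 3) :
    gram (ansK N Q n) (ansF A n) q
      = g q + (residual N A Q q).eval (cst (1 / (n : ℝ))) := by
  simp only [gram, dot, Fin.sum_univ_two, (Dt_ansF N A Q n hn _ _).1, (Dt_ansF N A Q n hn _ _).2]
  simp only [residual, Fin.sum_univ_two, eval_sub, eval_add, eval_mul, eval_pow, eval_X, eval_C]
  ring

theorem ansK_eq {g : Fin 3 → S} (N : Net g) (Q : Fin 2 → Polynomial S) (n : ℕ) (p i : Fin 2) :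
    ansK N Q n p i = (n : ℝ) • (cst (N.per p i) + pd i ((Q p).eval (cst (1 / (n : ℝ))))) := by
  simp only [ansK, dPhase_eq, eval_add, eval_C, eval_dPoly]

theorem ansK_closed {g : Fin 3 → S} (N : Net g) (Q : Fin 2 → Polynomial S) (n : ℕ) :
    Closed (ansK N Q n) := fun p i j => by
  simp only [ansK_eq, map_smul, map_add, pd_cst, zero_add, pd_comm i j]

theorem exists_immersed_frame {g : Fin 3 → S} (N : Net g) :
    ∃ (n : ℕ) (ph : Fin 2 → S) (u : V), (∀ p i, ∃ z : ℤ, (n : ℝ) * N.per p i = 2 * Real.pi * z) ∧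
      ∀ q, gram (fun p i => (n : ℝ) • (cst (N.per p i) + pd i (ph p))) u q = g q := by
  obtain ⟨k₁, hsol⟩ := @exists_solver
  obtain ⟨Cp, k₂, hper⟩ := exists_perturb
  set M := k₂ * (1 + k₁) + 1 with hM
  obtain ⟨A, Q, hA, hQ, hres⟩ := exists_series N M
  obtain ⟨n₀, Cs, hL⟩ := hsol N A Q hA hQ
  choose R hR using hres
  choose BR hBR using fun q => exists_eval_bound 2 (R q)
  choose BK hBK using fun pi : Fin 2 × Fin 2 => exists_eval_bound 3 (dPhase N Q pi.1 pi.2)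
  set Λ₀ := 1 + ∑ pi, |BK pi| with hΛ₀
  set K₀ := max Cs 1 with hK₀
  set E₀ := |Cp| * (Λ₀ * K₀) ^ k₂ * ∑ q, |BR q| with hE₀
  -- the multiple of the denominators
  obtain ⟨m, hm1, hmE⟩ : ∃ m : ℕ, n₀ + 1 ≤ m ∧ E₀ < m := by
    obtain ⟨m, hm⟩ := exists_nat_gt (max ((n₀ : ℝ) + 1) E₀)
    refine ⟨m, ?_, lt_of_le_of_lt (le_max_right _ _) hm⟩
    have := lt_of_le_of_lt (le_max_left _ _) hm
    exact_mod_cast this.le
  set n := N.den * m with hn
  have hden : 1 ≤ N.den := N.den_pos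
  have hnm : m ≤ n := Nat.le_mul_of_pos_left m N.den_pos
  have hn0 : n ≠ 0 := by omega
  have hnR : (1 : ℝ) ≤ n := by exact_mod_cast (show 1 ≤ n by omega)
  obtain ⟨L, hLB⟩ := hL n (by omega)
  have ht : |1 / (n : ℝ)| ≤ 1 := by
    rw [abs_of_pos (by positivity), div_le_one (by positivity)]
    exact hnR
  have hΛ : ∀ p i, nrm 3 (ansK N Q n p i) ≤ (n : ℝ) * Λ₀ := by
    intro p i
    rw [ansK, nrm_smul, abs_of_nonneg (by positivity)]
    refine mul_le_mul_of_nonneg_left (le_trans (hBK (p, i) _ ht).1 ?_) (by positivity)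
    refine le_trans (le_abs_self _) ?_
    have : |BK (p, i)| ≤ ∑ pi, |BK pi| :=
      Finset.single_le_sum (fun pi _ => abs_nonneg (BK pi)) (Finset.mem_univ (p, i))
    simp only [hΛ₀]; linarith
  have hΛ1 : (1 : ℝ) ≤ (n : ℝ) * Λ₀ := by
    have : (0 : ℝ) ≤ ∑ pi, |BK pi| := Finset.sum_nonneg fun _ _ => abs_nonneg _
    simp only [hΛ₀]; nlinarith
  have hK1 : (1 : ℝ) ≤ K₀ * (n : ℝ) ^ k₁ :=
    one_le_mul_of_one_le_of_one_le (le_max_right _ _) (one_le_pow₀ hnR)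
  have hLK : L.Bound (K₀ * (n : ℝ) ^ k₁) :=
    ⟨fun p r q => (hLB.1 p r q).mono (by gcongr; exact le_max_left _ _),
      fun p r l => (hLB.2 p r l).mono (by gcongr; exact le_max_left _ _)⟩
  set h : Fin 3 → S := fun q => g q - gram (ansK N Q n) (ansF A n) q with hh
  have hhq : ∀ q, nrm 2 (h q) ≤ (1 / (n : ℝ)) ^ M * |BR q| := by
    intro q
    have e : h q = -((1 / (n : ℝ)) ^ M) • (R q).eval (cst (1 / (n : ℝ))) := by
      simp only [hh, gram_ansF N A Q n hn0 q, hR q, eval_mul, eval_pow, eval_X]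
      rw [show cst (1 / (n : ℝ)) ^ M = cst ((1 / (n : ℝ)) ^ M) from
        (map_pow (algebraMap ℝ S) _ M).symm, cst_mul, neg_smul]
      abel
    rw [e, nrm_smul, abs_neg, abs_of_nonneg (by positivity)]
    exact mul_le_mul_of_nonneg_left ((hBR q _ ht).1.trans (le_abs_self _)) (by positivity)
  have hsmall : Cp * ((n : ℝ) * Λ₀ * (K₀ * (n : ℝ) ^ k₁)) ^ k₂ * ∑ q, nrm 2 (h q) < 1 := by
    have hb : ((n : ℝ) * Λ₀ * (K₀ * (n : ℝ) ^ k₁)) ^ k₂
        = (Λ₀ * K₀) ^ k₂ * (n : ℝ) ^ (k₂ * (1 + k₁)) := by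
      rw [mul_comm k₂, pow_mul, ← mul_pow, pow_add, pow_one]
      congr 1
      ring
    have hs : (0 : ℝ) ≤ ∑ q, nrm 2 (h q) := Finset.sum_nonneg fun _ _ => nrm_nonneg _ _
    have hp : (0 : ℝ) ≤ ((n : ℝ) * Λ₀ * (K₀ * (n : ℝ) ^ k₁)) ^ k₂ := by positivity
    calc Cp * ((n : ℝ) * Λ₀ * (K₀ * (n : ℝ) ^ k₁)) ^ k₂ * ∑ q, nrm 2 (h q)
        ≤ |Cp| * ((n : ℝ) * Λ₀ * (K₀ * (n : ℝ) ^ k₁)) ^ k₂ * ∑ q, (1 / (n : ℝ)) ^ M * |BR q| := by
          refine mul_le_mul ?_ (Finset.sum_le_sum fun q _ => hhq q) hs (by positivity)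
          exact mul_le_mul_of_nonneg_right (le_abs_self _) hp
      _ = E₀ / n := by
          rw [hb, ← Finset.mul_sum, hE₀, hM, pow_succ, div_pow, one_pow]
          field_simp
      _ < 1 := by
          rw [div_lt_one (by positivity)]
          exact lt_of_lt_of_le hmE (by exact_mod_cast hnm)
  obtain ⟨v, hv⟩ := hper (ansK N Q n) (ansF A n) _ _ L h (ansK_closed N Q n) hΛ1 hΛ hK1 hLK hsmall
  refine ⟨n, fun p => (Q p).eval (cst (1 / (n : ℝ))), ansF A n + v, fun p i => ?_, fun q => ?_⟩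
  · obtain ⟨z, hz⟩ := N.per_int p i
    refine ⟨(m : ℤ) * z, ?_⟩
    rw [hn]
    push_cast
    linear_combination (m : ℝ) * hz
  · rw [show (fun p i => (n : ℝ) • (cst (N.per p i) + pd i ((Q p).eval (cst (1 / (n : ℝ))))))
      = ansK N Q n from funext fun p => funext fun i => (ansK_eq N Q n p i).symm, hv q]
    simp [hh]

theorem isometric_immersion (ρ : ℝ × ℝ → ℝ) (hs : ContDiff ℝ (⊤ : ℕ∞) ρ) (hp : Periodic2 ρ)
    (hρ : ∀ X, 0 < ρ X) (a b c : ℝ) (ha : 0 < a) (hd : b ^ 2 < a * c) :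
    ∃ F : ℝ × ℝ → EuclideanSpace ℝ (Fin 4), ContDiff ℝ (⊤ : ℕ∞) F ∧ Periodic2 F ∧
      ∀ X v w, ⟪fderiv ℝ F X v, fderiv ℝ F X w⟫
        = ρ X * (a * (v.1 * w.1) + b * (v.1 * w.2 + v.2 * w.1) + c * (v.2 * w.2)) := by
  obtain ⟨N⟩ := exists_net ⟨ρ, hs, hp⟩ hρ a b c ha hd
  obtain ⟨n, ph, u, hint, hg⟩ := exists_immersed_frame N
  refine ⟨toMap n N.per ph u, toMap_smooth _ _ _ _, toMap_periodic _ _ _ _ hint, fun X v w => ?_⟩
  rw [inner_fderiv_toMap n N.per ph u _ (fun _ _ => rfl) X v w, hg, hg, hg]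
  simp [flatConf]
  ring

end

end Vale.Agent.P205
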