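import Vale.Agent.P205.NetExistsBasic

/-!
A bent orthogonal net with rational periods, and the right inverse it carries.

With orthonormal linear coordinates `x`, `y` of the constant metric the two phases are
`σ (dx + F dy)` and `σ (dx - dy / F)` with `F = c₀ + δ cos (2 π X₁)`; the small bend `δ` makes the
mean of the linearised equation solvable.
-/

namespace Vale.Agent.P205

noncomputable section

open MeasureTheory Filter Topology

/-- The bend. -/
def cosP : Per1 where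
  toFun t := Real.cos (2 * Real.pi * t)
  smooth := by fun_prop
  per t := by
    show Real.cos _ = Real.cos _
    rw [mul_add, mul_one, Real.cos_periodic]

/-- The slope of the net. -/
def slopeP (c₀ δ : ℝ) : Per1 where
  toFun t := c₀ + δ * Real.cos (2 * Real.pi * t)
  smooth := by fun_prop
  per t := by
    show _ + _ * Real.cos _ = _
    rw [mul_add, mul_one, Real.cos_periodic]

theorem slopeP_pos {c₀ δ : ℝ} (h : |δ| < c₀) (t : ℝ) : 0 < (slopeP c₀ δ).toFun t := by
  have h1 : |δ * Real.cos (2 * Real.pi * t)| ≤ |δ| := by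
    rw [abs_mul]; exact mul_le_of_le_one_right (abs_nonneg _) (Real.abs_cos_le_one _)
  show 0 < c₀ + _
  linarith [neg_abs_le (δ * Real.cos (2 * Real.pi * t))]

/-- The mean of the reciprocal slope. -/
def invMean (c₀ δ : ℝ) : ℝ := ∫ x in (0 : ℝ)..1, ((slopeP c₀ δ).toFun x)⁻¹

theorem invMean_gt {c₀ δ : ℝ} (h : |δ| < c₀) (hδ : δ ≠ 0) : c₀⁻¹ < invMean c₀ δ := by
  have hc : 0 < c₀ := lt_of_le_of_lt (abs_nonneg _) h
  have hcont : Continuous fun x => ((slopeP c₀ δ).toFun x)⁻¹ :=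
    (slopeP c₀ δ).smooth.continuous.inv₀ fun x => (slopeP_pos h x).ne'
  have hcont2 : Continuous fun x : ℝ => δ * Real.cos (2 * Real.pi * x) := by fun_prop
  have hcos : ∫ x in (0 : ℝ)..1, δ * Real.cos (2 * Real.pi * x) = 0 := by
    rw [intervalIntegral.integral_const_mul,
      intervalIntegral.integral_comp_mul_left (f := Real.cos) (by positivity), integral_cos]
    simp
  have key : 0 < ∫ x in (0 : ℝ)..1,
      ((slopeP c₀ δ).toFun x)⁻¹ - c₀⁻¹ + δ * Real.cos (2 * Real.pi * x) / c₀ ^ 2 := by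
    have hnn : ∀ x, ((slopeP c₀ δ).toFun x)⁻¹ - c₀⁻¹ + δ * Real.cos (2 * Real.pi * x) / c₀ ^ 2 =
        (δ * Real.cos (2 * Real.pi * x)) ^ 2 / (c₀ ^ 2 * (slopeP c₀ δ).toFun x) := fun x => by
      have := (slopeP_pos h x).ne'
      field_simp
      show _ = _
      simp only [slopeP]
      ring
    refine intervalIntegral.integral_pos one_pos
      ((hcont.sub continuous_const).add (hcont2.div_const _)).continuousOn (fun x _ => ?_)
      ⟨0, by simp, ?_⟩
    · rw [hnn]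
      have := slopeP_pos h x
      positivity
    · rw [hnn]
      have := slopeP_pos h 0
      simp only [mul_zero, Real.cos_zero, mul_one]
      positivity
  have hi1 : IntervalIntegrable (fun x => ((slopeP c₀ δ).toFun x)⁻¹ - c₀⁻¹) volume 0 1 :=
    (hcont.sub continuous_const).intervalIntegrable _ _
  rw [intervalIntegral.integral_add hi1 ((hcont2.div_const _).intervalIntegrable _ _),
    intervalIntegral.integral_sub (hcont.intervalIntegrable _ _) intervalIntegrable_const,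
    intervalIntegral.integral_div, hcos] at key
  simp only [intervalIntegral.integral_const, sub_zero, one_smul, zero_div, add_zero] at key
  linarith [show invMean c₀ δ = ∫ x in (0 : ℝ)..1, ((slopeP c₀ δ).toFun x)⁻¹ from rfl]

/-- Small bends with a prescribed affine image of the mean reciprocal slope rational. -/
theorem exists_bend (c₀ p q η : ℝ) (hc : 0 < c₀) (hq : 0 < q) (hη : 0 < η) :
    ∃ δ, 0 < δ ∧ δ ≤ η ∧ δ < c₀ ∧ ∃ r : ℚ, (p - invMean c₀ δ * q) = r := by
  obtain ⟨δ₁, hδ₁, hδη, hδc⟩ : ∃ δ₁, 0 < δ₁ ∧ δ₁ ≤ η ∧ δ₁ < c₀ :=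
    ⟨min η (c₀ / 2), lt_min hη (by linarith), min_le_left _ _,
      lt_of_le_of_lt (min_le_right _ _) (by linarith)⟩
  have hcts : ContinuousOn (fun δ => p - invMean c₀ δ * q) (Set.Icc 0 δ₁) := by
    have h1 : Continuous fun δ : Set.Icc (0 : ℝ) δ₁ => invMean c₀ δ := by
      refine intervalIntegral.continuous_parametric_intervalIntegral_of_continuous' ?_ 0 1
      refine Continuous.inv₀ ?_ fun z => (slopeP_pos ?_ _).ne'
      · show Continuous fun z : (Set.Icc (0 : ℝ) δ₁) × ℝ =>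
          c₀ + (z.1 : ℝ) * Real.cos (2 * Real.pi * z.2)
        fun_prop
      · rw [abs_of_nonneg z.1.2.1]
        exact lt_of_le_of_lt z.1.2.2 hδc
    exact continuousOn_iff_continuous_restrict.2 (continuous_const.sub (h1.mul continuous_const))
  have h0 : invMean c₀ 0 = c₀⁻¹ := by simp [invMean, slopeP]
  have hlt : p - invMean c₀ δ₁ * q < p - invMean c₀ 0 * q := by
    have := invMean_gt (by rwa [abs_of_pos hδ₁] : |δ₁| < c₀) hδ₁.ne'
    rw [h0]
    nlinarith
  obtain ⟨r, hr1, hr2⟩ := exists_rat_btwn hlt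
  obtain ⟨δ, hδmem, hδ⟩ := intermediate_value_Ioo' hδ₁.le hcts ⟨hr1, hr2⟩
  exact ⟨δ, hδmem.1, hδmem.2.le.trans hδη, hδmem.2.trans hδc, r, hδ⟩

/-- The square slope. -/
def muP (c₀ δ : ℝ) : Per1 where
  toFun t := 1 + (slopeP c₀ δ).toFun t ^ 2
  smooth := contDiff_const.add ((slopeP c₀ δ).smooth.pow 2)
  per t := by
    show 1 + _ ^ 2 = 1 + _ ^ 2
    rw [(slopeP c₀ δ).per t]

/-- Its reciprocal. -/
def imuP (c₀ δ : ℝ) : Per1 where
  toFun t := ((muP c₀ δ).toFun t)⁻¹
  smooth := (muP c₀ δ).smooth.inv fun t => by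
    show 1 + _ ^ 2 ≠ 0
    positivity
  per t := by
    show _⁻¹ = _⁻¹
    rw [(muP c₀ δ).per t]

theorem muP_mul_imuP (c₀ δ : ℝ) : (muP c₀ δ).lift * (imuP c₀ δ).lift = 1 :=
  Subtype.ext <| funext fun X => by
    show (1 + (slopeP c₀ δ).toFun X.1 ^ 2) * (1 + (slopeP c₀ δ).toFun X.1 ^ 2)⁻¹ = (1 : ℝ)
    exact mul_inv_cancel₀ (by positivity)

theorem muP_lift (c₀ δ : ℝ) :
    (muP c₀ δ).lift = 1 + (slopeP c₀ δ).lift * (slopeP c₀ δ).lift :=
  Subtype.ext <| funext fun X => by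
    show (1 : ℝ) + (slopeP c₀ δ).toFun X.1 ^ 2 =
      1 + (slopeP c₀ δ).toFun X.1 * (slopeP c₀ δ).toFun X.1
    rw [sq]

theorem slopeP_lift (c₀ δ : ℝ) : (slopeP c₀ δ).lift = cst c₀ + δ • cosP.lift :=
  Subtype.ext <| funext fun X => rfl

theorem pd_imu (c₀ δ : ℝ) :
    pd 0 (imuP c₀ δ).lift = -(pd 0 (muP c₀ δ).lift * (imuP c₀ δ).lift * (imuP c₀ δ).lift) := by
  have h := congrArg (pd 0) (muP_mul_imuP c₀ δ)
  have h1 : pd 0 (1 : S) = 0 := by simpa [cst] using pd_cst 0 1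
  rw [pd_mul, h1] at h
  linear_combination (imuP c₀ δ).lift * h - pd 0 (imuP c₀ δ).lift * muP_mul_imuP c₀ δ

theorem pd_mu (c₀ δ : ℝ) : pd 0 (muP c₀ δ).lift =
    (2 * δ) • (pd 0 cosP.lift * (slopeP c₀ δ).lift) := by
  have h1 : pd 0 (1 : S) = 0 := by simpa [cst] using pd_cst 0 1
  rw [muP_lift, map_add, h1, pd_mul, slopeP_lift, map_add, pd_cst, map_smul]
  rw [← cst_mul δ, ← cst_mul δ, ← cst_mul (2 * δ),
    show cst (2 * δ) = 2 * cst δ by simp [cst, map_ofNat]]
  ring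

/-- The net is nearly straight. -/
theorem small_bend (c₀ : ℝ) (hc : 0 < c₀) : ∃ K η, 0 < η ∧ 0 ≤ K ∧ ∀ δ, 0 < δ → δ ≤ η →
    nrm 2 ((slopeP c₀ δ).lift * (imuP c₀ δ).lift - cst (c₀ / (1 + c₀ ^ 2))) ≤ K * δ ∧
    nrm 2 (pd 0 (imuP c₀ δ).lift) ≤ K * δ := by
  set N := nrm 2 cosP.lift
  set N' := nrm 2 (pd 0 cosP.lift)
  have hN : 0 ≤ N := nrm_nonneg _ _
  have hN' : 0 ≤ N' := nrm_nonneg _ _
  set η := min 1 (1 / (4 * (N + 1) * (c₀ + N + 1)))
  have hη : 0 < η := lt_min one_pos (by positivity)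
  set K := (2 * (1 + c₀ * (c₀ + N)) * N + 8 * N' * (c₀ + N)) with hK
  refine ⟨K, η, hη, by positivity, fun δ hδ hδη => ?_⟩
  set F := (slopeP c₀ δ).lift
  set E := (imuP c₀ δ).lift
  set M := (muP c₀ δ).lift
  have hδ1 : δ ≤ 1 := hδη.trans (min_le_left _ _)
  have hδN : δ * (4 * (N + 1) * (c₀ + N + 1)) ≤ 1 :=
    (le_div_iff₀ (by positivity)).1 (hδη.trans (min_le_right _ _))
  have hFd : nrm 2 (F - cst c₀) ≤ δ * N := by
    simp only [F, slopeP_lift, add_sub_cancel_left, nrm_smul, abs_of_pos hδ]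
    exact le_rfl
  have hF : nrm 2 F ≤ c₀ + N := by
    simp only [F, slopeP_lift]
    refine (nrm_add _ _ _).trans ?_
    rw [nrm_cst, nrm_smul, abs_of_pos hδ, abs_of_pos hc]
    linarith [mul_le_of_le_one_left hN hδ1]
  have hMd : nrm 2 (M - cst (1 + c₀ ^ 2)) ≤ δ * N * (2 * c₀ + N) := by
    have e : M - cst (1 + c₀ ^ 2) = (F - cst c₀) * (F + cst c₀) := by
      simp only [M, muP_lift, cst, map_add, map_one, map_pow]
      ring
    rw [e]
    refine (nrm_mul _ _ _).trans (mul_le_mul hFd ?_ (nrm_nonneg _ _) (by positivity))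
    refine (nrm_add _ _ _).trans ?_
    rw [nrm_cst, abs_of_pos hc]
    linarith
  have hpos : 0 < 1 + c₀ ^ 2 := by positivity
  have hE0 : cst (1 + c₀ ^ 2) * cst (1 / (1 + c₀ ^ 2)) = 1 := by
    rw [cst, cst, ← map_mul, mul_one_div_cancel hpos.ne', map_one]
  have he0 : nrm 2 (cst (1 / (1 + c₀ ^ 2))) ≤ 1 := by
    rw [nrm_cst, abs_of_pos (by positivity), div_le_one hpos]
    nlinarith [sq_nonneg c₀]
  obtain ⟨E', hE', hE'n⟩ := exists_inv_near 2 M _ _ hE0 (by
    refine (mul_le_mul hMd he0 (nrm_nonneg _ _) (by positivity)).trans ?_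
    nlinarith [mul_nonneg hδ.le hN, mul_nonneg (mul_nonneg hδ.le hN) hN,
      mul_nonneg (mul_nonneg hδ.le hN) hc.le, mul_nonneg hδ.le hc.le])
  have hEE : E' = E := by
    calc E' = E' * (M * E) := by rw [muP_mul_imuP, mul_one]
      _ = M * E' * E := by ring
      _ = E := by rw [hE', one_mul]
  have hE : nrm 2 E ≤ 2 := by
    rw [← hEE]; exact hE'n.trans (by linarith)
  constructor
  · have e : F * E - cst (c₀ / (1 + c₀ ^ 2)) =
        (F - cst c₀) * ((1 - F * cst c₀) * (E * cst (1 / (1 + c₀ ^ 2)))) := by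
      have h1 : cst (c₀ / (1 + c₀ ^ 2)) = cst c₀ * cst (1 / (1 + c₀ ^ 2)) := by
        rw [cst, cst, cst, ← map_mul, mul_one_div]
      have h2 : M = 1 + F * F := muP_lift c₀ δ
      have h3 : cst (1 + c₀ ^ 2) = 1 + cst c₀ * cst c₀ := by
        simp [cst, map_add, pow_two]
      rw [h1]
      rw [h3] at hE0
      have h4 : M * E = 1 := muP_mul_imuP c₀ δ
      rw [h2] at h4
      linear_combination (cst c₀ * cst (1 / (1 + c₀ ^ 2))) * h4 - (F * E) * hE0
    rw [e]
    have h5 : nrm 2 (1 - F * cst c₀) ≤ 1 + (c₀ + N) * c₀ := by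
      rw [sub_eq_add_neg, ← neg_one_smul ℝ (F * cst c₀)]
      refine (nrm_add _ _ _).trans (add_le_add ?_ ?_)
      · simpa [cst] using (nrm_cst 2 1).le
      · rw [nrm_smul, abs_neg, abs_one, one_mul]
        refine (nrm_mul _ _ _).trans ?_
        rw [nrm_cst, abs_of_pos hc]
        gcongr
    calc nrm 2 ((F - cst c₀) * ((1 - F * cst c₀) * (E * cst (1 / (1 + c₀ ^ 2)))))
        ≤ (δ * N) * ((1 + (c₀ + N) * c₀) * (2 * 1)) := by
          refine (nrm_mul _ _ _).trans (mul_le_mul hFd ((nrm_mul _ _ _).trans (mul_le_mul h5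
            ((nrm_mul _ _ _).trans (mul_le_mul hE he0 (nrm_nonneg _ _) zero_le_two))
            (nrm_nonneg _ _) (by positivity))) (nrm_nonneg _ _) (by positivity))
      _ ≤ K * δ := by rw [hK]; nlinarith [mul_nonneg (mul_nonneg hδ.le hN') (add_nonneg hc.le hN)]
  · rw [pd_imu, ← neg_one_smul ℝ (pd 0 (muP c₀ δ).lift * E * E), nrm_smul, abs_neg, abs_one, one_mul]
    calc nrm 2 (pd 0 (muP c₀ δ).lift * E * E)
        ≤ (2 * δ * (N' * (c₀ + N))) * 2 * 2 := by
          refine (nrm_mul _ _ _).trans (mul_le_mul ((nrm_mul _ _ _).trans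
            (mul_le_mul ?_ hE (nrm_nonneg _ _) (by positivity))) hE (nrm_nonneg _ _) (by positivity))
          rw [pd_mu, nrm_smul, abs_of_pos (by positivity)]
          refine mul_le_mul_of_nonneg_left ((nrm_mul _ _ _).trans ?_) (by positivity)
          exact mul_le_mul le_rfl hF (nrm_nonneg _ _) hN'
      _ ≤ K * δ := by
          rw [hK]
          nlinarith [mul_nonneg (mul_nonneg hδ.le hN) (add_nonneg hc.le hN),
            mul_nonneg (mul_nonneg (mul_nonneg hδ.le hN) hc.le) (add_nonneg hc.le hN)]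

/-- The derivative along `x`. -/
def Dx (k : ℝ) : S →ₗ[ℝ] S := (1 / k) • pd 1

/-- The derivative along `y`. -/
def Dy (k lam e : ℝ) : S →ₗ[ℝ] S := (1 / lam) • pd 0 - (e / (lam * k)) • pd 1

/-- The constant coefficient inverse. -/
theorem exists_laplace_inv (k lam e α : ℝ) (hk : 0 < k) (hl : 0 < lam) (hα : 0 < α) :
    ∃ C, ∃ J : S →ₗ[ℝ] S, Tame C 4 2 J ∧ ∀ f,
      α • Dx k (Dx k (J f)) + Dy k lam e (Dy k lam e (J f)) = f - avg f • 1 := by
  let A : Freq → ℝ := fun l => (l.2 : ℝ) / k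
  let B : Freq → ℝ := fun l => (l.1 : ℝ) / lam - e * (l.2 : ℝ) / (lam * k)
  let sym : Freq → ℝ := fun l => α * A l ^ 2 + B l ^ 2
  let m : Freq → ℝ := fun l => if l = 0 then 0 else -1 / (4 * Real.pi ^ 2 * sym l)
  set C0 := 2 * lam ^ 2 + (2 * e ^ 2 + k ^ 2) / α with hC0
  have hC0p : 0 < C0 := by positivity
  have hq : ∀ l : Freq, (l.1 : ℝ) ^ 2 + (l.2 : ℝ) ^ 2 ≤ C0 * sym l := fun l => by
    have h1 : (l.2 : ℝ) = k * A l := by simp only [A]; field_simp
    have h2 : (l.1 : ℝ) = lam * B l + e * A l := by simp only [A, B]; field_simp; ring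
    have h3 : (l.1 : ℝ) ^ 2 + (l.2 : ℝ) ^ 2 ≤
        2 * lam ^ 2 * B l ^ 2 + (2 * e ^ 2 + k ^ 2) * A l ^ 2 := by
      rw [h1, h2]; nlinarith [sq_nonneg (lam * B l - e * A l)]
    refine h3.trans ?_
    simp only [sym, hC0]
    have h4 : (2 * e ^ 2 + k ^ 2) / α * (α * A l ^ 2) = (2 * e ^ 2 + k ^ 2) * A l ^ 2 := by
      field_simp
    nlinarith [mul_nonneg (mul_nonneg (by positivity : (0 : ℝ) ≤ 2 * lam ^ 2) hα.le)
      (sq_nonneg (A l)), mul_nonneg (by positivity : (0 : ℝ) ≤ (2 * e ^ 2 + k ^ 2) / α)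
      (sq_nonneg (B l))]
  have hone : ∀ l : Freq, l ≠ 0 → 1 ≤ (l.1 : ℝ) ^ 2 + (l.2 : ℝ) ^ 2 := fun l hl0 => by
    have : 1 ≤ l.1 ^ 2 + l.2 ^ 2 := by
      by_contra hlt
      push Not at hlt
      refine hl0 (Prod.ext ?_ ?_)
      · show l.1 = 0
        nlinarith [sq_nonneg l.1, sq_nonneg l.2]
      · show l.2 = 0
        nlinarith [sq_nonneg l.1, sq_nonneg l.2]
    exact_mod_cast this
  have hsym : ∀ l : Freq, l ≠ 0 → 0 < sym l := fun l hl0 => by
    have h1 := (hone l hl0).trans (hq l)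
    by_contra h
    push Not at h
    nlinarith [mul_nonpos_of_nonneg_of_nonpos hC0p.le h]
  set C := 6 * C0 / (4 * Real.pi ^ 2) with hC
  have hm : ∀ l, |m l| * wt l ^ 4 ≤ C * wt l ^ 2 := fun l => by
    simp only [m]
    split_ifs with h
    · simp; positivity
    have h1 := hsym l h
    rw [abs_div, abs_neg, abs_one, abs_of_pos (by positivity : 0 < 4 * Real.pi ^ 2 * sym l)]
    have h2 : wt l ^ 2 ≤ 6 * (C0 * sym l) := by
      unfold wt
      nlinarith [hq l, hone l h, sq_nonneg (|(l.1 : ℝ)| - |(l.2 : ℝ)|), sq_abs (l.1 : ℝ),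
        sq_abs (l.2 : ℝ), sq_nonneg (1 - |(l.1 : ℝ)|), sq_nonneg (1 - |(l.2 : ℝ)|)]
    calc 1 / (4 * Real.pi ^ 2 * sym l) * wt l ^ 4
        = 1 / (4 * Real.pi ^ 2 * sym l) * wt l ^ 2 * wt l ^ 2 := by ring
      _ ≤ 1 / (4 * Real.pi ^ 2 * sym l) * (6 * (C0 * sym l)) * wt l ^ 2 := by gcongr
      _ = C * wt l ^ 2 := by rw [hC]; field_simp
  obtain ⟨J, hJ⟩ := exists_mult m (fun l => by
      simp only [m, sym, A, B, neg_eq_zero, Prod.fst_neg, Prod.snd_neg, Int.cast_neg]
      congr 2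
      ring) C (fun l => by
    have hw : 1 ≤ wt l := by
      unfold wt
      linarith [abs_nonneg (l.1 : ℝ), abs_nonneg (l.2 : ℝ)]
    have h := hm l
    have h2 : |m l| * wt l ^ 2 ≤ C := by
      nlinarith [mul_pos (lt_of_lt_of_le one_pos hw) (lt_of_lt_of_le one_pos hw)]
    exact le_trans (le_mul_of_one_le_right (abs_nonneg _) (one_le_pow₀ hw)) h2)
  refine ⟨C, J, tame_mult 4 2 C m J hJ hm, fun f => fc_injective <| funext fun l => ?_⟩
  have hneg : ∀ (u v : S), fc (u - v) l = fc u l - fc v l := fun u v => by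
    rw [eq_sub_iff_add_eq, ← fc_add, sub_add_cancel]
  have hone' : fc (1 : S) l = if l = 0 then 1 else 0 := by
    have := fc_cst 1 l
    simpa [cst] using this
  simp only [Dx, Dy, LinearMap.smul_apply, LinearMap.sub_apply, map_smul, map_sub, fc_add, hneg,
    fc_smul, fc_pd, hJ, hone', Complex.real_smul]
  by_cases h : l = 0
  · subst h
    simp [m, fc_zero_avg, fq]
  · have h0 : ((sym l : ℝ) : ℂ) ≠ 0 := by exact_mod_cast (hsym l h).ne'
    have hpi : (Real.pi : ℂ) ≠ 0 := by exact_mod_cast Real.pi_ne_zero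
    have key : (m l : ℂ) * (-4 * (Real.pi : ℂ) ^ 2 * (sym l : ℂ)) = 1 := by
      simp only [m, if_neg h]
      push_cast
      field_simp
    simp only [if_neg h, mul_zero, sub_zero, fq, if_true,
      show ((1 : Fin 2) = 0) = False from by simp, if_false]
    simp only [sym, A, B] at key
    push_cast at key ⊢
    linear_combination (norm := (ring_nf; simp only [Complex.I_sq]; ring)) (fc f l) * key

theorem Dx_mul (k : ℝ) (a f : S) (h : pd 1 a = 0) : Dx k (a * f) = a * Dx k f := by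
  simp [Dx, pd_mul, h, mul_smul_comm]

theorem Dy_mul (k lam e : ℝ) (a f : S) :
    Dy k lam e (a * f) = Dy k lam e a * f + a * Dy k lam e f := by
  simp only [Dy, LinearMap.sub_apply, LinearMap.smul_apply, pd_mul, ← cst_mul]
  ring

/-- The right inverse of the linearised equation of a slightly bent net. -/
theorem exists_right_inverse (k lam e c₀ δ : ℝ) (hk : 0 < k) (hl : 0 < lam)
    (hδ : δ ≠ 0) (hc : 0 < c₀) (J0 : S →ₗ[ℝ] S) (C : ℝ) (hJ0 : Tame C 4 2 J0)
    (hJ0s : ∀ f, (c₀ / (1 + c₀ ^ 2)) • Dx k (Dx k (J0 f)) + Dy k lam e (Dy k lam e (J0 f))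
      = f - avg f • 1)
    (hsmall : (nrm 2 ((slopeP c₀ δ).lift * (imuP c₀ δ).lift - cst (c₀ / (1 + c₀ ^ 2))) *
        (|1 / k| * 7) + nrm 2 (Dy k lam e (imuP c₀ δ).lift)) * (|1 / k| * 7 * C) < 1) :
    ∃ (RU RW : S →ₗ[ℝ] S) (B : ℝ), Tame B 3 2 RU ∧ Tame B 3 2 RW ∧ ∀ f,
      (slopeP c₀ δ).lift * (imuP c₀ δ).lift * Dx k (RU f) + Dy k lam e (imuP c₀ δ).lift * RU f
        + Dy k lam e (RW f) = f := by
  set F := (slopeP c₀ δ).lift
  set iM := (imuP c₀ δ).lift
  set β := Dy k lam e iM with hβ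
  set a₁ := F * iM - cst (c₀ / (1 + c₀ ^ 2))
  have hF1 : pd 1 F = 0 := Per1.pd_one_lift _
  have hiM1 : pd 1 iM = 0 := Per1.pd_one_lift _
  have hβe : β = (1 / lam) • pd 0 iM := by simp [hβ, Dy, hiM1]
  have hβ1 : pd 1 β = 0 := by rw [hβe, map_smul, pd_comm, hiM1, map_zero, smul_zero]
  have ha1 : pd 1 a₁ = 0 := by
    simp [a₁, pd_mul, hF1, hiM1, pd_cst]
  have hβ0 : β ≠ 0 := by
    intro h0
    rw [hβe, smul_eq_zero] at h0
    have h1 : pd 0 iM = 0 := h0.resolve_left (by positivity)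
    have h2 : pd 0 (muP c₀ δ).lift = 0 := by
      have h3 := pd_imu c₀ δ
      rw [h1] at h3
      calc pd 0 (muP c₀ δ).lift
          = pd 0 (muP c₀ δ).lift * ((muP c₀ δ).lift * iM) * ((muP c₀ δ).lift * iM) := by
            rw [muP_mul_imuP, mul_one, mul_one]
        _ = (pd 0 (muP c₀ δ).lift * iM * iM) * ((muP c₀ δ).lift * (muP c₀ δ).lift) := by ring
        _ = 0 := by rw [neg_eq_zero.1 h3.symm, zero_mul]
    have h4 := congrArg (fun u : S => u.1 ((1 / 4 : ℝ), (0 : ℝ))) h2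
    rw [pd_mu] at h4
    have h5 : deriv cosP.toFun (1 / 4) = -(2 * Real.pi) := by
      have h := ((Real.hasDerivAt_cos (2 * Real.pi * (1 / 4))).comp (1 / 4 : ℝ)
        ((hasDerivAt_id (1 / 4 : ℝ)).const_mul (2 * Real.pi)))
      rw [show 2 * Real.pi * (1 / 4) = Real.pi / 2 by ring, Real.sin_pi_div_two] at h
      simpa [cosP, Function.comp_def] using h.deriv
    have h6 : (slopeP c₀ δ).toFun (1 / 4) = c₀ := by
      simp only [slopeP]
      rw [show 2 * Real.pi * (1 / 4) = Real.pi / 2 by ring, Real.cos_pi_div_two]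
      ring
    change (2 * δ) * ((pd 0 cosP.lift).1 _ * (slopeP c₀ δ).toFun _) = 0 at h4
    rw [Per1.pd_zero_lift, h5, h6] at h4
    have : δ * (Real.pi * c₀) = 0 := by linarith
    rcases mul_eq_zero.1 this with h | h
    · exact hδ h
    · exact (mul_pos Real.pi_pos hc).ne' h
  have hb2 := avg_sq_pos β hβ0
  set Bb := avg (β * β)
  have hC := hJ0.nonneg'
  have td3 : Tame (|1 / k| * 7) 3 4 (Dx k) := (tame_pd 3 1).smul _
  have td2 : Tame (|1 / k| * 7) 2 3 (Dx k) := (tame_pd 2 1).smul _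
  have tx : Tame (|1 / k| * 7 * C) 3 2 (Dx k ∘ₗ J0) := td3.comp (by positivity) hJ0
  set K : S →ₗ[ℝ] S := LinearMap.mulLeft ℝ a₁ ∘ₗ (Dx k ∘ₗ (Dx k ∘ₗ J0))
    + LinearMap.mulLeft ℝ β ∘ₗ (LinearMap.id ∘ₗ (Dx k ∘ₗ J0)) with hK
  have tK : Tame ((nrm 2 a₁ * (|1 / k| * 7) + nrm 2 β) * (|1 / k| * 7 * C)) 2 2 K := by
    refine Tame.mono (((tame_mul 2 a₁).comp (nrm_nonneg _ _)
      (td2.comp (by positivity) tx)).add ((tame_mul 2 β).comp (nrm_nonneg _ _)
      ((tame_weaken 2).comp zero_le_one tx))) (le_of_eq (by ring))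
  have hKavg : ∀ g, avg (K g) = 0 := fun g => by
    simp only [hK, LinearMap.add_apply, LinearMap.comp_apply, LinearMap.id_apply,
      LinearMap.mulLeft_apply, avg_add]
    simp only [Dx, LinearMap.smul_apply, mul_smul_comm, avg_smul, avg_mul_pd 1 _ _ ha1,
      avg_mul_pd 1 _ _ hβ1, mul_zero, add_zero]
  obtain ⟨J, hJ, hJs⟩ := exists_neumann K _ 2
    (mul_nonneg (add_nonneg (mul_nonneg (nrm_nonneg _ _) (by positivity)) (nrm_nonneg _ _))
      (by positivity)) hsmall tK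
  set P : S →ₗ[ℝ] S := LinearMap.id + (-1 : ℝ) • avgMul ((1 / Bb) • (β * β)) with hP
  have tP : Tame (1 + |(-1 : ℝ)| * nrm 2 ((1 / Bb) • (β * β))) 2 2 P :=
    (tame_id 2).add ((tame_avgMul 2 2 _).smul _)
  set G : S →ₗ[ℝ] S := J ∘ₗ P with hG
  have tG := hJ.comp hJ.nonneg' tP
  set RU : S →ₗ[ℝ] S := (Dx k ∘ₗ J0) ∘ₗ G + avgMul ((1 / Bb) • β) with hRU
  set RW : S →ₗ[ℝ] S := (Dy k lam e ∘ₗ J0) ∘ₗ G with hRW
  have tRU := (tx.comp (by positivity) tG).add (tame_avgMul 3 2 ((1 / Bb) • β))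
  have tdy : Tame (|1 / lam| * 7 + |-(e / (lam * k))| * 7) 3 4 (Dy k lam e) := by
    have hDy : Dy k lam e = (1 / lam) • pd 0 + (-(e / (lam * k))) • pd 1 :=
      LinearMap.ext fun f => by
        simp only [Dy, LinearMap.sub_apply, LinearMap.add_apply, LinearMap.smul_apply, neg_smul,
          ← sub_eq_add_neg]
    rw [hDy]
    exact ((tame_pd 3 0).smul _).add ((tame_pd 3 1).smul _)
  have tRW := (tdy.comp (by positivity) hJ0).comp (by positivity) tG
  refine ⟨RU, RW, _, tRU.mono (le_max_left _ _), tRW.mono (le_max_right _ _), fun f => ?_⟩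
  set g := G f with hg
  have hgs : g + K g = f - (avg f / Bb) • (β * β) := by
    rw [hg, hG, LinearMap.comp_apply, hJs, hP]
    simp only [LinearMap.add_apply, LinearMap.id_apply, LinearMap.smul_apply, avgMul_apply,
      smul_smul]
    rw [sub_eq_add_neg, ← neg_smul]
    congr 2
    ring
  have hgavg : avg g = 0 := by
    have h := congrArg avg hgs
    rw [avg_add, hKavg, add_zero] at h
    rw [h, sub_eq_add_neg, ← neg_smul, avg_add, avg_smul]
    field_simp
    ring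
  have h0 := hJ0s g
  rw [hgavg, zero_smul, sub_zero] at h0
  have hDxβ : Dx k β = 0 := by simp [Dx, hβ1]
  have hU : RU f = Dx k (J0 g) + (avg f / Bb) • β := by
    simp only [hRU, LinearMap.add_apply, LinearMap.comp_apply, avgMul_apply, smul_smul, ← hg]
    congr 2
    ring
  have hW : RW f = Dy k lam e (J0 g) := rfl
  rw [hU, hW, map_add, map_smul, hDxβ, smul_zero, add_zero]
  have hKg : K g = a₁ * Dx k (Dx k (J0 g)) + β * Dx k (J0 g) := rfl
  rw [hKg] at hgs
  simp only [a₁] at hgs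
  simp only [← cst_mul] at h0 hgs ⊢
  linear_combination hgs + h0

theorem exists_net (ρ : S) (hρ : ∀ X, 0 < ρ.1 X) (a b c : ℝ) (ha : 0 < a) (hd : b ^ 2 < a * c) :
    Nonempty (Net (flatConf ρ a b c)) := by
  have hc : 0 < c := by nlinarith [sq_nonneg b]
  set D := Real.sqrt (a * c - b ^ 2) with hD
  have hD0 : 0 < D := Real.sqrt_pos.2 (by linarith)
  have hD2 : D ^ 2 = a * c - b ^ 2 := Real.sq_sqrt (by linarith)
  set k := Real.sqrt c with hkdef
  have hk : 0 < k := Real.sqrt_pos.2 hc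
  have hk2 : k ^ 2 = c := Real.sq_sqrt hc.le
  set lam := D / k with hlam
  have hl : 0 < lam := div_pos hD0 hk
  set e := b / k with he
  obtain ⟨r₁, hr₁⟩ := exists_rat_gt (b / c)
  set c₀ := ((r₁ : ℝ) * c - b) / D with hc₀def
  have hc₀ : 0 < c₀ := by
    refine div_pos ?_ hD0
    rw [div_lt_iff₀ hc] at hr₁
    linarith
  set α₀ := c₀ / (1 + c₀ ^ 2)
  obtain ⟨C, J0, hJ0, hJ0s⟩ := exists_laplace_inv k lam e α₀ hk hl (by positivity)
  have hC := hJ0.nonneg'
  obtain ⟨K, η, hη, hK, hbend⟩ := small_bend c₀ hc₀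
  set Z := (K * (|1 / k| * 7) + |1 / lam| * K) * (|1 / k| * 7 * C) with hZ
  have hZ0 : 0 ≤ Z := by positivity
  obtain ⟨δ, hδ, hδη, hδc, r₂, hr₂⟩ := exists_bend c₀ (b / c) (D / c) (min η (1 / (Z + 1))) hc₀
    (by positivity) (lt_min hη (by positivity))
  obtain ⟨hb1, hb2⟩ := hbend δ hδ (hδη.trans (min_le_left _ _))
  set F := (slopeP c₀ δ).lift with hFdef
  set iM := (imuP c₀ δ).lift with hiMdef
  set M := (muP c₀ δ).lift with hMdef
  have hiM1 : pd 1 iM = 0 := Per1.pd_one_lift _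
  have hβn : nrm 2 (Dy k lam e iM) ≤ |1 / lam| * (K * δ) := by
    rw [show Dy k lam e iM = (1 / lam) • pd 0 iM by simp [Dy, hiM1], nrm_smul]
    exact mul_le_mul_of_nonneg_left hb2 (abs_nonneg _)
  obtain ⟨RU, RW, BR, tRU, tRW, hR⟩ := exists_right_inverse k lam e c₀ δ hk hl hδ.ne' hc₀ J0 C
    hJ0 hJ0s (by
      have h1 : δ * (Z + 1) ≤ 1 := (le_div_iff₀ (by positivity)).1 (hδη.trans (min_le_right _ _))
      calc _ ≤ (K * δ * (|1 / k| * 7) + |1 / lam| * (K * δ)) * (|1 / k| * 7 * C) :=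
            mul_le_mul_of_nonneg_right (add_le_add
              (mul_le_mul_of_nonneg_right hb1 (by positivity)) hβn) (by positivity)
        _ = δ * Z := by rw [hZ]; ring
        _ < 1 := by nlinarith)
  -- the two phases
  set σ := 2 * Real.pi / k with hσ
  have hσ0 : 0 < σ := by positivity
  have hFpos : ∀ t, 0 < (slopeP c₀ δ).toFun t :=
    slopeP_pos (by rwa [abs_of_pos hδ])
  set m := invMean c₀ δ with hm
  let g₀ : Per1 :=
    { toFun := fun t => σ * lam * δ * Real.cos (2 * Real.pi * t)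
      smooth := by fun_prop
      per := fun t => by
        show _ * Real.cos _ = _
        rw [mul_add, mul_one, Real.cos_periodic] }
  let g₁ : Per1 :=
    { toFun := fun t => σ * lam * (m - ((slopeP c₀ δ).toFun t)⁻¹)
      smooth := contDiff_const.mul
        (contDiff_const.sub ((slopeP c₀ δ).smooth.inv fun t => (hFpos t).ne'))
      per := fun t => by
        show _ * (m - _⁻¹) = _ * (m - _⁻¹)
        rw [(slopeP c₀ δ).per t] }
  have hg₀ : ∫ x in (0 : ℝ)..1, g₀.toFun x = 0 := by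
    show ∫ x in (0 : ℝ)..1, σ * lam * δ * Real.cos (2 * Real.pi * x) = 0
    rw [intervalIntegral.integral_const_mul,
      intervalIntegral.integral_comp_mul_left (f := Real.cos) (by positivity), integral_cos]
    simp
  have hg₁ : ∫ x in (0 : ℝ)..1, g₁.toFun x = 0 := by
    show ∫ x in (0 : ℝ)..1, σ * lam * (m - ((slopeP c₀ δ).toFun x)⁻¹) = 0
    have hi : IntervalIntegrable (fun x => ((slopeP c₀ δ).toFun x)⁻¹) volume 0 1 :=
      ((slopeP c₀ δ).smooth.continuous.inv₀ fun x => (hFpos x).ne').intervalIntegrable _ _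
    rw [intervalIntegral.integral_const_mul,
      intervalIntegral.integral_sub intervalIntegrable_const hi]
    simp [hm, invMean]
  let iFP : Per1 :=
    { toFun := fun t => ((slopeP c₀ δ).toFun t)⁻¹
      smooth := (slopeP c₀ δ).smooth.inv fun t => (hFpos t).ne'
      per := fun t => by
        show _⁻¹ = _⁻¹
        rw [(slopeP c₀ δ).per t] }
  set iF := iFP.lift with hiFdef
  have hFiF : F * iF = 1 := Subtype.ext <| funext fun X => mul_inv_cancel₀ (hFpos X.1).ne'
  have hMiM : M * iM = 1 := muP_mul_imuP c₀ δ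
  have hM : M = 1 + F * F := muP_lift c₀ δ
  have hiMpos : ∀ t, 0 < (imuP c₀ δ).toFun t := fun t => by
    show 0 < (1 + (slopeP c₀ δ).toFun t ^ 2)⁻¹
    positivity
  -- amplitudes
  have hbase : ∀ X, 0 < ρ.1 X * iM.1 X := fun X => mul_pos (hρ X) (hiMpos X.1)
  let A₀ : S := ⟨fun X => Real.sqrt (ρ.1 X * iM.1 X) / σ,
    (((ρ.smooth.mul iM.smooth).sqrt fun X => (hbase X).ne').div_const σ),
    fun X n n' => by
      show Real.sqrt (_ * _) / σ = Real.sqrt (_ * _) / σ
      rw [ρ.periodic X n n', iM.periodic X n n']⟩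
  have hA₀pos : ∀ X, 0 < A₀.1 X := fun X => div_pos (Real.sqrt_pos.2 (hbase X)) hσ0
  have hA₀sq : A₀ * A₀ = cst (1 / σ ^ 2) * (ρ * iM) := Subtype.ext <| funext fun X => by
    show Real.sqrt (ρ.1 X * iM.1 X) / σ * (Real.sqrt (ρ.1 X * iM.1 X) / σ) =
      1 / σ ^ 2 * (ρ.1 X * iM.1 X)
    rw [div_mul_div_comm, Real.mul_self_sqrt (hbase X).le]
    ring
  obtain ⟨iA₀, hiA₀⟩ := exists_inv A₀ fun X => (hA₀pos X).ne'
  obtain ⟨iρ, hiρ⟩ := exists_inv ρ fun X => (hρ X).ne'
  set vx : Fin 2 → ℝ := ![0, 1 / k] with hvx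
  set vy : Fin 2 → ℝ := ![1 / lam, -(e / (lam * k))] with hvy
  set E0 : S := cst (σ ^ 3) * (M * (iF * iρ)) with hE0
  set RS : S →ₗ[ℝ] S := RW + LinearMap.mulLeft ℝ iM ∘ₗ RU with hRS
  set R0 : S →ₗ[ℝ] S := RU + (-1 : ℝ) • RS with hR0
  have tE := tame_mul 2 E0
  have tRS := tRW.add ((tame_mul 3 iM).comp (nrm_nonneg _ _) tRU)
  have tR0 := tRU.add (tRS.smul (-1 : ℝ))
  obtain ⟨B₀, tf0⟩ : ∃ B₀, Tame B₀ 3 2 (R0 ∘ₗ LinearMap.mulLeft ℝ E0) :=
    ⟨_, tR0.comp tR0.nonneg' tE⟩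
  obtain ⟨B₁, tf1⟩ : ∃ B₁, Tame B₁ 3 2 (RS ∘ₗ LinearMap.mulLeft ℝ E0) :=
    ⟨_, tRS.comp tRS.nonneg' tE⟩
  -- the differentials of the phases
  have hr1 : 2 * Real.pi * (r₁ : ℝ) = σ * (e + c₀ * lam) := by
    rw [hσ, he, hlam, hc₀def, ← hk2]; field_simp; ring
  have hr2 : 2 * Real.pi * (r₂ : ℝ) = σ * (e - m * lam) := by
    rw [← hr₂, hσ, he, hlam, hm, ← hk2]; field_simp
  have hper2 : 2 * Real.pi = σ * k := by rw [hσ]; field_simp
  have d00 : cst (2 * Real.pi * r₁) + pd 0 (g₀.prim hg₀).lift = cst σ * (cst e + F * cst lam) := by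
    rw [Per1.pd_prim, hr1]
    apply Subtype.ext
    funext X
    show σ * (e + c₀ * lam) + σ * lam * δ * Real.cos (2 * Real.pi * X.1) =
      σ * (e + (c₀ + δ * Real.cos (2 * Real.pi * X.1)) * lam)
    ring
  have d10 : cst (2 * Real.pi * r₂) + pd 0 (g₁.prim hg₁).lift = cst σ * (cst e - iF * cst lam) := by
    rw [Per1.pd_prim, hr2]
    apply Subtype.ext
    funext X
    show σ * (e - m * lam) + σ * lam * (m - ((slopeP c₀ δ).toFun X.1)⁻¹) =
      σ * (e - ((slopeP c₀ δ).toFun X.1)⁻¹ * lam)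
    ring
  have d01 : ∀ φ : Per1, cst (2 * Real.pi) + pd 1 φ.lift = cst σ * cst k := fun φ => by
    rw [Per1.pd_one_lift, add_zero, hper2, cst, cst, cst, map_mul]
  -- relations between the constants
  have cmul : ∀ u v : ℝ, cst u * cst v = cst (u * v) := fun u v => (map_mul _ u v).symm
  have k1 : cst σ * cst (1 / σ) = 1 := by
    rw [cmul, mul_one_div_cancel hσ0.ne', cst, map_one]
  have k2 : cst k * cst (1 / k) = 1 := by
    rw [cmul, mul_one_div_cancel hk.ne', cst, map_one]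
  have k3 : cst lam * cst (1 / lam) = 1 := by
    rw [cmul, mul_one_div_cancel hl.ne', cst, map_one]
  have k4 : cst k * cst (-(e / (lam * k))) + cst e * cst (1 / lam) = 0 := by
    rw [cmul, cmul, cst, cst, ← map_add, show k * -(e / (lam * k)) + e * (1 / lam) = 0 by
      field_simp; ring, map_zero]
  have k5 : cst (1 / σ ^ 2) * (cst σ * cst σ) = 1 := by
    rw [cmul, cmul, show 1 / σ ^ 2 * (σ * σ) = 1 by field_simp, cst, map_one]
  have k6 : cst (σ ^ 3) * (cst (1 / σ ^ 2) * cst (1 / σ)) = 1 := by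
    rw [cmul, cmul, show σ ^ 3 * (1 / σ ^ 2 * (1 / σ)) = 1 by field_simp, cst, map_one]
  have ka : cst e * cst e + cst lam * cst lam = cst a := by
    rw [cmul, cmul, cst, cst, cst, ← map_add]
    congr 1
    rw [he, hlam]
    field_simp
    linear_combination hD2 - a * hk2
  have kb : cst e * cst k = cst b := by
    rw [cmul]; congr 1; rw [he]; field_simp
  have kc : cst k * cst k = cst c := by
    rw [cmul, ← sq, hk2]
  have hz : cst (0 : ℝ) = 0 := map_zero _
  refine ⟨{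
    per := fun p i => ![![2 * Real.pi * (r₁ : ℝ), 2 * Real.pi],
      ![2 * Real.pi * (r₂ : ℝ), 2 * Real.pi]] p i
    den := r₁.den * r₂.den
    den_pos := Nat.mul_pos r₁.den_pos r₂.den_pos
    per_int := ?per_int
    ph := ![(g₀.prim hg₀).lift, (g₁.prim hg₁).lift]
    amp := ![A₀, A₀ * F]
    ampInv := ![iA₀, iA₀ * iF]
    amp_inv := ?amp_inv
    amp_pos := ?amp_pos
    frame := fun q i => cst (1 / σ) * iM *
      (if q = 0 then cst (vx i) + F * cst (vy i) else F * (F * cst (vx i) - cst (vy i)))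
    dual := ?dual
    metric := ?metric
    rinv := ![R0 ∘ₗ LinearMap.mulLeft ℝ E0, RS ∘ₗ LinearMap.mulLeft ℝ E0]
    bound := max 1 (max B₀ B₁)
    bound_pos := lt_of_lt_of_le one_pos (le_max_left (1 : ℝ) _)
    rinv_tame := ?rinv_tame
    rinv_spec := ?rinv_spec }⟩
  case rinv_tame =>
    intro p
    fin_cases p
    · exact tf0.mono (le_trans (le_max_left _ _) (le_max_right _ _))
    · exact tf1.mono (le_trans (le_max_right _ _) (le_max_right _ _))
  case per_int =>
    intro p i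
    have key : ∀ r : ℚ, ((r.den : ℝ)) * (r : ℝ) = (r.num : ℝ) := fun r => by
      rw [Rat.cast_def]
      field_simp
    fin_cases p <;> fin_cases i
    · exact ⟨r₁.num * r₂.den, by simp; linear_combination (2 * Real.pi * (r₂.den : ℝ)) * key r₁⟩
    · exact ⟨r₁.den * r₂.den, by simp; ring⟩
    · exact ⟨r₂.num * r₁.den, by simp; linear_combination (2 * Real.pi * (r₁.den : ℝ)) * key r₂⟩
    · exact ⟨r₁.den * r₂.den, by simp; ring⟩
  case amp_inv =>
    intro p
    fin_cases p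
    · exact hiA₀
    · show A₀ * F * (iA₀ * iF) = 1
      linear_combination (F * iF) * hiA₀ + hFiF
  case amp_pos =>
    intro p X
    fin_cases p
    · exact hA₀pos X
    · exact mul_pos (hA₀pos X) (hFpos X.1)
  case dual =>
    intro p q
    fin_cases p <;> fin_cases q <;>
      simp only [Fin.zero_eta, Fin.isValue, Fin.mk_one, Fin.sum_univ_two, Matrix.cons_val_zero,
        Matrix.cons_val_one, Matrix.cons_val_fin_one, d00, d10, d01, hvx, hvy, hz,
        if_true, Fin.one_eq_zero_iff, if_false, one_ne_zero, zero_ne_one]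
    · linear_combination (cst σ * cst (1 / σ) * iM * F) * k4 + (cst σ * cst (1 / σ) * iM) * k2
        + (cst σ * cst (1 / σ) * iM * F * F) * k3 - (cst σ * cst (1 / σ) * iM) * hM + hMiM * 1
        + (M * iM) * k1
    · linear_combination (-(cst σ * cst (1 / σ) * iM * F)) * k4
        + (cst σ * cst (1 / σ) * iM * F * F) * k2 - (cst σ * cst (1 / σ) * iM * F * F) * k3
    · linear_combination (cst σ * cst (1 / σ) * iM * F) * k4 + (cst σ * cst (1 / σ) * iM) * k2
        - (cst σ * cst (1 / σ) * iM * F * iF) * k3 - (cst σ * cst (1 / σ) * iM) * hFiF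
    · linear_combination (-(cst σ * cst (1 / σ) * iM * F)) * k4
        + (cst σ * cst (1 / σ) * iM * F * F) * k2 + (cst σ * cst (1 / σ) * iM * F * iF) * k3
        + (cst σ * cst (1 / σ) * iM) * hFiF - (cst σ * cst (1 / σ) * iM) * hM + hMiM
        + (M * iM) * k1
  case metric =>
    intro q
    fin_cases q <;>
      simp only [flatConf, q1, q2, Fin.zero_eta, Fin.isValue, Fin.mk_one, Fin.reduceFinMk,
        Fin.sum_univ_two, Matrix.cons_val_zero, Matrix.cons_val_one, Matrix.cons_val_fin_one,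
        Matrix.cons_val, d00, d10, d01, ← cst_mul]
    · linear_combination -((cst σ * cst σ) * ((cst e + F * cst lam) * (cst e + F * cst lam)
          + F * F * ((cst e - iF * cst lam) * (cst e - iF * cst lam)))) * hA₀sq
        - (ρ * iM * (M * (cst e * cst e + cst lam * cst lam))) * k5
        - ρ * M * iM * ka - (ρ * cst a) * hMiM
        + (cst (1 / σ ^ 2) * (cst σ * cst σ) * ρ * iM) * (cst e * cst e + cst lam * cst lam) * hM
        - (cst (1 / σ ^ 2) * (cst σ * cst σ) * ρ * iM) *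
          ((F * iF + 1) * cst lam * cst lam - 2 * F * cst e * cst lam) * hFiF
    · linear_combination -((cst σ * cst σ) * ((cst e + F * cst lam) * cst k
          + F * F * ((cst e - iF * cst lam) * cst k))) * hA₀sq
        - (ρ * iM * (M * (cst e * cst k))) * k5
        - ρ * M * iM * kb - (ρ * cst b) * hMiM
        + (cst (1 / σ ^ 2) * (cst σ * cst σ) * ρ * iM) * (cst e * cst k) * hM
        + (cst (1 / σ ^ 2) * (cst σ * cst σ) * ρ * iM) * (F * cst lam * cst k) * hFiF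
    · linear_combination -((cst σ * cst σ) * (cst k * cst k + F * F * (cst k * cst k))) * hA₀sq
        - (ρ * iM * (M * (cst k * cst k))) * k5
        - ρ * M * iM * kc - (ρ * cst c) * hMiM
        + (cst (1 / σ ^ 2) * (cst σ * cst σ) * ρ * iM) * (cst k * cst k) * hM
  case rinv_spec =>
    intro f
    set U := RU (E0 * f)
    set W := RW (E0 * f)
    have hRf : F * iM * Dx k U + Dy k lam e iM * U + Dy k lam e W = E0 * f := hR _
    have h1 : RS (E0 * f) = W + iM * U := rfl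
    have h0 : R0 (E0 * f) = U - (W + iM * U) := by
      show U + (-1 : ℝ) • RS (E0 * f) = _
      rw [h1, neg_one_smul, sub_eq_add_neg]
    have hsum : ∀ r : S, cst 0 * pd 0 r + cst (1 / k) * pd 1 r = Dx k r := fun r => by
      rw [hz, zero_mul, zero_add, cst_mul]; rfl
    have hsum' : ∀ r : S, cst (1 / lam) * pd 0 r + cst (-(e / (lam * k))) * pd 1 r = Dy k lam e r :=
      fun r => by
        rw [cst_mul, cst_mul, neg_smul, ← sub_eq_add_neg]; rfl
    simp only [Fin.zero_eta, Fin.isValue, Fin.sum_univ_two, Matrix.cons_val_zero,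
      Matrix.cons_val_one, Matrix.cons_val_fin_one, LinearMap.comp_apply, LinearMap.mulLeft_apply,
      h0, h1, hvx, hvy, if_true, Fin.one_eq_zero_iff, if_false, one_ne_zero, zero_ne_one]
    have hx1 := Dx_mul k iM U hiM1
    have hy1 := Dy_mul k lam e iM U
    have ha := hsum (U - (W + iM * U))
    have hb := hsum' (U - (W + iM * U))
    have hc' := hsum (W + iM * U)
    have hd' := hsum' (W + iM * U)
    simp only [map_sub, map_add, hx1, hy1] at ha hb hc' hd' ⊢
    linear_combination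
      (A₀ * A₀ * cst (1 / σ) * iM * F * F) * ha - (A₀ * A₀ * cst (1 / σ) * iM * F) * hb
        + (A₀ * F * (A₀ * F) * cst (1 / σ) * iM) * hc'
        + (A₀ * F * (A₀ * F) * cst (1 / σ) * iM * F) * hd'
        + (cst (1 / σ) * iM * F * M * (A₀ * A₀)) * hRf
        + (cst (1 / σ) * iM * F * M * (E0 * f)) * hA₀sq
        - (cst (1 / σ) * iM * F * (A₀ * A₀)) * (Dy k lam e W + Dy k lam e iM * U + iM * Dy k lam e U) * hM
        + (cst (1 / σ) * iM * F * (A₀ * A₀) * Dy k lam e U) * hMiM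
        - (cst (1 / σ) * iM * F * F * (A₀ * A₀) * Dx k U) * hMiM
        + (cst (1 / σ ^ 2) * cst (1 / σ) * ρ * iM * iM * F * M * f) * (congrArg id hE0)
        + (f * M * iM * M * iM * F * iF * ρ * iρ) * k6
        + (f * F * iF * ρ * iρ) * ((M * iM + 1) * hMiM) + (f * ρ * iρ) * hFiF + f * hiρ

end

end Vale.Agent.P205
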