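import Vale.Agent.P205.Norms

/-!
Functions of the first coordinate, and elementary tame operators.
-/

namespace Vale.Agent.P205

noncomputable section

open MeasureTheory

/-- Smooth functions of period one on the line. -/
structure Per1 where
  toFun : ℝ → ℝ
  smooth : ContDiff ℝ (⊤ : ℕ∞) toFun
  per : Function.Periodic toFun 1

/-- A function of the first coordinate only. -/
def Per1.lift (φ : Per1) : S :=
  ⟨fun X => φ.toFun X.1, φ.smooth.comp contDiff_fst, fun X m n => by
    simpa [mul_one] using φ.per.int_mul m X.1⟩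

@[simp] theorem Per1.lift_apply (φ : Per1) (X : ℝ × ℝ) : φ.lift.1 X = φ.toFun X.1 := rfl

theorem Per1.pd_lift (φ : Per1) (i : Fin 2) (X : ℝ × ℝ) :
    (pd i φ.lift).1 X = deriv φ.toFun X.1 * (unitV i).1 := by
  have h : HasFDerivAt (fun Y : ℝ × ℝ => φ.toFun Y.1)
      (deriv φ.toFun X.1 • ContinuousLinearMap.fst ℝ ℝ ℝ) X := by
    exact ((φ.smooth.differentiable (by simp)) X.1).hasDerivAt.comp_hasFDerivAt X
      ((ContinuousLinearMap.fst ℝ ℝ ℝ).hasFDerivAt)
  show fderiv ℝ (fun Y : ℝ × ℝ => φ.toFun Y.1) X (unitV i) = _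
  rw [h.fderiv]
  simp

theorem Per1.pd_one_lift (φ : Per1) : pd 1 φ.lift = 0 :=
  Subtype.ext <| funext fun X => by
    rw [φ.pd_lift]
    simp [unitV]

theorem Per1.pd_zero_lift (φ : Per1) (X : ℝ × ℝ) :
    (pd 0 φ.lift).1 X = deriv φ.toFun X.1 := by
  rw [φ.pd_lift]
  simp [unitV]

/-- A smooth periodic primitive. -/
def Per1.prim (φ : Per1) (h : ∫ x in (0 : ℝ)..1, φ.toFun x = 0) : Per1 where
  toFun t := ∫ x in (0 : ℝ)..t, φ.toFun x
  smooth := by
    have hd : ∀ t, HasDerivAt (fun t => ∫ x in (0 : ℝ)..t, φ.toFun x) (φ.toFun t) t := fun t =>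
      (φ.smooth.continuous).integral_hasStrictDerivAt 0 t |>.hasDerivAt
    refine contDiff_infty_iff_deriv.2 ⟨fun t => (hd t).differentiableAt, ?_⟩
    rw [show deriv (fun t => ∫ x in (0 : ℝ)..t, φ.toFun x) = φ.toFun from
      funext fun t => (hd t).deriv]
    exact φ.smooth
  per t := by
    have hi : ∀ u v, IntervalIntegrable φ.toFun volume u v := fun u v =>
      φ.smooth.continuous.intervalIntegrable u v
    simp only []
    rw [← intervalIntegral.integral_add_adjacent_intervals (hi 0 t) (hi t (t + 1)),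
      φ.per.intervalIntegral_add_eq t 0, zero_add, h, add_zero]

theorem Per1.pd_prim (φ : Per1) (h : ∫ x in (0 : ℝ)..1, φ.toFun x = 0) :
    pd 0 (φ.prim h).lift = φ.lift :=
  Subtype.ext <| funext fun X => by
    rw [Per1.pd_zero_lift]
    exact (φ.smooth.continuous.integral_hasStrictDerivAt 0 X.1).hasDerivAt.deriv

theorem avg_add (f g : S) : avg (f + g) = avg f + avg g := by
  have := fc_add f g 0
  simp only [fc_zero_avg] at this
  exact_mod_cast this

theorem avg_smul (c : ℝ) (f : S) : avg (c • f) = c * avg f := by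
  have := fc_smul c f 0
  simp only [fc_zero_avg, Complex.real_smul] at this
  exact_mod_cast this

/-- The mean as a linear form. -/
def avgL : S →ₗ[ℝ] ℝ where
  toFun := avg
  map_add' := avg_add
  map_smul' := avg_smul

@[simp] theorem avgL_apply (f : S) : avgL f = avg f := rfl

theorem avg_pd (i : Fin 2) (f : S) : avg (pd i f) = 0 := by
  have h := fc_pd i f 0
  rw [fc_zero_avg] at h
  have h0 : fq (0 : Freq) i = 0 := by unfold fq; split <;> rfl
  rw [h0] at h
  simpa using h

theorem avg_mul_pd (i : Fin 2) (a f : S) (h : pd i a = 0) : avg (a * pd i f) = 0 := by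
  have h1 := avg_pd i (a * f)
  rwa [pd_mul, h, zero_mul, zero_add] at h1

theorem abs_avg_le (s : ℕ) (f : S) : |avg f| ≤ nrm s f := by
  refine le_trans ?_ ((summable_nrm s f).le_tsum 0 fun k _ => by
    have : 0 ≤ wt k := by unfold wt; positivity
    positivity)
  simp [fc_zero_avg, wt]

/-- A rank one operator built from the mean. -/
def avgMul (b : S) : S →ₗ[ℝ] S := avgL.smulRight b

@[simp] theorem avgMul_apply (b f : S) : avgMul b f = avg f • b := rfl

theorem tame_avgMul (i j : ℕ) (b : S) : Tame (nrm i b) i j (avgMul b) := by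
  refine ⟨fun f => ?_, fun s => ⟨nrm (s + 1 + i) b, nrm_nonneg _ _, fun f => ?_⟩⟩
  · rw [avgMul_apply, nrm_smul, mul_comm]
    exact mul_le_mul_of_nonneg_left (abs_avg_le j f) (nrm_nonneg _ _)
  · rw [avgMul_apply, nrm_smul, mul_comm]
    have h1 := mul_le_mul_of_nonneg_left (abs_avg_le (s + j) f) (nrm_nonneg (s + 1 + i) b)
    have h2 := mul_nonneg (nrm_nonneg i b) (nrm_nonneg (s + 1 + j) f)
    linarith

theorem tame_id (i : ℕ) : Tame 1 i i (LinearMap.id : S →ₗ[ℝ] S) :=
  ⟨fun f => by simp, fun s => ⟨0, le_rfl, fun f => by simp⟩⟩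

theorem Tame.nonneg' {c : ℝ} {i j : ℕ} {L : S →ₗ[ℝ] S} (h : Tame c i j L) : 0 ≤ c := by
  have h1 := (h.1 (cst 1))
  rw [nrm_cst, abs_one, mul_one] at h1
  exact le_trans (nrm_nonneg _ _) h1

end

end Vale.Agent.P205
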