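import Vale.Agent.P205.NormsTame

/-!
Limits and Neumann series in the Wiener norms.
-/

namespace Vale.Agent.P205

noncomputable section

open Filter Topology

theorem lim_fc_sub (f g : S) (k : Freq) : fc (f - g) k = fc f k - fc g k := by
  rw [eq_sub_iff_add_eq, ← fc_add, sub_add_cancel]

theorem lim_nrm_sum (s : ℕ) {ι : Type*} (F : Finset ι) (f : ι → S) :
    nrm s (∑ i ∈ F, f i) ≤ ∑ i ∈ F, nrm s (f i) := by
  classical
  induction F using Finset.induction_on with
  | empty =>
    simp only [Finset.sum_empty]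
    exact (nrm_smul s 0 (0 : S) |>.trans_le (by simp)).trans' (by simp)
  | insert a F ha ih =>
    rw [Finset.sum_insert ha, Finset.sum_insert ha]
    exact (nrm_add _ _ _).trans (add_le_add le_rfl ih)

theorem lim_wt_ge (k : Freq) : 1 ≤ wt k := by
  unfold wt
  linarith [abs_nonneg (k.1 : ℝ), abs_nonneg (k.2 : ℝ)]

theorem lim_nrm_neg (s : ℕ) (f : S) : nrm s (-f) = nrm s f := by
  rw [← neg_one_smul ℝ f, nrm_smul, abs_neg, abs_one, one_mul]

theorem lim_nrm_sub_comm (s : ℕ) (f g : S) : nrm s (f - g) = nrm s (g - f) := by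
  rw [← lim_nrm_neg, neg_sub]

theorem lim_norm_fc_le (f : S) (k : Freq) : ‖fc f k‖ ≤ nrm 0 f := by
  simpa [nrm] using (summable_nrm 0 f).le_tsum k fun l _ => by simp

/-- Interpolation between the norms. -/
theorem lim_nrm_interp (s : ℕ) {t : ℝ} (ht : 0 < t) (f : S) :
    nrm s f ≤ t * nrm (s + 1) f + (1 / t) ^ s * nrm 0 f := by
  have hs1 := summable_nrm (s + 1) f
  have hs0 := summable_nrm 0 f
  rw [nrm, nrm, nrm, ← tsum_mul_left, ← tsum_mul_left,
    ← (hs1.mul_left t).tsum_add (hs0.mul_left _)]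
  refine (summable_nrm s f).tsum_le_tsum (fun k => ?_) ((hs1.mul_left t).add (hs0.mul_left _))
  have h1 := lim_wt_ge k
  rcases le_total (1 / t) (wt k) with h | h
  · have h2 : 1 ≤ t * wt k := by
      rw [div_le_iff₀ ht] at h
      linarith
    have h3 : wt k ^ s * ‖fc f k‖ ≤ t * (wt k ^ (s + 1) * ‖fc f k‖) := by
      rw [pow_succ]
      nlinarith [mul_nonneg (pow_nonneg (show 0 ≤ wt k by linarith) s) (norm_nonneg (fc f k))]
    have h4 : 0 ≤ (1 / t) ^ s * (wt k ^ 0 * ‖fc f k‖) := by positivity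
    linarith
  · have h3 : wt k ^ s * ‖fc f k‖ ≤ (1 / t) ^ s * (wt k ^ 0 * ‖fc f k‖) := by
      rw [pow_zero, one_mul]
      exact mul_le_mul_of_nonneg_right (pow_le_pow_left₀ (by linarith) h s) (norm_nonneg _)
    have h4 : 0 ≤ t * (wt k ^ (s + 1) * ‖fc f k‖) := by
      have : 0 ≤ wt k := by linarith
      positivity
    linarith

theorem lim_eq (f g : S) (h : nrm 0 (f - g) ≤ 0) : f = g :=
  Subtype.ext <| funext fun X =>
    sub_eq_zero.1 (abs_nonpos_iff.1 ((abs_apply_le (f - g) X).trans h))

/-- A limit in all norms. -/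
theorem exists_lim (u : ℕ → S) (r : ℕ) (hb : ∀ s, ∃ B, ∀ n, nrm s (u n) ≤ B) (q C : ℝ)
    (hq0 : 0 ≤ q) (hq : q < 1) (hc : ∀ n, nrm r (u (n + 1) - u n) ≤ C * q ^ n) :
    ∃ v : S, ∀ s, Filter.Tendsto (fun n => nrm s (u n - v)) Filter.atTop (nhds 0) := by
  set D := |C| / (1 - q) with hD
  have hq1 : 0 < 1 - q := by linarith
  have hD0 : 0 ≤ D := by positivity
  have hdist : ∀ j n, nrm 0 (u (n + j) - u n) ≤ D * q ^ n := by
    intro j
    induction j with
    | zero =>
      intro n
      rw [add_zero, sub_self, show (0 : S) = cst 0 from (map_zero _).symm, nrm_cst, abs_zero]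
      positivity
    | succ j ih =>
      intro n
      have e : u (n + (j + 1)) - u n = (u (n + 1 + j) - u (n + 1)) + (u (n + 1) - u n) := by
        rw [show n + (j + 1) = n + 1 + j by omega]; abel
      rw [e]
      refine (nrm_add _ _ _).trans ((add_le_add (ih (n + 1))
        (((nrm_mono (Nat.zero_le r) _).trans (hc n)).trans
          (mul_le_mul_of_nonneg_right (le_abs_self C) (pow_nonneg hq0 n)))).trans_eq ?_)
      rw [hD, pow_succ]
      field_simp
      ring
  have hcauchy : ∀ s, ∀ t > 0, ∃ N, ∀ m ≥ N, ∀ n ≥ N, nrm s (u m - u n) ≤ t := by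
    intro s t ht
    obtain ⟨B, hB⟩ := hb (s + 1)
    set B' := 2 * |B| + 1
    set t' := t / (2 * B')
    have ht' : 0 < t' := by positivity
    have hlim : Tendsto (fun n => (1 / t') ^ s * (D * q ^ n)) atTop (𝓝 0) := by
      simpa using ((tendsto_pow_atTop_nhds_zero_of_lt_one hq0 hq).const_mul D).const_mul
        ((1 / t') ^ s)
    obtain ⟨N, hN⟩ := eventually_atTop.1 (hlim.eventually (eventually_le_nhds (half_pos ht)))
    have hhalf : ∀ m n, N ≤ n → n ≤ m → nrm s (u m - u n) ≤ t := by
      intro m n hn hnm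
      obtain ⟨j, rfl⟩ := Nat.exists_eq_add_of_le hnm
      refine (lim_nrm_interp s ht' _).trans ?_
      have h1 : nrm (s + 1) (u (n + j) - u n) ≤ B' := by
        rw [sub_eq_add_neg]
        refine (nrm_add _ _ _).trans ?_
        rw [lim_nrm_neg]
        linarith [hB (n + j), hB n, le_abs_self B]
      have h2 : t' * B' = t / 2 := by
        have : B' ≠ 0 := (show 0 < B' by positivity).ne'
        show t / (2 * B') * B' = t / 2
        field_simp
      have h3 := mul_le_mul_of_nonneg_left (hdist j n) (pow_nonneg (by positivity : 0 ≤ 1 / t') s)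
      have h4 := mul_le_mul_of_nonneg_left h1 ht'.le
      linarith [hN n hn]
    refine ⟨N, fun m hm n hn => ?_⟩
    rcases le_total n m with h | h
    · exact hhalf m n hn h
    · rw [lim_nrm_sub_comm]
      exact hhalf n m hm h
  have hlimfc : ∀ k, ∃ z : ℂ, Tendsto (fun n => fc (u n) k) atTop (𝓝 z) := fun k => by
    refine cauchySeq_tendsto_of_complete (Metric.cauchySeq_iff.2 fun t ht => ?_)
    obtain ⟨N, hN⟩ := hcauchy 0 (t / 2) (half_pos ht)
    refine ⟨N, fun m hm n hn => ?_⟩
    rw [dist_eq_norm, ← lim_fc_sub]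
    linarith [lim_norm_fc_le (u m - u n) k, hN m hm n hn]
  choose c hc' using hlimfc
  obtain ⟨v, hv⟩ := exists_synth c (fun k => by
      refine tendsto_nhds_unique (hc' (-k)) ?_
      simp only [fc_neg_freq]
      exact (Complex.continuous_conj.tendsto _).comp (hc' k))
    (fun s => by
      obtain ⟨B, hB⟩ := hb s
      have hw : ∀ k, 0 ≤ wt k ^ s := fun k => by
        have := lim_wt_ge k
        positivity
      refine summable_of_sum_le (fun k => mul_nonneg (hw k) (norm_nonneg _)) (c := B) fun F => ?_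
      refine le_of_tendsto (tendsto_finsetSum F fun k _ => ((hc' k).norm.const_mul _))
        (Eventually.of_forall fun n => ?_)
      exact ((summable_nrm s (u n)).sum_le_tsum F fun k _ => mul_nonneg (hw k) (norm_nonneg _)).trans
        (hB n))
  refine ⟨v, fun s => ?_⟩
  have hw : ∀ k, 0 ≤ wt k ^ s := fun k => by
    have := lim_wt_ge k
    positivity
  rw [Metric.tendsto_atTop]
  intro t ht
  obtain ⟨N, hN⟩ := hcauchy s (t / 2) (half_pos ht)
  refine ⟨N, fun n hn => ?_⟩
  rw [Real.dist_eq, sub_zero, abs_of_nonneg (nrm_nonneg _ _)]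
  refine lt_of_le_of_lt ((summable_nrm s (u n - v)).tsum_le_of_sum_le fun F => ?_) (half_lt_self ht)
  simp only [lim_fc_sub, hv]
  refine le_of_tendsto (tendsto_finsetSum F fun k _ =>
    (((tendsto_const_nhds (x := fc (u n) k)).sub (hc' k)).norm.const_mul (wt k ^ s))) ?_
  filter_upwards [eventually_ge_atTop N] with m hm
  refine le_trans (le_of_eq (Finset.sum_congr rfl fun k _ => by rw [← lim_fc_sub])) ?_
  exact ((summable_nrm s (u n - u m)).sum_le_tsum F fun k _ =>
    mul_nonneg (hw k) (norm_nonneg _)).trans (hN n hn m hm)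

/-- Neumann series. -/
theorem exists_neumann (K : S →ₗ[ℝ] S) (θ : ℝ) (r : ℕ) (hθ0 : 0 ≤ θ) (hθ : θ < 1)
    (hK : Tame θ r r K) :
    ∃ J : S →ₗ[ℝ] S, Tame (1 / (1 - θ)) r r J ∧ ∀ f, J f + K (J f) = f := by
  obtain ⟨hK0, hK1⟩ := hK
  have h1θ : 0 < 1 - θ := by linarith
  choose C hC0 hC using hK1
  set T : ℕ → S →ₗ[ℝ] S := fun n => ((-1 : ℝ) • K) ^ n with hT
  have hTs : ∀ n f, T (n + 1) f = -K (T n f) := fun n f => by
    simp [hT, pow_succ', Module.End.mul_apply, -neg_smul, neg_one_smul]
  have hT0 : ∀ f, T 0 f = f := fun f => rfl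
  set W : ℕ → S →ₗ[ℝ] S := fun N => ∑ n ∈ Finset.range N, T n with hW
  have hWap : ∀ N f, W N f = ∑ n ∈ Finset.range N, T n f := fun N f => by simp [hW]
  -- the total of the norms
  set tot : ℕ → ℕ → S → ℝ := fun s N f => ∑ n ∈ Finset.range N, nrm (s + r) (T n f) with htot
  have htot0 : ∀ N f, tot 0 N f ≤ 1 / (1 - θ) * nrm r f := by
    intro N f
    induction N with
    | zero =>
      simp only [htot, Finset.range_zero, Finset.sum_empty]
      exact mul_nonneg (by positivity) (nrm_nonneg _ _)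
    | succ N ih =>
      have h : ∑ n ∈ Finset.range N, nrm r (T (n + 1) f) ≤ θ * tot 0 N f := by
        simp only [htot, zero_add, Finset.mul_sum]
        refine Finset.sum_le_sum fun n _ => ?_
        rw [hTs, lim_nrm_neg]
        exact hK0 _
      simp only [htot, zero_add] at ih h ⊢
      rw [Finset.sum_range_succ', hT0]
      have h2 := mul_le_mul_of_nonneg_left ih hθ0
      have h3 : θ * (1 / (1 - θ) * nrm r f) + nrm r f = 1 / (1 - θ) * nrm r f := by
        field_simp
        ring
      linarith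
  have hrec : ∀ s N f, tot (s + 1) N f ≤
      1 / (1 - θ) * (nrm (s + 1 + r) f + C s * tot s N f) := by
    intro s N f
    induction N with
    | zero =>
      simp only [htot, Finset.range_zero, Finset.sum_empty, mul_zero, add_zero]
      exact mul_nonneg (by positivity) (nrm_nonneg _ _)
    | succ N ih =>
      have h : ∑ n ∈ Finset.range N, nrm (s + 1 + r) (T (n + 1) f) ≤
          θ * tot (s + 1) N f + C s * tot s N f := by
        simp only [htot, Finset.mul_sum, ← Finset.sum_add_distrib]
        refine Finset.sum_le_sum fun n _ => ?_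
        rw [hTs, lim_nrm_neg]
        exact hC s _
      have hmono : tot s N f ≤ tot s (N + 1) f := by
        simp only [htot, Finset.sum_range_succ]
        exact le_add_of_nonneg_right (nrm_nonneg _ _)
      have h2 := mul_le_mul_of_nonneg_left hmono (hC0 s)
      have e : tot (s + 1) (N + 1) f =
          ∑ n ∈ Finset.range N, nrm (s + 1 + r) (T (n + 1) f) + nrm (s + 1 + r) f := by
        simp only [htot, Finset.sum_range_succ', hT0]
      rw [e]
      have h3 := mul_le_mul_of_nonneg_left ih hθ0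
      have h4 : θ * (1 / (1 - θ) * (nrm (s + 1 + r) f + C s * tot s N f))
          + (nrm (s + 1 + r) f + C s * tot s N f)
          = 1 / (1 - θ) * (nrm (s + 1 + r) f + C s * tot s N f) := by
        field_simp
        ring
      have h5 := mul_le_mul_of_nonneg_left h2 (show (0 : ℝ) ≤ 1 / (1 - θ) by positivity)
      linarith
  have hbd : ∀ s, ∃ D, 0 ≤ D ∧ ∀ N f, tot s N f ≤ D * nrm (s + r) f := by
    intro s
    induction s with
    | zero =>
      refine ⟨1 / (1 - θ), by positivity, fun N f => ?_⟩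
      rw [zero_add]
      exact htot0 N f
    | succ s ih =>
      obtain ⟨D, hD0, hD⟩ := ih
      refine ⟨1 / (1 - θ) * (1 + C s * D), mul_nonneg (by positivity) (by have := hC0 s; positivity),
        fun N f => (hrec s N f).trans ?_⟩
      rw [mul_assoc]
      refine mul_le_mul_of_nonneg_left ?_ (by positivity)
      have h1 := nrm_mono (show s + r ≤ s + 1 + r by omega) f
      have h2 := mul_le_mul_of_nonneg_left ((hD N f).trans (mul_le_mul_of_nonneg_left h1 hD0)) (hC0 s)
      linarith
  choose D hD0 hD using hbd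
  have hWn : ∀ s N f, nrm (s + r) (W N f) ≤ tot s N f := fun s N f => by
    rw [hWap]
    exact lim_nrm_sum _ _ _
  have hgeo : ∀ n f, nrm r (T n f) ≤ nrm r f * θ ^ n := by
    intro n f
    induction n with
    | zero => simp [hT0]
    | succ n ih =>
      rw [hTs, lim_nrm_neg, pow_succ]
      refine (hK0 _).trans ((mul_le_mul_of_nonneg_left ih hθ0).trans_eq ?_)
      ring
  have hex : ∀ f, ∃ v : S, ∀ s, Tendsto (fun N => nrm s (W N f - v)) atTop (𝓝 0) := fun f => by
    refine exists_lim (fun N => W N f) r (fun s => ⟨D s * nrm (s + r) f, fun N => ?_⟩) θ (nrm r f)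
      hθ0 hθ fun N => ?_
    · exact (nrm_mono (Nat.le_add_right s r) _).trans ((hWn s N f).trans (hD s N f))
    · rw [hWap, hWap, Finset.sum_range_succ, add_sub_cancel_left]
      exact hgeo N f
  choose v hv using hex
  have huniq : ∀ f w, Tendsto (fun N => nrm 0 (W N f - w)) atTop (𝓝 0) → w = v f := by
    intro f w hw
    refine lim_eq _ _ (le_of_tendsto_of_tendsto' tendsto_const_nhds
      (by simpa using hw.add (hv f 0)) fun N => ?_)
    rw [lim_nrm_sub_comm 0 (W N f) w]
    refine le_trans (le_of_eq (congrArg (nrm 0) ?_)) (nrm_add _ _ _)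
    abel
  let J : S →ₗ[ℝ] S :=
    { toFun := v
      map_add' := fun f g => by
        refine (huniq _ _ (squeeze_zero (fun N => nrm_nonneg _ _) (fun N => ?_)
          (by simpa using (hv f 0).add (hv g 0)))).symm
        rw [map_add, add_sub_add_comm]
        exact nrm_add _ _ _
      map_smul' := fun a f => by
        refine (huniq _ _ (squeeze_zero (fun N => nrm_nonneg _ _) (fun N => ?_)
          (by simpa using (hv f 0).const_mul |a|))).symm
        rw [RingHom.id_apply, map_smul, ← smul_sub, nrm_smul] }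
  have hle : ∀ s f B, (∀ N, nrm s (W N f) ≤ B) → nrm s (v f) ≤ B := by
    intro s f B hB
    refine ge_of_tendsto (by simpa using (hv f s).const_add B) (Eventually.of_forall fun N => ?_)
    have e : v f = W N f + -(W N f - v f) := by abel
    rw [e]
    refine (nrm_add _ _ _).trans (add_le_add (hB N) ?_)
    rw [lim_nrm_neg, ← e]
  refine ⟨J, ⟨fun f => hle r f _ fun N => ?_, fun s =>
    ⟨1 / (1 - θ) * (C s * D s), mul_nonneg (by positivity) (mul_nonneg (hC0 s) (hD0 s)),
      fun f => hle (s + 1 + r) f _ fun N => ?_⟩⟩, fun f => ?_⟩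
  · have h := (hWn 0 N f).trans (htot0 N f)
    rwa [zero_add] at h
  · refine (hWn (s + 1) N f).trans ((hrec s N f).trans ?_)
    have h2 := mul_le_mul_of_nonneg_left (mul_le_mul_of_nonneg_left (hD s N f) (hC0 s))
      (show (0 : ℝ) ≤ 1 / (1 - θ) by positivity)
    linarith
  · refine lim_eq _ _ (le_trans (nrm_mono (Nat.zero_le r) _) ?_)
    have hlim := ((hv f r).comp (tendsto_add_atTop_nat 1)).add ((hv f r).const_mul θ)
    rw [mul_zero, add_zero] at hlim
    refine ge_of_tendsto hlim (Eventually.of_forall fun N => ?_)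
    show nrm r (v f + K (v f) - f) ≤ nrm r (W (N + 1) f - v f) + θ * nrm r (W N f - v f)
    have e1 : W (N + 1) f = f - K (W N f) := by
      rw [hWap, hWap, Finset.sum_range_succ', hT0, map_sum]
      simp only [hTs, Finset.sum_neg_distrib]
      abel
    have e : v f + K (v f) - f = -(W (N + 1) f - v f) + -K (W N f - v f) := by
      rw [e1, map_sub]
      abel
    rw [e]
    refine (nrm_add _ _ _).trans (add_le_add (le_of_eq (lim_nrm_neg _ _)) ?_)
    rw [lim_nrm_neg]
    exact hK0 _

/-- Inverting near an invertible function. -/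
theorem exists_inv_near (s : ℕ) (d d₀ e₀ : S) (h₀ : d₀ * e₀ = 1)
    (h : nrm s (d - d₀) * nrm s e₀ ≤ 1 / 2) :
    ∃ e : S, d * e = 1 ∧ nrm s e ≤ 2 * nrm s e₀ := by
  have hT : Tame (1 / 2) s s (LinearMap.mulLeft ℝ ((d - d₀) * e₀)) :=
    (tame_mul s _).mono ((nrm_mul _ _ _).trans h)
  obtain ⟨J, hJ, hJeq⟩ := exists_neumann _ (1 / 2) s (by norm_num) (by norm_num) hT
  refine ⟨e₀ * J 1, ?_, ?_⟩
  · have h1 := hJeq 1
    rw [LinearMap.mulLeft_apply] at h1
    linear_combination h1 + J 1 * h₀
  · refine (nrm_mul _ _ _).trans ?_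
    have h1 := hJ.1 1
    rw [show (1 : S) = cst 1 from (map_one _).symm, nrm_cst, abs_one, mul_one,
      show (1 : ℝ) / (1 - 1 / 2) = 2 by norm_num] at h1
    rw [mul_comm 2 (nrm s e₀), show (1 : S) = cst 1 from (map_one _).symm]
    exact mul_le_mul_of_nonneg_left h1 (nrm_nonneg _ _)

/-- A function without zeros is invertible. -/
theorem exists_inv (d : S) (h : ∀ X, d.1 X ≠ 0) : ∃ e : S, d * e = 1 :=
  ⟨⟨fun X => (d.1 X)⁻¹, d.smooth.inv h, fun X m n => by
    show (d.1 _)⁻¹ = (d.1 X)⁻¹
    rw [d.periodic X m n]⟩, Subtype.ext <| funext fun X => mul_inv_cancel₀ (h X)⟩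

end

end Vale.Agent.P205
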