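import Vale.Agent.P205.NormsBasic

/-!
Tame operators.
-/

namespace Vale.Agent.P205

set_option linter.unusedVariables false

noncomputable section

theorem Tame.mono {c c' : ℝ} {i j : ℕ} {L : S →ₗ[ℝ] S} (h : Tame c i j L) (hc : c ≤ c') :
    Tame c' i j L := by
  refine ⟨fun f => (h.1 f).trans (mul_le_mul_of_nonneg_right hc (nrm_nonneg _ _)), fun s => ?_⟩
  obtain ⟨C, hC, hb⟩ := h.2 s
  exact ⟨C, hC, fun f => (hb f).trans (by gcongr; exact nrm_nonneg _ _)⟩

theorem Tame.comp {c c' : ℝ} {i j l : ℕ} {L M : S →ₗ[ℝ] S} (hc : 0 ≤ c) (hL : Tame c i j L)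
    (hM : Tame c' j l M) : Tame (c * c') i l (L ∘ₗ M) := by
  refine ⟨fun f => ?_, fun s => ?_⟩
  · calc nrm i (L (M f)) ≤ c * nrm j (M f) := hL.1 _
      _ ≤ c * (c' * nrm l f) := mul_le_mul_of_nonneg_left (hM.1 f) hc
      _ = c * c' * nrm l f := (mul_assoc _ _ _).symm
  obtain ⟨C, hC, hb⟩ := hL.2 s
  obtain ⟨C', hC', hb'⟩ := hM.2 s
  -- the level below
  obtain ⟨D, hD, hlow⟩ : ∃ D, 0 ≤ D ∧ ∀ f, nrm (s + j) (M f) ≤ D * nrm (s + l) f := by
    cases s with
    | zero =>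
      refine ⟨|c'|, abs_nonneg _, fun f => ?_⟩
      simp only [zero_add]
      exact (hM.1 f).trans (mul_le_mul_of_nonneg_right (le_abs_self _) (nrm_nonneg _ _))
    | succ t =>
      obtain ⟨E, hE, hbE⟩ := hM.2 t
      refine ⟨|c'| + E, by positivity, fun f => (hbE f).trans ?_⟩
      have h1 : nrm (t + l) f ≤ nrm (t + 1 + l) f := nrm_mono (by omega) f
      have h2 := mul_le_mul_of_nonneg_left h1 hE
      have h3 := mul_le_mul_of_nonneg_right (le_abs_self c') (nrm_nonneg (t + 1 + l) f)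
      linarith
  refine ⟨c * C' + C * D, by positivity, fun f => ?_⟩
  calc nrm (s + 1 + i) (L (M f)) ≤ c * nrm (s + 1 + j) (M f) + C * nrm (s + j) (M f) := hb _
    _ ≤ c * (c' * nrm (s + 1 + l) f + C' * nrm (s + l) f) + C * (D * nrm (s + l) f) := by
        gcongr
        · exact hb' f
        · exact hlow f
    _ = c * c' * nrm (s + 1 + l) f + (c * C' + C * D) * nrm (s + l) f := by ring

theorem Tame.add {c c' : ℝ} {i j : ℕ} {L M : S →ₗ[ℝ] S} (hL : Tame c i j L)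
    (hM : Tame c' i j M) : Tame (c + c') i j (L + M) := by
  refine ⟨fun f => ?_, fun s => ?_⟩
  · have := nrm_add i (L f) (M f)
    have := hL.1 f
    have := hM.1 f
    show nrm i (L f + M f) ≤ _
    linarith
  obtain ⟨C, hC, hb⟩ := hL.2 s
  obtain ⟨C', hC', hb'⟩ := hM.2 s
  refine ⟨C + C', by positivity, fun f => ?_⟩
  have := nrm_add (s + 1 + i) (L f) (M f)
  have := hb f
  have := hb' f
  show nrm _ (L f + M f) ≤ _
  linarith

theorem Tame.smul {c : ℝ} {i j : ℕ} {L : S →ₗ[ℝ] S} (r : ℝ) (hL : Tame c i j L) :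
    Tame (|r| * c) i j (r • L) := by
  refine ⟨fun f => ?_, fun s => ?_⟩
  · show nrm i (r • L f) ≤ _
    rw [nrm_smul, mul_assoc]
    exact mul_le_mul_of_nonneg_left (hL.1 f) (abs_nonneg r)
  obtain ⟨C, hC, hb⟩ := hL.2 s
  refine ⟨|r| * C, by positivity, fun f => ?_⟩
  show nrm _ (r • L f) ≤ _
  rw [nrm_smul]
  calc |r| * nrm (s + 1 + i) (L f) ≤ |r| * (c * nrm (s + 1 + j) f + C * nrm (s + j) f) :=
        mul_le_mul_of_nonneg_left (hb f) (abs_nonneg r)
    _ = _ := by ring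

theorem tame_mul (i : ℕ) (a : S) : Tame (nrm i a) i i (LinearMap.mulLeft ℝ a) := by
  refine ⟨fun f => nrm_mul i a f, fun s => ?_⟩
  obtain ⟨C, hC, hb⟩ := nrm_mul_tame (s + i)
  have ha := nrm_nonneg (s + i + 1) a
  have ha' := nrm_nonneg (s + i) a
  refine ⟨nrm (s + i + 1) a + C * nrm (s + i) a, by positivity, fun f => ?_⟩
  show nrm _ (a * f) ≤ _
  rw [show s + 1 + i = s + i + 1 by omega]
  calc nrm (s + i + 1) (a * f)
      ≤ nrm (s + i + 1) a * nrm 0 f + nrm 0 a * nrm (s + i + 1) f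
        + C * (nrm (s + i) a * nrm (s + i) f) := hb a f
    _ ≤ nrm (s + i + 1) a * nrm (s + i) f + nrm i a * nrm (s + i + 1) f
        + C * (nrm (s + i) a * nrm (s + i) f) := by
        have h1 := mul_le_mul_of_nonneg_left (nrm_mono (Nat.zero_le (s + i)) f) ha
        have h2 := mul_le_mul_of_nonneg_right (nrm_mono (Nat.zero_le i) a)
          (nrm_nonneg (s + i + 1) f)
        linarith
    _ = _ := by ring

theorem tame_pd (i : ℕ) (a : Fin 2) : Tame 7 i (i + 1) (pd a) := by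
  refine ⟨fun f => nrm_pd i a f, fun s => ⟨0, le_rfl, fun f => ?_⟩⟩
  have h := nrm_pd (s + 1 + i) a f
  rw [show s + 1 + i + 1 = s + 1 + (i + 1) by omega] at h
  simpa using h

theorem tame_weaken (i : ℕ) : Tame 1 i (i + 1) (LinearMap.id : S →ₗ[ℝ] S) := by
  refine ⟨fun f => ?_, fun s => ⟨0, le_rfl, fun f => ?_⟩⟩ <;>
    simpa using nrm_mono (by omega) f

theorem tame_mult (i j : ℕ) (c : ℝ) (m : Freq → ℝ) (L : S →ₗ[ℝ] S)
    (hL : ∀ f k, fc (L f) k = m k • fc f k) (h : ∀ k, |m k| * wt k ^ i ≤ c * wt k ^ j) :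
    Tame c i j L := by
  have key : ∀ t f, nrm (t + i) (L f) ≤ c * nrm (t + j) f := by
    intro t f
    unfold nrm
    rw [← tsum_mul_left]
    refine Summable.tsum_le_tsum (fun k => ?_) (summable_nrm _ _) ((summable_nrm _ f).mul_left c)
    have hw : 0 ≤ wt k := by unfold wt; positivity
    rw [hL, norm_smul, Real.norm_eq_abs, pow_add, pow_add]
    calc wt k ^ t * wt k ^ i * (|m k| * ‖fc f k‖)
        = (|m k| * wt k ^ i) * (wt k ^ t * ‖fc f k‖) := by ring
      _ ≤ (c * wt k ^ j) * (wt k ^ t * ‖fc f k‖) :=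
          mul_le_mul_of_nonneg_right (h k) (by positivity)
      _ = _ := by ring
  refine ⟨fun f => ?_, fun s => ⟨0, le_rfl, fun f => ?_⟩⟩
  · simpa using key 0 f
  · simpa using key (s + 1) f

end

end Vale.Agent.P205
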