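import Vale.Agent.P205.NormsBasic
import Vale.Agent.P205.NormsTame
import Vale.Agent.P205.NormsLimit

/-!
The Wiener norms and tame operators.
-/
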