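import Vale.Agent.P205.Fourier

/-!
Basic properties of the weighted Wiener norms.
-/

namespace Vale.Agent.P205

noncomputable section

theorem nrm_nonneg (s : ℕ) (f : S) : 0 ≤ nrm s f :=
  tsum_nonneg fun k => mul_nonneg (pow_nonneg (wt_pos k).le _) (norm_nonneg _)

theorem nrm_add (s : ℕ) (f g : S) : nrm s (f + g) ≤ nrm s f + nrm s g := by
  rw [nrm, nrm, nrm, ← (summable_nrm s f).tsum_add (summable_nrm s g)]
  refine (summable_nrm s _).tsum_le_tsum (fun k => ?_) ((summable_nrm s f).add (summable_nrm s g))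
  rw [fc_add, ← mul_add]
  exact mul_le_mul_of_nonneg_left (norm_add_le _ _) (pow_nonneg (wt_pos k).le _)

theorem nrm_smul (s : ℕ) (c : ℝ) (f : S) : nrm s (c • f) = |c| * nrm s f := by
  rw [nrm, nrm, ← tsum_mul_left]
  refine tsum_congr fun k => ?_
  rw [fc_smul, norm_smul, Real.norm_eq_abs]
  ring

theorem nrm_cst (s : ℕ) (c : ℝ) : nrm s (cst c) = |c| := by
  rw [nrm, tsum_eq_single (0 : Freq) fun k hk => by rw [fc_cst, if_neg hk, norm_zero, mul_zero]]
  simp [fc_cst, wt]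

theorem nrm_mono {r s : ℕ} (h : r ≤ s) (f : S) : nrm r f ≤ nrm s f :=
  (summable_nrm r f).tsum_le_tsum
    (fun k => mul_le_mul_of_nonneg_right (pow_le_pow_right₀ (one_le_wt k) h) (norm_nonneg _))
    (summable_nrm s f)

theorem abs_apply_le (f : S) (X : ℝ × ℝ) : |f.1 X| ≤ nrm 0 f := by
  have h := (hasSum_fc f X).norm_le_of_bounded (summable_nrm 0 f).hasSum fun k => by
    rw [norm_mul, Complex.norm_exp_ofReal_mul_I, mul_one, pow_zero, one_mul]
  rwa [Complex.norm_real, Real.norm_eq_abs] at h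

theorem nrm_pd (s : ℕ) (i : Fin 2) (f : S) : nrm s (pd i f) ≤ 7 * nrm (s + 1) f := by
  rw [nrm, nrm, ← tsum_mul_left]
  refine (summable_nrm s _).tsum_le_tsum (fun k => ?_) ((summable_nrm (s + 1) f).mul_left 7)
  have hq : |(fq k i : ℝ)| ≤ wt k := by
    unfold fq wt
    split <;> linarith [abs_nonneg (k.1 : ℝ), abs_nonneg (k.2 : ℝ)]
  rw [fc_pd, norm_mul, norm_mul, Complex.norm_I, mul_one, Complex.norm_real, Real.norm_eq_abs,
    abs_mul, abs_of_pos Real.two_pi_pos]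
  have h7 : 2 * Real.pi * |(fq k i : ℝ)| ≤ 7 * wt k :=
    mul_le_mul (by linarith [Real.pi_lt_d2]) hq (abs_nonneg _) (by norm_num)
  have := wt_pos k
  calc wt k ^ s * (2 * Real.pi * |(fq k i : ℝ)| * ‖fc f k‖)
      ≤ wt k ^ s * (7 * wt k * ‖fc f k‖) := by gcongr
    _ = 7 * (wt k ^ (s + 1) * ‖fc f k‖) := by ring

/-- Splitting a frequency into two summands. -/
def splitFreq : Freq × Freq ≃ Freq × Freq where
  toFun p := (p.2, p.1 - p.2)
  invFun p := (p.1 + p.2, p.1)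
  left_inv p := by simp
  right_inv p := by simp

/-- A bound for the weighted sum of the coefficients of a product. -/
theorem tsum_fc_mul_le (f g : S) (w : Freq → ℝ) (hw : ∀ k, 0 ≤ w k) (F : Freq × Freq → ℝ)
    (hF : Summable F) (h : ∀ l m, w (l + m) * (‖fc f l‖ * ‖fc g m‖) ≤ F (l, m)) :
    ∑' k, w k * ‖fc (f * g) k‖ ≤ ∑' p, F p := by
  have hG : Summable (F ∘ splitFreq) := splitFreq.summable_iff.2 hF
  have hk : ∀ k, w k * ‖fc (f * g) k‖ ≤ ∑' l, (F ∘ splitFreq) (k, l) := fun k => by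
    have h1 := ((hasSum_fc_mul f g k).mul_left (w k : ℂ)).norm_le_of_bounded
      (hG.prod_factor k).hasSum fun l => by
        rw [norm_mul, norm_mul, Complex.norm_real, Real.norm_eq_abs, abs_of_nonneg (hw k)]
        have h2 := h l (k - l)
        rwa [add_sub_cancel] at h2
    rwa [norm_mul, Complex.norm_real, Real.norm_eq_abs, abs_of_nonneg (hw k)] at h1
  rw [← splitFreq.tsum_eq F]
  show _ ≤ ∑' p, (F ∘ splitFreq) p
  rw [hG.tsum_prod]
  exact (Summable.of_nonneg_of_le (fun k => mul_nonneg (hw k) (norm_nonneg _)) hk hG.prod).tsum_le_tsum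
    hk hG.prod

theorem wt_add_le_mul (l m : Freq) : wt (l + m) ≤ wt l * wt m := by
  have a := abs_nonneg (l.1 : ℝ)
  have b := abs_nonneg (l.2 : ℝ)
  have c := abs_nonneg (m.1 : ℝ)
  have d := abs_nonneg (m.2 : ℝ)
  have e1 := abs_add_le (l.1 : ℝ) (m.1 : ℝ)
  have e2 := abs_add_le (l.2 : ℝ) (m.2 : ℝ)
  unfold wt
  simp only [Prod.fst_add, Prod.snd_add, Int.cast_add]
  nlinarith [mul_nonneg a c, mul_nonneg a d, mul_nonneg b c, mul_nonneg b d]

theorem wt_add_le_add (l m : Freq) : wt (l + m) ≤ wt l + wt m := by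
  have e1 := abs_add_le (l.1 : ℝ) (m.1 : ℝ)
  have e2 := abs_add_le (l.2 : ℝ) (m.2 : ℝ)
  unfold wt
  simp only [Prod.fst_add, Prod.snd_add, Int.cast_add]
  linarith

theorem summable_pair (r s : ℕ) (f g : S) : Summable fun p : Freq × Freq =>
    wt p.1 ^ r * ‖fc f p.1‖ * (wt p.2 ^ s * ‖fc g p.2‖) :=
  (summable_nrm r f).mul_of_nonneg (summable_nrm s g)
    (fun k => mul_nonneg (pow_nonneg (wt_pos k).le _) (norm_nonneg _))
    (fun k => mul_nonneg (pow_nonneg (wt_pos k).le _) (norm_nonneg _))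

theorem tsum_pair (r s : ℕ) (f g : S) : ∑' p : Freq × Freq,
    wt p.1 ^ r * ‖fc f p.1‖ * (wt p.2 ^ s * ‖fc g p.2‖) = nrm r f * nrm s g :=
  ((summable_nrm r f).tsum_mul_tsum (summable_nrm s g) (summable_pair r s f g)).symm

theorem nrm_mul (s : ℕ) (f g : S) : nrm s (f * g) ≤ nrm s f * nrm s g := by
  rw [← tsum_pair]
  refine tsum_fc_mul_le f g _ (fun k => pow_nonneg (wt_pos k).le _) _ (summable_pair s s f g)
    fun l m => ?_
  calc wt (l + m) ^ s * (‖fc f l‖ * ‖fc g m‖)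
      ≤ (wt l * wt m) ^ s * (‖fc f l‖ * ‖fc g m‖) :=
        mul_le_mul_of_nonneg_right (pow_le_pow_left₀ (wt_pos _).le (wt_add_le_mul l m) s)
          (by positivity)
    _ = _ := by rw [mul_pow]; ring

theorem add_pow_succ_le (s : ℕ) : ∃ C : ℝ, 0 ≤ C ∧ ∀ a b : ℝ, 1 ≤ a → 1 ≤ b →
    (a + b) ^ (s + 1) ≤ a ^ (s + 1) + b ^ (s + 1) + C * (a ^ s * b ^ s) := by
  induction s with
  | zero => exact ⟨0, le_rfl, fun a b _ _ => by simp⟩
  | succ s ih =>
    obtain ⟨C, hC, h⟩ := ih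
    refine ⟨2 + 2 * C, by linarith, fun a b ha hb => ?_⟩
    have a0 : 0 ≤ a := by linarith
    have b0 : 0 ≤ b := by linarith
    have e1 : a ^ (s + 1) * b ≤ a ^ (s + 1) * b ^ (s + 1) :=
      mul_le_mul_of_nonneg_left (le_self_pow₀ hb (by omega)) (by positivity)
    have e2 : a * b ^ (s + 1) ≤ a ^ (s + 1) * b ^ (s + 1) :=
      mul_le_mul_of_nonneg_right (le_self_pow₀ ha (by omega)) (by positivity)
    have e3 : C * (a ^ (s + 1) * b ^ s) ≤ C * (a ^ (s + 1) * b ^ (s + 1)) :=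
      mul_le_mul_of_nonneg_left
        (mul_le_mul_of_nonneg_left (pow_le_pow_right₀ hb (by omega)) (by positivity)) hC
    have e4 : C * (a ^ s * b ^ (s + 1)) ≤ C * (a ^ (s + 1) * b ^ (s + 1)) :=
      mul_le_mul_of_nonneg_left
        (mul_le_mul_of_nonneg_right (pow_le_pow_right₀ ha (by omega)) (by positivity)) hC
    calc (a + b) ^ (s + 1 + 1) = (a + b) ^ (s + 1) * (a + b) := pow_succ _ _
      _ ≤ (a ^ (s + 1) + b ^ (s + 1) + C * (a ^ s * b ^ s)) * (a + b) :=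
          mul_le_mul_of_nonneg_right (h a b ha hb) (by linarith)
      _ = a ^ (s + 1 + 1) + b ^ (s + 1 + 1) + (a ^ (s + 1) * b + a * b ^ (s + 1)
            + C * (a ^ (s + 1) * b ^ s) + C * (a ^ s * b ^ (s + 1))) := by ring
      _ ≤ _ := by linarith

theorem nrm_mul_tame (s : ℕ) : ∃ C, 0 ≤ C ∧ ∀ f g : S,
    nrm (s + 1) (f * g) ≤ nrm (s + 1) f * nrm 0 g + nrm 0 f * nrm (s + 1) g
      + C * (nrm s f * nrm s g) := by
  obtain ⟨C, hC, h⟩ := add_pow_succ_le s
  refine ⟨C, hC, fun f g => ?_⟩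
  rw [← tsum_pair, ← tsum_pair, ← tsum_pair, ← tsum_mul_left,
    ← (summable_pair (s + 1) 0 f g).tsum_add (summable_pair 0 (s + 1) f g),
    ← ((summable_pair (s + 1) 0 f g).add (summable_pair 0 (s + 1) f g)).tsum_add
      ((summable_pair s s f g).mul_left C)]
  refine tsum_fc_mul_le f g _ (fun k => pow_nonneg (wt_pos k).le _) _
    (((summable_pair (s + 1) 0 f g).add (summable_pair 0 (s + 1) f g)).add
      ((summable_pair s s f g).mul_left C)) fun l m => ?_
  calc wt (l + m) ^ (s + 1) * (‖fc f l‖ * ‖fc g m‖)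
      ≤ (wt l ^ (s + 1) + wt m ^ (s + 1) + C * (wt l ^ s * wt m ^ s))
          * (‖fc f l‖ * ‖fc g m‖) :=
        mul_le_mul_of_nonneg_right ((pow_le_pow_left₀ (wt_pos _).le (wt_add_le_add l m) _).trans
          (h _ _ (one_le_wt l) (one_le_wt m))) (by positivity)
    _ = _ := by simp only [pow_zero]; ring

theorem nrm_zero_S (s : ℕ) : nrm s (0 : S) = 0 := by
  simpa using nrm_smul s 0 (0 : S)

theorem exists_eval_bound_aux (s : ℕ) (P : Polynomial S) : ∃ B, ∀ t : ℝ, |t| ≤ 1 →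
    nrm s (P.eval (cst t)) ≤ B := by
  induction P using Polynomial.induction_on' with
  | add P Q hP hQ =>
    obtain ⟨B, hB⟩ := hP
    obtain ⟨B', hB'⟩ := hQ
    refine ⟨B + B', fun t ht => ?_⟩
    rw [Polynomial.eval_add]
    exact (nrm_add _ _ _).trans (add_le_add (hB t ht) (hB' t ht))
  | monomial n a =>
    refine ⟨nrm s a, fun t ht => ?_⟩
    rw [Polynomial.eval_monomial,
      show cst t ^ n = cst (t ^ n) from (map_pow (algebraMap ℝ S) t n).symm, mul_comm, cst_mul,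
      nrm_smul]
    exact mul_le_of_le_one_left (nrm_nonneg _ _) (by rw [abs_pow]; exact pow_le_one₀ (abs_nonneg t) ht)

/-- Bounds on polynomial families. -/
theorem exists_eval_bound (s : ℕ) (P : Polynomial S) : ∃ B, ∀ t : ℝ, |t| ≤ 1 →
    nrm s (P.eval (cst t)) ≤ B ∧ nrm s (P.eval (cst t) - P.coeff 0) ≤ B * |t| := by
  obtain ⟨B, hB⟩ := exists_eval_bound_aux s P
  obtain ⟨B', hB'⟩ := exists_eval_bound_aux s P.divX
  refine ⟨max B B', fun t ht => ⟨(hB t ht).trans (le_max_left _ _), ?_⟩⟩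
  have e : P.eval (cst t) - P.coeff 0 = t • P.divX.eval (cst t) := by
    conv_lhs => arg 1; rw [← Polynomial.X_mul_divX_add P]
    rw [Polynomial.eval_add, Polynomial.eval_mul, Polynomial.eval_X, Polynomial.eval_C,
      add_sub_cancel_right, cst_mul]
  rw [e, nrm_smul, mul_comm]
  exact mul_le_mul_of_nonneg_right ((hB' t ht).trans (le_max_right _ _)) (abs_nonneg t)

end

end Vale.Agent.P205
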