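import Vale.Agent.P205.Norms

/-!
Families of coefficients and operators bounded uniformly in the large parameter `n`.
-/

namespace Vale.Agent.P205.Solve

noncomputable section

open Filter

/-- Bounded in the norm of level `2`. -/
def Bdd (u : ℕ → S) : Prop := ∃ B : ℝ, 0 ≤ B ∧ ∀ᶠ n in atTop, nrm 2 (u n) ≤ B

/-- Of size `O(1 / n)` in the norm of level `2`. -/
def Small (u : ℕ → S) : Prop := ∃ B : ℝ, 0 ≤ B ∧ ∀ᶠ n : ℕ in atTop, nrm 2 (u n) ≤ B / n

theorem nrm_one (s : ℕ) : nrm s (1 : S) = 1 := by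
  have h : (1 : S) = cst 1 := (map_one (algebraMap ℝ S)).symm
  rw [h, nrm_cst, abs_one]

theorem nrm_cst_mul (s : ℕ) (c : ℝ) (f : S) : nrm s (cst c * f) = |c| * nrm s f := by
  rw [cst_mul, nrm_smul]

theorem nrm_neg (s : ℕ) (f : S) : nrm s (-f) = nrm s f := by
  rw [← neg_one_smul ℝ f, nrm_smul, abs_neg, abs_one, one_mul]

theorem Bdd.const (f : S) : Bdd fun _ => f :=
  ⟨nrm 2 f, nrm_nonneg _ _, Eventually.of_forall fun _ => le_rfl⟩

theorem Bdd.add {u v : ℕ → S} (hu : Bdd u) (hv : Bdd v) : Bdd fun n => u n + v n := by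
  obtain ⟨B, hB, hu⟩ := hu
  obtain ⟨B', hB', hv⟩ := hv
  exact ⟨B + B', add_nonneg hB hB',
    (hu.and hv).mono fun n h => (nrm_add _ _ _).trans (add_le_add h.1 h.2)⟩

theorem Bdd.mul {u v : ℕ → S} (hu : Bdd u) (hv : Bdd v) : Bdd fun n => u n * v n := by
  obtain ⟨B, hB, hu⟩ := hu
  obtain ⟨B', hB', hv⟩ := hv
  exact ⟨B * B', mul_nonneg hB hB', (hu.and hv).mono fun n h =>
    (nrm_mul _ _ _).trans (mul_le_mul h.1 h.2 (nrm_nonneg _ _) hB)⟩

theorem Bdd.neg {u : ℕ → S} (hu : Bdd u) : Bdd fun n => -u n := by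
  obtain ⟨B, hB, hu⟩ := hu
  exact ⟨B, hB, hu.mono fun n h => by rw [nrm_neg]; exact h⟩

theorem Bdd.sub {u v : ℕ → S} (hu : Bdd u) (hv : Bdd v) : Bdd fun n => u n - v n := by
  simpa only [sub_eq_add_neg] using hu.add hv.neg

theorem Bdd.eps : Bdd fun n : ℕ => cst (1 / (n : ℝ)) := by
  refine ⟨1, zero_le_one, (eventually_ge_atTop 1).mono fun n hn => ?_⟩
  have h : (1 : ℝ) ≤ n := by exact_mod_cast hn
  rw [nrm_cst, abs_of_nonneg (by positivity), div_le_one (by linarith)]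
  exact h

theorem Small.bdd {u : ℕ → S} (hu : Small u) : Bdd u := by
  obtain ⟨B, hB, hu⟩ := hu
  refine ⟨B, hB, (hu.and (eventually_ge_atTop 1)).mono fun n h => h.1.trans ?_⟩
  exact div_le_self hB (by exact_mod_cast h.2)

theorem Small.eps : Small fun n : ℕ => cst (1 / (n : ℝ)) :=
  ⟨1, zero_le_one, Eventually.of_forall fun n => by
    rw [nrm_cst, abs_of_nonneg (by positivity)]⟩

theorem Small.add {u v : ℕ → S} (hu : Small u) (hv : Small v) : Small fun n => u n + v n := by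
  obtain ⟨B, hB, hu⟩ := hu
  obtain ⟨B', hB', hv⟩ := hv
  refine ⟨B + B', add_nonneg hB hB', (hu.and hv).mono fun n h => ?_⟩
  rw [add_div]
  exact (nrm_add _ _ _).trans (add_le_add h.1 h.2)

theorem Small.mul {u v : ℕ → S} (hu : Small u) (hv : Bdd v) : Small fun n => u n * v n := by
  obtain ⟨B, hB, hu⟩ := hu
  obtain ⟨B', hB', hv⟩ := hv
  refine ⟨B * B', mul_nonneg hB hB', (hu.and hv).mono fun n h => ?_⟩
  rw [← div_mul_eq_mul_div]
  exact (nrm_mul _ _ _).trans (mul_le_mul h.1 h.2 (nrm_nonneg _ _) (by positivity))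

theorem Small.mul_left {u v : ℕ → S} (hu : Bdd u) (hv : Small v) : Small fun n => u n * v n := by
  simpa only [mul_comm] using hv.mul hu

theorem Small.neg {u : ℕ → S} (hu : Small u) : Small fun n => -u n := by
  obtain ⟨B, hB, hu⟩ := hu
  exact ⟨B, hB, hu.mono fun n h => by rw [nrm_neg]; exact h⟩

theorem Small.sub {u v : ℕ → S} (hu : Small u) (hv : Small v) : Small fun n => u n - v n := by
  simpa only [sub_eq_add_neg] using hu.add hv.neg

theorem Small.congr {u v : ℕ → S} (hu : Small u) (h : ∀ᶠ n in atTop, u n = v n) : Small v := by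
  obtain ⟨B, hB, hu⟩ := hu
  exact ⟨B, hB, (hu.and h).mono fun n hn => hn.2 ▸ hn.1⟩

theorem Small.eventually_le {u : ℕ → S} (hu : Small u) {δ : ℝ} (hδ : 0 < δ) :
    ∀ᶠ n in atTop, nrm 2 (u n) ≤ δ := by
  obtain ⟨B, hB, hu⟩ := hu
  exact hu.mp (((tendsto_const_div_atTop_nhds_zero_nat B).eventually
    (eventually_le_nhds hδ)).mono fun n h1 h2 => h2.trans h1)

open Classical in
/-- The inverse, if there is one. -/
def inv' (d : S) : S := if h : ∃ e : S, d * e = 1 then h.choose else 0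

theorem inv'_eq {d e : S} (h : d * e = 1) : inv' d = e := by
  have hex : ∃ e : S, d * e = 1 := ⟨e, h⟩
  rw [inv', dif_pos hex]
  calc hex.choose = hex.choose * (d * e) := by rw [h, mul_one]
    _ = (d * hex.choose) * e := by ring
    _ = e := by rw [hex.choose_spec, one_mul]

theorem inv_family {d : ℕ → S} {d₀ e₀ : S} (h₀ : d₀ * e₀ = 1) (h : Small fun n => d n - d₀) :
    (∀ᶠ n in atTop, d n * inv' (d n) = 1) ∧ Bdd (fun n => inv' (d n)) ∧
      Small fun n => inv' (d n) - e₀ := by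
  have key : ∀ᶠ n in atTop, d n * inv' (d n) = 1 ∧ nrm 2 (inv' (d n)) ≤ 2 * nrm 2 e₀ := by
    have hpos : 0 < 1 / (2 * (nrm 2 e₀ + 1)) := by
      have := nrm_nonneg 2 e₀
      positivity
    filter_upwards [h.eventually_le hpos] with n hn
    obtain ⟨e, he, hb⟩ := exists_inv_near 2 (d n) d₀ e₀ h₀ (by
      refine (mul_le_mul_of_nonneg_right hn (nrm_nonneg _ _)).trans ?_
      have := nrm_nonneg 2 e₀
      rw [div_mul_eq_mul_div, one_mul, div_le_div_iff₀ (by positivity) two_pos]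
      linarith)
    rw [inv'_eq he]
    exact ⟨he, hb⟩
  have hb : Bdd fun n => inv' (d n) :=
    ⟨2 * nrm 2 e₀, mul_nonneg zero_le_two (nrm_nonneg _ _), key.mono fun n h => h.2⟩
  refine ⟨key.mono fun n h => h.1, hb, ((h.mul (hb.mul (Bdd.const e₀))).neg).congr ?_⟩
  filter_upwards [key] with n hn
  linear_combination -e₀ * hn.1 + inv' (d n) * h₀

/-- The data of the linearised equation. -/
abbrev Data : Type := (Fin 3 → S) × (Fin 2 → S)

/-- Insertion of the metric component `q`. -/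
def inH (q : Fin 3) : S →ₗ[ℝ] Data :=
  LinearMap.inl ℝ _ _ ∘ₗ LinearMap.single ℝ (fun _ => S) q

/-- Insertion of the gradient component `l`. -/
def inN (l : Fin 2) : S →ₗ[ℝ] Data :=
  LinearMap.inr ℝ _ _ ∘ₗ LinearMap.single ℝ (fun _ => S) l

/-- All components are tame with constant `C`. -/
def Good (C : ℝ) (P : Data →ₗ[ℝ] S) : Prop :=
  (∀ q, Tame C 2 2 (P ∘ₗ inH q)) ∧ ∀ l, Tame C 2 2 (P ∘ₗ inN l)

/-- A family of maps on the data, tame uniformly. -/
def GoodFam (P : ℕ → Data →ₗ[ℝ] S) : Prop := ∃ C : ℝ, 0 ≤ C ∧ ∀ᶠ n in atTop, Good C (P n)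

/-- A family of operators, tame uniformly. -/
def TameFam (L : ℕ → S →ₗ[ℝ] S) : Prop := ∃ C : ℝ, 0 ≤ C ∧ ∀ᶠ n in atTop, Tame C 2 2 (L n)

theorem tame_id : Tame 1 2 2 (LinearMap.id : S →ₗ[ℝ] S) := by
  have h : LinearMap.mulLeft ℝ (1 : S) = LinearMap.id := LinearMap.ext fun f => one_mul f
  rw [← h, ← nrm_one 2]
  exact tame_mul 2 1

theorem tame_zero : Tame 1 2 2 (0 : S →ₗ[ℝ] S) := by
  have h := tame_id.smul 0
  rw [zero_smul, abs_zero, zero_mul] at h
  exact h.mono zero_le_one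

/-- The component `q` of the metric variation. -/
def prH (q : Fin 3) : Data →ₗ[ℝ] S :=
  (LinearMap.proj q : (Fin 3 → S) →ₗ[ℝ] S) ∘ₗ LinearMap.fst ℝ _ _

/-- The component `l` of the gradient. -/
def prN (l : Fin 2) : Data →ₗ[ℝ] S :=
  (LinearMap.proj l : (Fin 2 → S) →ₗ[ℝ] S) ∘ₗ LinearMap.snd ℝ _ _

theorem goodFam_prH (q : Fin 3) : GoodFam fun _ => prH q := by
  refine ⟨1, zero_le_one, Eventually.of_forall fun _ => ⟨fun q' => ?_, fun l => ?_⟩⟩
  · by_cases h : q = q'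
    · subst h
      convert tame_id using 1
      ext f : 1
      simp [prH, inH]
    · convert tame_zero using 1
      ext f : 1
      simp [prH, inH, Pi.single_eq_of_ne h]
  · convert tame_zero using 1
    ext f : 1
    simp [prH, inN]

theorem goodFam_prN (l : Fin 2) : GoodFam fun _ => prN l := by
  refine ⟨1, zero_le_one, Eventually.of_forall fun _ => ⟨fun q => ?_, fun l' => ?_⟩⟩
  · convert tame_zero using 1
    ext f : 1
    simp [prN, inH]
  · by_cases h : l = l'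
    · subst h
      convert tame_id using 1
      ext f : 1
      simp [prN, inN]
    · convert tame_zero using 1
      ext f : 1
      simp [prN, inN, Pi.single_eq_of_ne h]

theorem GoodFam.add {P P' : ℕ → Data →ₗ[ℝ] S} (h : GoodFam P) (h' : GoodFam P') :
    GoodFam fun n => P n + P' n := by
  obtain ⟨C, hC, h⟩ := h
  obtain ⟨C', hC', h'⟩ := h'
  refine ⟨C + C', add_nonneg hC hC', (h.and h').mono fun n hn => ⟨fun q => ?_, fun l => ?_⟩⟩
  · rw [LinearMap.add_comp]; exact (hn.1.1 q).add (hn.2.1 q)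
  · rw [LinearMap.add_comp]; exact (hn.1.2 l).add (hn.2.2 l)

theorem GoodFam.comp {L : ℕ → S →ₗ[ℝ] S} {P : ℕ → Data →ₗ[ℝ] S} (hL : TameFam L)
    (h : GoodFam P) : GoodFam fun n => L n ∘ₗ P n := by
  obtain ⟨C, hC, hL⟩ := hL
  obtain ⟨C', hC', h⟩ := h
  refine ⟨C * C', mul_nonneg hC hC', (hL.and h).mono fun n hn => ⟨fun q => ?_, fun l => ?_⟩⟩
  · rw [LinearMap.comp_assoc]; exact hn.1.comp hC (hn.2.1 q)
  · rw [LinearMap.comp_assoc]; exact hn.1.comp hC (hn.2.2 l)

/-- Multiplication by a function. -/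
abbrev mu (a : S) : S →ₗ[ℝ] S := LinearMap.mulLeft ℝ a

theorem TameFam.mu {u : ℕ → S} (hu : Bdd u) : TameFam fun n => Solve.mu (u n) := by
  obtain ⟨B, hB, hu⟩ := hu
  exact ⟨B, hB, hu.mono fun n hn => (tame_mul 2 (u n)).mono hn⟩

theorem GoodFam.mul {u : ℕ → S} {P : ℕ → Data →ₗ[ℝ] S} (hu : Bdd u) (h : GoodFam P) :
    GoodFam fun n => Solve.mu (u n) ∘ₗ P n :=
  GoodFam.comp (TameFam.mu hu) h

theorem GoodFam.sub {P P' : ℕ → Data →ₗ[ℝ] S} (h : GoodFam P) (h' : GoodFam P') :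
    GoodFam fun n => P n - P' n := by
  have h2 := h.add (GoodFam.mul (Bdd.const (-1 : S)) h')
  have e : (fun n => P n + Solve.mu (-1) ∘ₗ P' n) = fun n => P n - P' n := funext fun n =>
    LinearMap.ext fun d => by
      show P n d + (-1 : S) * P' n d = P n d - P' n d
      ring
  rwa [e] at h2

end

end Vale.Agent.P205.Solve
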