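import Vale.Agent.P205.SolverAux

/-!
The linearised equation in a frame: pointwise algebra, and the coefficients at `ε = 1 / n`.

With `v p 0 = ε ξ p` and `v p 1 = a p π p - ai p (f p · N + ε ^ 2 c p q ξ q)` the gradient part is
`w p j a p ^ 2 π p`; in the frame dual to `w` the diagonal equations give `ξ` and the remaining
equation is a first order equation for `π`.
-/

namespace Vale.Agent.P205.Solve

noncomputable section

/-- A symmetric tensor. -/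
def symq (G : Fin 3 → S) (i j : Fin 2) : S :=
  if i = 0 then (if j = 0 then G 0 else G 1) else (if j = 0 then G 1 else G 2)

/-- The component of a symmetric tensor in a frame. -/
def proj (f : Fin 2 → Fin 2 → S) (a b : Fin 2) (G : Fin 3 → S) : S :=
  ∑ i, ∑ j, f a i * f b j * symq G i j

/-- The coefficients at one value of `ε`: amplitudes, inverse amplitudes, phases, dual frame. -/
structure Cf where
  e : S
  nn : S
  a : Fin 2 → S
  ai : Fin 2 → S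
  w : Fin 2 → Fin 2 → S
  f : Fin 2 → Fin 2 → S

namespace Cf

variable (c : Cf)

/-- The mixed part of the second derivative of the ansatz. -/
def B (p i j : Fin 2) : S :=
  pd i (c.w p j) * c.a p + c.w p j * pd i (c.a p) + c.w p i * pd j (c.a p)

/-- The derivative of the amplitude `q` along the frame vector `p`. -/
def cf (p q : Fin 2) : S := ∑ j, c.f p j * pd j (c.a q)

/-- The perturbation in the metric equations. -/
def E (q : Fin 2) (k : Fin 3) : S :=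
  -pd (q1 k) (pd (q2 k) (c.a q)) + ∑ p, c.B p (q1 k) (q2 k) * c.ai p * c.cf p q

/-- The gradient data in the frame. -/
def fN (Nv : Fin 2 → S) (p : Fin 2) : S := ∑ j, c.f p j * Nv j

/-- The gradient data in the metric equations. -/
def BN (Nv : Fin 2 → S) (k : Fin 3) : S :=
  ∑ p, c.B p (q1 k) (q2 k) * c.ai p * c.fN Nv p

/-- The matrix of the diagonal equations. -/
def M (a q : Fin 2) : S :=
  (if a = q then c.a a else 0) + c.e ^ 2 * proj c.f a a (c.E q)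

/-- The determinant of the diagonal equations. -/
def detM : S := c.M 0 0 * c.M 1 1 - c.M 0 1 * c.M 1 0

/-- The inverse matrix of the diagonal equations. -/
def Mi (q a : Fin 2) : S :=
  inv' c.detM * (if q = 0 then (if a = 0 then c.M 1 1 else -c.M 0 1)
    else (if a = 0 then -c.M 1 0 else c.M 0 0))

/-- The weights of the diagonal equations in the remaining one. -/
def g (a : Fin 2) : S := ∑ q, proj c.f 0 1 (c.E q) * c.Mi q a

/-- The identities used by the algebra. -/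
structure Ok : Prop where
  en : c.nn * c.e = 1
  aai : ∀ p, c.a p * c.ai p = 1
  dual : ∀ p a, ∑ i, c.w p i * c.f a i = if p = a then 1 else 0
  comp : ∀ i j, ∑ p, c.w p i * c.f p j = if i = j then 1 else 0
  closed : ∀ p i j, pd i (c.w p j) = pd j (c.w p i)
  eps : ∀ i, pd i c.e = 0
  detM : c.detM * inv' c.detM = 1

/-- The angular speeds. -/
def kap : Fin 2 → Fin 2 → S := fun p i => c.nn * c.w p i

/-- The ansatz. -/
def amb : V := fun p r => if r = 0 then c.e * c.a p else 0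

/-- The vector field made from `π` and `ξ`. -/
def vec (π ξ : Fin 2 → S) (Nv : Fin 2 → S) : V := fun p r =>
  if r = 0 then c.e * ξ p
  else c.a p * π p - c.ai p * (c.fN Nv p + c.e ^ 2 * ∑ q, c.cf p q * ξ q)

/-- Half the defect of the equation. -/
def defect (π ξ : Fin 2 → S) (H : Fin 3 → S) (Nv : Fin 2 → S) (k : Fin 3) : S :=
  (∑ p, c.a p * c.a p * (c.w p (q2 k) * pd (q1 k) (π p) + c.w p (q1 k) * pd (q2 k) (π p)))
    + 2 * ((∑ p, c.w p (q1 k) * c.w p (q2 k) * (c.a p * ξ p))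
      + c.e ^ 2 * (∑ q, c.E q k * ξ q) + c.BN Nv k - H k)

theorem sigma_eq (h : c.Ok) (π ξ : Fin 2 → S) (Nv : Fin 2 → S) (j : Fin 2) :
    dot (Dt c.kap j c.amb) (c.vec π ξ Nv) + Nv j = ∑ p, c.w p j * (c.a p * c.a p) * π p := by
  simp only [dot, Dt, kap, amb, vec, cf, fN, Fin.sum_univ_two, if_true,
    show (1 : Fin 2) ≠ 0 by decide, if_false, mul_zero, sub_zero, map_zero, zero_add, pd_mul,
    h.eps, zero_mul, mul_zero]
  have e1 := h.comp j 0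
  have e2 := h.comp j 1
  simp only [Fin.sum_univ_two] at e1 e2
  have a0 := h.aai 0
  have a1 := h.aai 1
  have hen := h.en
  fin_cases j <;> simp only [Fin.zero_eta, Fin.mk_one, Fin.isValue, if_true,
      show (1 : Fin 2) ≠ 0 by decide, show (0 : Fin 2) ≠ 1 by decide, if_false] at e1 e2 ⊢
  · linear_combination
      (c.a 0 * c.w 0 0 * (c.a 0 * π 0 - c.ai 0 * (c.f 0 0 * Nv 0 + c.f 0 1 * Nv 1
        + c.e ^ 2 * ((c.f 0 0 * pd 0 (c.a 0) + c.f 0 1 * pd 1 (c.a 0)) * ξ 0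
          + (c.f 0 0 * pd 0 (c.a 1) + c.f 0 1 * pd 1 (c.a 1)) * ξ 1)))
      + c.a 1 * c.w 1 0 * (c.a 1 * π 1 - c.ai 1 * (c.f 1 0 * Nv 0 + c.f 1 1 * Nv 1
        + c.e ^ 2 * ((c.f 1 0 * pd 0 (c.a 0) + c.f 1 1 * pd 1 (c.a 0)) * ξ 0
          + (c.f 1 0 * pd 0 (c.a 1) + c.f 1 1 * pd 1 (c.a 1)) * ξ 1)))) * hen
      - c.w 0 0 * (c.f 0 0 * Nv 0 + c.f 0 1 * Nv 1
        + c.e ^ 2 * ((c.f 0 0 * pd 0 (c.a 0) + c.f 0 1 * pd 1 (c.a 0)) * ξ 0
          + (c.f 0 0 * pd 0 (c.a 1) + c.f 0 1 * pd 1 (c.a 1)) * ξ 1)) * a0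
      - c.w 1 0 * (c.f 1 0 * Nv 0 + c.f 1 1 * Nv 1
        + c.e ^ 2 * ((c.f 1 0 * pd 0 (c.a 0) + c.f 1 1 * pd 1 (c.a 0)) * ξ 0
          + (c.f 1 0 * pd 0 (c.a 1) + c.f 1 1 * pd 1 (c.a 1)) * ξ 1)) * a1
      - (Nv 0 + c.e ^ 2 * (pd 0 (c.a 0) * ξ 0 + pd 0 (c.a 1) * ξ 1)) * e1
      - (Nv 1 + c.e ^ 2 * (pd 1 (c.a 0) * ξ 0 + pd 1 (c.a 1) * ξ 1)) * e2
  · linear_combination
      (c.a 0 * c.w 0 1 * (c.a 0 * π 0 - c.ai 0 * (c.f 0 0 * Nv 0 + c.f 0 1 * Nv 1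
        + c.e ^ 2 * ((c.f 0 0 * pd 0 (c.a 0) + c.f 0 1 * pd 1 (c.a 0)) * ξ 0
          + (c.f 0 0 * pd 0 (c.a 1) + c.f 0 1 * pd 1 (c.a 1)) * ξ 1)))
      + c.a 1 * c.w 1 1 * (c.a 1 * π 1 - c.ai 1 * (c.f 1 0 * Nv 0 + c.f 1 1 * Nv 1
        + c.e ^ 2 * ((c.f 1 0 * pd 0 (c.a 0) + c.f 1 1 * pd 1 (c.a 0)) * ξ 0
          + (c.f 1 0 * pd 0 (c.a 1) + c.f 1 1 * pd 1 (c.a 1)) * ξ 1)))) * hen
      - c.w 0 1 * (c.f 0 0 * Nv 0 + c.f 0 1 * Nv 1
        + c.e ^ 2 * ((c.f 0 0 * pd 0 (c.a 0) + c.f 0 1 * pd 1 (c.a 0)) * ξ 0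
          + (c.f 0 0 * pd 0 (c.a 1) + c.f 0 1 * pd 1 (c.a 1)) * ξ 1)) * a0
      - c.w 1 1 * (c.f 1 0 * Nv 0 + c.f 1 1 * Nv 1
        + c.e ^ 2 * ((c.f 1 0 * pd 0 (c.a 0) + c.f 1 1 * pd 1 (c.a 0)) * ξ 0
          + (c.f 1 0 * pd 0 (c.a 1) + c.f 1 1 * pd 1 (c.a 1)) * ξ 1)) * a1
      - (Nv 0 + c.e ^ 2 * (pd 0 (c.a 0) * ξ 0 + pd 0 (c.a 1) * ξ 1)) * e1
      - (Nv 1 + c.e ^ 2 * (pd 1 (c.a 0) * ξ 0 + pd 1 (c.a 1) * ξ 1)) * e2

theorem second_eq (h : c.Ok) (π ξ : Fin 2 → S) (Nv : Fin 2 → S) (k : Fin 3) :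
    dot (Dt c.kap (q1 k) (Dt c.kap (q2 k) c.amb)) (c.vec π ξ Nv) =
      (∑ p, c.B p (q1 k) (q2 k) * (c.a p * π p)) - (∑ p, c.w p (q1 k) * c.w p (q2 k) *
        (c.a p * ξ p)) - c.e ^ 2 * (∑ q, c.E q k * ξ q) - c.BN Nv k := by
  have hen := h.en
  have hp : ∀ p i, pd i (c.nn * c.w p (q2 k) * (c.e * c.a p)) =
      pd i (c.w p (q2 k)) * c.a p + c.w p (q2 k) * pd i (c.a p) := fun p i => by
    rw [show c.nn * c.w p (q2 k) * (c.e * c.a p) = (c.nn * c.e) * (c.w p (q2 k) * c.a p) by ring,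
      hen, one_mul, pd_mul]
  simp only [dot, Dt, kap, amb, vec, E, BN, B, Fin.sum_univ_two, if_true,
    show (1 : Fin 2) ≠ 0 by decide, if_false, mul_zero, sub_zero, map_zero, zero_add, hp, map_sub,
    pd_mul, h.eps, zero_mul]
  linear_combination
    ((c.w 0 (q1 k) * pd (q2 k) (c.a 0)) * (c.a 0 * π 0 - c.ai 0 * (c.fN Nv 0 + c.e ^ 2 *
      (c.cf 0 0 * ξ 0 + c.cf 0 1 * ξ 1)))
    + (c.w 1 (q1 k) * pd (q2 k) (c.a 1)) * (c.a 1 * π 1 - c.ai 1 * (c.fN Nv 1 + c.e ^ 2 *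
      (c.cf 1 0 * ξ 0 + c.cf 1 1 * ξ 1)))
    - c.w 0 (q1 k) * c.w 0 (q2 k) * c.a 0 * ξ 0 * (c.nn * c.e + 1)
    - c.w 1 (q1 k) * c.w 1 (q2 k) * c.a 1 * ξ 1 * (c.nn * c.e + 1)) * hen

theorem eq_defect (h : c.Ok) (π ξ : Fin 2 → S) (H : Fin 3 → S) (Nv : Fin 2 → S) (k : Fin 3) :
    pd (q1 k) (dot (Dt c.kap (q2 k) c.amb) (c.vec π ξ Nv) + Nv (q2 k))
      + pd (q2 k) (dot (Dt c.kap (q1 k) c.amb) (c.vec π ξ Nv) + Nv (q1 k))
      - (2 : ℝ) • dot (Dt c.kap (q1 k) (Dt c.kap (q2 k) c.amb)) (c.vec π ξ Nv) - (2 : ℝ) • H k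
      = c.defect π ξ H Nv k := by
  rw [c.sigma_eq h, c.sigma_eq h, c.second_eq h, two_smul, two_smul]
  simp only [defect, B, Fin.sum_univ_two, map_add, pd_mul, h.closed _ (q2 k) (q1 k)]
  ring

theorem zero_of_proj (h : c.Ok) {G : Fin 3 → S} (h0 : proj c.f 0 0 G = 0)
    (h1 : proj c.f 0 1 G = 0) (h2 : proj c.f 1 1 G = 0) (k : Fin 3) : G k = 0 := by
  simp only [proj, symq, Fin.sum_univ_two, if_true, show (1 : Fin 2) ≠ 0 by decide, if_false]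
    at h0 h1 h2
  have e00 := h.comp 0 0
  have e01 := h.comp 0 1
  have e10 := h.comp 1 0
  have e11 := h.comp 1 1
  simp only [Fin.sum_univ_two, if_true, show (1 : Fin 2) ≠ 0 by decide,
    show (0 : Fin 2) ≠ 1 by decide, if_false] at e00 e01 e10 e11
  set A := c.w 0 0 * c.f 0 0 + c.w 1 0 * c.f 1 0
  set A' := c.w 0 0 * c.f 0 1 + c.w 1 0 * c.f 1 1
  set D := c.w 0 1 * c.f 0 0 + c.w 1 1 * c.f 1 0
  set D' := c.w 0 1 * c.f 0 1 + c.w 1 1 * c.f 1 1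
  fin_cases k <;> simp only [Fin.zero_eta, Fin.mk_one, Fin.reduceFinMk, Fin.isValue]
  · linear_combination (c.w 0 0 * c.w 0 0) * h0 + (2 * (c.w 0 0 * c.w 1 0)) * h1
      + (c.w 1 0 * c.w 1 0) * h2 - (A + 1) * G 0 * e00 - 2 * A' * G 1 * e00 - 2 * G 1 * e01
      - A' * G 2 * e01
  · linear_combination (c.w 0 0 * c.w 0 1) * h0 + (c.w 0 0 * c.w 1 1 + c.w 1 0 * c.w 0 1) * h1
      + (c.w 1 0 * c.w 1 1) * h2 - D * G 0 * e00 - G 0 * e10 - D' * G 1 * e00 - G 1 * e11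
      - D * G 1 * e01 - D' * G 2 * e01
  · linear_combination (c.w 0 1 * c.w 0 1) * h0 + (2 * (c.w 0 1 * c.w 1 1)) * h1
      + (c.w 1 1 * c.w 1 1) * h2 - D * G 0 * e10 - 2 * D' * G 1 * e10
      - (D' + 1) * G 2 * e11

/-- The derivative of `π p` along the frame vector `a`. -/
def dp (π : Fin 2 → S) (a p : Fin 2) : S := ∑ i, c.f a i * pd i (π p)

theorem proj_defect (h : c.Ok) (π ξ : Fin 2 → S) (H : Fin 3 → S) (Nv : Fin 2 → S)
    (a b : Fin 2) :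
    proj c.f a b (c.defect π ξ H Nv) =
      (∑ p, c.a p * c.a p * ((if p = b then 1 else 0) * c.dp π a p
        + (if p = a then 1 else 0) * c.dp π b p))
      + 2 * ((∑ p, (if p = a then 1 else 0) * (if p = b then 1 else 0) * (c.a p * ξ p))
        + c.e ^ 2 * (∑ q, proj c.f a b (c.E q) * ξ q) + proj c.f a b (c.BN Nv)
        - proj c.f a b H) := by
  simp only [← h.dual]
  simp only [proj, symq, defect, dp, Fin.sum_univ_two, if_true, show (1 : Fin 2) ≠ 0 by decide,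
    if_false, q1, q2, Matrix.cons_val_zero, Matrix.cons_val_one, Matrix.cons_val_two,
    Matrix.head_cons, Matrix.tail_cons]
  ring

/-- The diagonal data. -/
def rd (H : Fin 3 → S) (Nv : Fin 2 → S) (a b : Fin 2) : S :=
  proj c.f a b H - proj c.f a b (c.BN Nv)

theorem defect_zero (h : c.Ok) (π ξ : Fin 2 → S) (H : Fin 3 → S) (Nv : Fin 2 → S)
    (hξ : ∀ q, ξ q = ∑ a, c.Mi q a * (c.rd H Nv a a - c.a a * c.a a * c.dp π a a))
    (hπ : c.a 0 * c.a 0 * (c.dp π 1 0 - 2 * c.e ^ 2 * c.g 0 * c.dp π 0 0)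
        + c.a 1 * c.a 1 * (c.dp π 0 1 - 2 * c.e ^ 2 * c.g 1 * c.dp π 1 1)
      = 2 * c.rd H Nv 0 1 - 2 * c.e ^ 2 * (c.g 0 * c.rd H Nv 0 0 + c.g 1 * c.rd H Nv 1 1))
    (k : Fin 3) : c.defect π ξ H Nv k = 0 := by
  have hd := h.detM
  refine c.zero_of_proj h ?_ ?_ ?_ k <;> rw [c.proj_defect h] <;>
    simp only [Fin.sum_univ_two, hξ, Mi, g, rd, if_true, show (1 : Fin 2) ≠ 0 by decide,
      show (0 : Fin 2) ≠ 1 by decide, if_false] at hπ ⊢
  · simp only [detM, M, if_true, show (1 : Fin 2) ≠ 0 by decide,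
      show (0 : Fin 2) ≠ 1 by decide, if_false] at hd ⊢
    linear_combination 2 * (proj c.f 0 0 H - proj c.f 0 0 (c.BN Nv)
      - c.a 0 * c.a 0 * c.dp π 0 0) * hd
  · linear_combination hπ
  · simp only [detM, M, if_true, show (1 : Fin 2) ≠ 0 by decide,
      show (0 : Fin 2) ≠ 1 by decide, if_false] at hd ⊢
    linear_combination 2 * (proj c.f 1 1 H - proj c.f 1 1 (c.BN Nv)
      - c.a 1 * c.a 1 * c.dp π 1 1) * hd

end Cf

end

end Vale.Agent.P205.Solve
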