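import Vale.Agent.P205.SolverCoef

/-!
The coefficients of the linearised equation at `ε = 1 / n` and their bounds.
-/

namespace Vale.Agent.P205.Solve

noncomputable section

open Filter

theorem pd_eval (i : Fin 2) (t : ℝ) (P : Polynomial S) :
    (P.sum fun m c => Polynomial.monomial m (pd i c)).eval (cst t) = pd i (P.eval (cst t)) := by
  induction P using Polynomial.induction_on' with
  | add p r hp hr =>
    rw [Polynomial.sum_add_index _ _ _ (by simp) (by simp), Polynomial.eval_add, hp, hr,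
      Polynomial.eval_add, map_add]
  | monomial m c =>
    rw [Polynomial.sum_monomial_index _ _ (by simp), Polynomial.eval_monomial,
      Polynomial.eval_monomial, pd_mul]
    have : pd i (cst t ^ m) = 0 := by rw [cst, ← map_pow]; exact pd_cst i _
    rw [this, mul_zero, add_zero]

variable {g : Fin 3 → S} (N : Net g) (A Q : Fin 2 → Polynomial S)

/-- `1 / n`. -/
def eps (n : ℕ) : S := cst (1 / (n : ℝ))

/-- The amplitudes. -/
def av (p : Fin 2) (n : ℕ) : S := (A p).eval (eps n)

/-- The phase differentials. -/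
def wv (p i : Fin 2) (n : ℕ) : S := cst (N.per p i) + pd i ((Q p).eval (eps n))

/-- The determinant of the phase differentials. -/
def detW (n : ℕ) : S := wv N Q 0 0 n * wv N Q 1 1 n - wv N Q 0 1 n * wv N Q 1 0 n

/-- The dual frame. -/
def fv (a i : Fin 2) (n : ℕ) : S :=
  if a = 0 then (if i = 0 then wv N Q 1 1 n else -wv N Q 1 0 n) * inv' (detW N Q n)
  else (if i = 0 then -wv N Q 0 1 n else wv N Q 0 0 n) * inv' (detW N Q n)

/-- The coefficients at `ε = 1 / n`. -/
def cc (n : ℕ) : Cf where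
  e := eps n
  nn := cst n
  a p := av A p n
  ai p := inv' (av A p n)
  w p i := wv N Q p i n
  f a i := fv N Q a i n

variable {N A Q}

theorem bdd_of_eval (P : Polynomial S) (i j : Fin 2) :
    Bdd (fun n => P.eval (eps n)) ∧ Bdd (fun n => pd i (P.eval (eps n))) ∧
      Bdd (fun n => pd i (pd j (P.eval (eps n)))) ∧
      Small (fun n => P.eval (eps n) - P.coeff 0) ∧
      Small (fun n => pd i (P.eval (eps n)) - pd i (P.coeff 0)) := by
  obtain ⟨B, hB⟩ := exists_eval_bound 4 P
  have hB0 : 0 ≤ B := (nrm_nonneg _ _).trans (hB 0 (by simp)).1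
  have h : ∀ᶠ n : ℕ in atTop, nrm 4 (P.eval (eps n)) ≤ B ∧
      nrm 4 (P.eval (eps n) - P.coeff 0) ≤ B / n := by
    filter_upwards [eventually_ge_atTop 1] with n hn
    have h1 : (1 : ℝ) ≤ n := by exact_mod_cast hn
    have habs : |1 / (n : ℝ)| = 1 / n := abs_of_nonneg (by positivity)
    obtain ⟨b1, b2⟩ := hB (1 / n) (by rw [habs, div_le_one (by linarith)]; exact h1)
    refine ⟨b1, b2.trans (le_of_eq ?_)⟩
    rw [habs]; ring
  refine ⟨⟨B, hB0, h.mono fun n hn => (nrm_mono (by norm_num) _).trans hn.1⟩,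
    ⟨7 * B, by positivity, h.mono fun n hn => ?_⟩,
    ⟨7 * (7 * B), by positivity, h.mono fun n hn => ?_⟩,
    ⟨B, hB0, h.mono fun n hn => (nrm_mono (by norm_num) _).trans hn.2⟩,
    ⟨7 * B, by positivity, h.mono fun n hn => ?_⟩⟩
  · exact (nrm_pd 2 i _).trans (mul_le_mul_of_nonneg_left
      ((nrm_mono (by norm_num) _).trans hn.1) (by norm_num))
  · refine (nrm_pd 2 i _).trans (mul_le_mul_of_nonneg_left ?_ (by norm_num))
    exact (nrm_pd 3 j _).trans (mul_le_mul_of_nonneg_left hn.1 (by norm_num))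
  · show nrm 2 (pd i _ - pd i _) ≤ _
    rw [← map_sub, mul_div_assoc]
    exact (nrm_pd 2 i _).trans (mul_le_mul_of_nonneg_left
      ((nrm_mono (by norm_num) _).trans hn.2) (by norm_num))

theorem Bdd.sum2 {u : Fin 2 → ℕ → S} (h : ∀ i, Bdd (u i)) : Bdd fun n => ∑ i, u i n := by
  simpa only [Fin.sum_univ_two] using (h 0).add (h 1)

theorem bdd_eps_sq : Bdd fun n => eps n ^ 2 := by
  simpa only [sq, eps] using Bdd.eps.mul Bdd.eps

theorem small_eps_sq : Small fun n => eps n ^ 2 := by
  simpa only [sq, eps] using Small.eps.mul Bdd.eps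

section Bounds

variable (hA : ∀ p, (A p).coeff 0 = N.amp p) (hQ : ∀ p, (Q p).coeff 0 = N.ph p)

theorem bdd_w (p i : Fin 2) : Bdd (wv N Q p i) :=
  (Bdd.const (cst (N.per p i))).add (bdd_of_eval (Q p) i i).2.1

theorem bdd_dw (p i j : Fin 2) : Bdd fun n => pd j (wv N Q p i n) := by
  simpa only [wv, map_add, pd_cst, zero_add] using (bdd_of_eval (Q p) j i).2.2.1

include hQ in
theorem small_w (p i : Fin 2) :
    Small fun n => wv N Q p i n - (cst (N.per p i) + pd i (N.ph p)) := by
  simpa only [wv, add_sub_add_left_eq_sub, hQ] using (bdd_of_eval (Q p) i i).2.2.2.2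

include hQ in
theorem det_facts : (∀ᶠ n in atTop, detW N Q n * inv' (detW N Q n) = 1) ∧
    ∀ a i, Bdd (fv N Q a i) ∧ Small fun n => fv N Q a i n - N.frame a i := by
  set W : Fin 2 → Fin 2 → S := fun p i => cst (N.per p i) + pd i (N.ph p) with hW
  set e₀ := N.frame 0 0 * N.frame 1 1 - N.frame 0 1 * N.frame 1 0 with he₀
  have d00 := N.dual 0 0
  have d01 := N.dual 0 1
  have d10 := N.dual 1 0
  have d11 := N.dual 1 1
  simp only [Fin.sum_univ_two, if_true, show (1 : Fin 2) ≠ 0 by decide,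
    show (0 : Fin 2) ≠ 1 by decide, if_false] at d00 d01 d10 d11
  have h₀ : (W 0 0 * W 1 1 - W 0 1 * W 1 0) * e₀ = 1 := by
    simp only [hW, he₀]
    linear_combination ((cst (N.per 1 0) + pd 0 (N.ph 1)) * N.frame 1 0
      + (cst (N.per 1 1) + pd 1 (N.ph 1)) * N.frame 1 1) * d00 + d11
      - ((cst (N.per 1 0) + pd 0 (N.ph 1)) * N.frame 0 0
      + (cst (N.per 1 1) + pd 1 (N.ph 1)) * N.frame 0 1) * d01
  have hd : Small fun n => detW N Q n - (W 0 0 * W 1 1 - W 0 1 * W 1 0) := by
    refine ((((small_w hQ 0 0).mul (bdd_w (N := N) (Q := Q) 1 1)).add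
      (Small.mul_left (Bdd.const (W 0 0)) (small_w hQ 1 1))).sub
      (((small_w hQ 0 1).mul (bdd_w (N := N) (Q := Q) 1 0)).add
      (Small.mul_left (Bdd.const (W 0 1)) (small_w hQ 1 0)))).congr
      (Eventually.of_forall fun n => ?_)
    simp only [detW, hW]
    ring
  obtain ⟨h1, h2, h3⟩ := inv_family h₀ hd
  refine ⟨h1, fun a i => ?_⟩
  have hs : ∀ (u : ℕ → S) (u₀ : S), Bdd u → Small (fun n => u n - u₀) → u₀ * e₀ = N.frame a i →
      Bdd (fun n => u n * inv' (detW N Q n)) ∧
        Small fun n => u n * inv' (detW N Q n) - N.frame a i := by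
    intro u u₀ hu hs he
    refine ⟨hu.mul h2, ((hs.mul h2).add (Small.mul_left (Bdd.const u₀) h3)).congr
      (Eventually.of_forall fun n => ?_)⟩
    linear_combination -he
  have n0 : ∀ p j, Small fun n => -wv N Q p j n - -W p j := fun p j => by
    refine (small_w hQ p j).neg.congr (Eventually.of_forall fun n => ?_)
    simp only [hW]; ring
  fin_cases a <;> fin_cases i <;> simp only [Fin.zero_eta, Fin.mk_one, Fin.isValue] at hs ⊢
  · exact hs _ (W 1 1) (bdd_w (N := N) (Q := Q) 1 1) (small_w hQ 1 1) (by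
      simp only [hW, he₀]
      linear_combination N.frame 0 0 * d11 - N.frame 1 0 * d10)
  · exact hs _ (-W 1 0) (bdd_w (N := N) (Q := Q) 1 0).neg (n0 1 0) (by
      simp only [hW, he₀]
      linear_combination N.frame 0 1 * d11 - N.frame 1 1 * d10)
  · exact hs _ (-W 0 1) (bdd_w (N := N) (Q := Q) 0 1).neg (n0 0 1) (by
      simp only [hW, he₀]
      linear_combination N.frame 1 0 * d00 - N.frame 0 0 * d01)
  · exact hs _ (W 0 0) (bdd_w (N := N) (Q := Q) 0 0) (small_w hQ 0 0) (by
      simp only [hW, he₀]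
      linear_combination N.frame 1 1 * d00 - N.frame 0 1 * d01)

include hA in
theorem amp_facts (p : Fin 2) : (∀ᶠ n in atTop, av A p n * inv' (av A p n) = 1) ∧
    Bdd (fun n => inv' (av A p n)) ∧ Small fun n => av A p n - N.amp p := by
  have h : Small fun n => av A p n - N.amp p := by
    simpa only [av, hA] using (bdd_of_eval (A p) 0 0).2.2.2.1
  obtain ⟨h1, h2, -⟩ := inv_family (N.amp_inv p) h
  exact ⟨h1, h2, h⟩

theorem bdd_a (p : Fin 2) : Bdd (av A p) := (bdd_of_eval (A p) 0 0).1

include hA hQ in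
theorem bdd_B (p i j : Fin 2) :
    Bdd (fun n => (cc N A Q n).B p i j * (cc N A Q n).ai p) := by
  simp only [Cf.B, cc]
  exact ((((bdd_dw p j i).mul (bdd_a p)).add ((bdd_w p j).mul (bdd_of_eval (A p) i i).2.1)).add
    ((bdd_w p i).mul (bdd_of_eval (A p) j j).2.1)).mul (amp_facts hA p).2.1

include hQ in
theorem bdd_cf (p q : Fin 2) : Bdd fun n => (cc N A Q n).cf p q := by
  simp only [Cf.cf, cc]
  exact Bdd.sum2 fun j => ((det_facts hQ).2 p j).1.mul (bdd_of_eval (A q) j j).2.1

include hA hQ in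
theorem bdd_E (q : Fin 2) (k : Fin 3) : Bdd fun n => (cc N A Q n).E q k := by
  simp only [Cf.E]
  exact (bdd_of_eval (A q) (q1 k) (q2 k)).2.2.1.neg.add
    (Bdd.sum2 fun p => (bdd_B hA hQ p _ _).mul (bdd_cf hQ p q))

include hA hQ in
theorem bdd_projE (a b q : Fin 2) :
    Bdd fun n => proj (cc N A Q n).f a b ((cc N A Q n).E q) := by
  simp only [proj]
  refine Bdd.sum2 fun i => Bdd.sum2 fun j => ?_
  refine Bdd.mul (((det_facts hQ).2 a i).1.mul ((det_facts hQ).2 b j).1) ?_
  fin_cases i <;> fin_cases j <;> exact bdd_E hA hQ q _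

include hA hQ in
theorem M_facts : (∀ᶠ n in atTop, (cc N A Q n).detM * inv' (cc N A Q n).detM = 1) ∧
    ∀ q a, Bdd fun n => (cc N A Q n).Mi q a := by
  have hM : ∀ a q, Small fun n => (cc N A Q n).M a q - if a = q then N.amp a else 0 := by
    intro a q
    have h2 : Small fun n => (cc N A Q n).e ^ 2 * proj (cc N A Q n).f a a ((cc N A Q n).E q) :=
      small_eps_sq.mul (bdd_projE hA hQ a a q)
    by_cases h : a = q
    · refine ((amp_facts hA a).2.2.add h2).congr (Eventually.of_forall fun n => ?_)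
      simp only [Cf.M, if_pos h]
      show av A a n - N.amp a + _ = av A a n + _ - N.amp a
      ring
    · refine h2.congr (Eventually.of_forall fun n => ?_)
      simp only [Cf.M, if_neg h]
      ring
  have hMb : ∀ a q, Bdd fun n => (cc N A Q n).M a q := fun a q => by
    simpa using (hM a q).bdd.add (Bdd.const (if a = q then N.amp a else 0))
  have h₀ : N.amp 0 * N.amp 1 * (N.ampInv 0 * N.ampInv 1) = 1 := by
    linear_combination (N.amp 1 * N.ampInv 1) * N.amp_inv 0 + N.amp_inv 1
  have hd : Small fun n => (cc N A Q n).detM - N.amp 0 * N.amp 1 := by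
    refine ((((hM 0 0).mul (hMb 1 1)).add (Small.mul_left (Bdd.const (N.amp 0)) (hM 1 1))).sub
      ((hM 0 1).mul (hMb 1 0))).congr (Eventually.of_forall fun n => ?_)
    simp only [Cf.detM, if_true, show (0 : Fin 2) ≠ 1 by decide, if_false]
    ring
  obtain ⟨h1, h2, -⟩ := inv_family h₀ hd
  refine ⟨h1, fun q a => ?_⟩
  simp only [Cf.Mi]
  refine h2.mul ?_
  fin_cases q <;> fin_cases a
  · exact hMb 1 1
  · exact (hMb 0 1).neg
  · exact (hMb 1 0).neg
  · exact hMb 0 0

include hA hQ in
theorem bdd_g (a : Fin 2) : Bdd fun n => (cc N A Q n).g a := by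
  simp only [Cf.g]
  exact Bdd.sum2 fun q => (bdd_projE hA hQ 0 1 q).mul ((M_facts hA hQ).2 q a)

include hA hQ in
theorem eventually_ok : ∀ᶠ n in atTop, (cc N A Q n).Ok := by
  filter_upwards [eventually_ge_atTop 1, (det_facts hQ).1, (amp_facts hA 0).1, (amp_facts hA 1).1,
    (M_facts hA hQ).1] with n hn hD h0 h1 hM
  refine ⟨?_, ?_, ?_, ?_, ?_, fun i => pd_cst i _, hM⟩
  · have : (n : ℝ) ≠ 0 := by exact_mod_cast (by omega : n ≠ 0)
    show cst (n : ℝ) * cst (1 / (n : ℝ)) = 1
    rw [cst, cst, ← map_mul, mul_one_div_cancel this, map_one]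
  · intro p; fin_cases p <;> assumption
  · intro p a
    simp only [detW] at hD
    fin_cases p <;> fin_cases a <;>
      simp only [cc, fv, detW, Fin.sum_univ_two, Fin.zero_eta, Fin.mk_one, Fin.isValue, if_true,
        show (1 : Fin 2) ≠ 0 by decide, show (0 : Fin 2) ≠ 1 by decide, if_false] <;>
      first | linear_combination hD | ring
  · intro i j
    simp only [detW] at hD
    fin_cases i <;> fin_cases j <;>
      simp only [cc, fv, detW, Fin.sum_univ_two, Fin.zero_eta, Fin.mk_one, Fin.isValue, if_true,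
        show (1 : Fin 2) ≠ 0 by decide, show (0 : Fin 2) ≠ 1 by decide, if_false] <;>
      first | linear_combination hD | ring
  · intro p i j
    simp only [cc, wv, map_add, pd_cst, zero_add]
    exact pd_comm i j _

end Bounds

end

end Vale.Agent.P205.Solve
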