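import Vale.Agent.P205.FourierAux

/-!
From a periodic conformal parametrisation to a global diffeomorphism of the torus onto a flat one.
-/

namespace Vale.Agent.P205

noncomputable section

open scoped Topology
open Filter

/-- A local homeomorphism of the plane at bounded distance from the identity is bijective. -/
theorem bijective_of_bounded {W : ℝ × ℝ → ℝ × ℝ} (hW : IsLocalHomeomorph W) {B : ℝ}
    (hB : ∀ X, ‖W X - X‖ ≤ B) : Function.Bijective W := by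
  have hc : Continuous W := hW.continuous
  have hclosed : IsClosedMap W := by
    intro C hC
    refine IsSeqClosed.isClosed fun y q hy hq => ?_
    choose x hx hxy using hy
    obtain ⟨R, hR⟩ := hq.norm.isBoundedUnder_le
    have hR' : ∀ᶠ n in atTop, x n ∈ Metric.closedBall (0 : ℝ × ℝ) (R + B) := by
      filter_upwards [hR] with n hn
      rw [mem_closedBall_zero_iff]
      calc ‖x n‖ = ‖y n - (W (x n) - x n)‖ := by rw [hxy]; simp
        _ ≤ ‖y n‖ + ‖W (x n) - x n‖ := norm_sub_le _ _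
        _ ≤ R + B := add_le_add hn (hB _)
    obtain ⟨z, -, φ, hφ, hz⟩ :=
      tendsto_subseq_of_frequently_bounded Metric.isBounded_closedBall hR'.frequently
    refine ⟨z, hC.mem_of_tendsto hz (Eventually.of_forall fun n => hx _), ?_⟩
    refine tendsto_nhds_unique ((hc.tendsto z).comp hz) ?_
    refine (hq.comp hφ.tendsto_atTop).congr fun n => ?_
    simp [hxy]
  have hcov : IsCoveringMap W := by
    rw [isCoveringMap_iff_isCoveringMapOn_univ]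
    intro y _
    have h : ∀ e ∈ W ⁻¹' {y}, ∃ φ : OpenPartialHomeomorph (ℝ × ℝ) (ℝ × ℝ),
        e ∈ φ.source ∧ φ = W := fun e _ => by
      obtain ⟨φ, hφ, hWφ⟩ := hW e
      exact ⟨φ, hφ, hWφ.symm⟩
    have hcompact : IsCompact (W ⁻¹' {y}) := by
      refine Metric.isCompact_of_isClosed_isBounded (isClosed_singleton.preimage hc)
        (Metric.isBounded_closedBall (x := (0 : ℝ × ℝ)) (r := ‖y‖ + B) |>.subset fun x hx => ?_)
      rw [mem_closedBall_zero_iff]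
      calc ‖x‖ = ‖y - (W x - x)‖ := by rw [show W x = y from hx]; simp
        _ ≤ ‖y‖ + ‖W x - x‖ := norm_sub_le _ _
        _ ≤ ‖y‖ + B := add_le_add le_rfl (hB _)
    exact hclosed.isEvenlyCovered_of_openPartialHomeomorph
      (hcompact.finite (.of_openPartialHomeomorph W subset_rfl h)) h
  obtain ⟨x0, hx0⟩ : ∃ x0, W x0 = W 0 := ⟨0, rfl⟩
  have lifts : ∀ x : ℝ × ℝ, ∃ F : C(ℝ × ℝ, ℝ × ℝ), F (W x) = x ∧ W ∘ F = id := fun x => by
    obtain ⟨F, hF, -⟩ :=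
      hcov.existsUnique_continuousMap_lifts (ContinuousMap.id _) (W x) x rfl
    exact ⟨F, hF⟩
  refine ⟨fun x₁ x₂ h => ?_, fun y => ?_⟩
  · obtain ⟨F, hF1, hF2⟩ := lifts x₁
    obtain ⟨G, -, hG⟩ := hcov.existsUnique_continuousMap_lifts ⟨W, hc⟩ x₁ x₁ rfl
    have h1 := hG (ContinuousMap.id _) ⟨rfl, rfl⟩
    have h2 := hG (F.comp ⟨W, hc⟩) ⟨hF1, by
      funext z
      exact congrFun hF2 (W z)⟩
    have h3 := congrArg (fun H : C(ℝ × ℝ, ℝ × ℝ) => H x₂) (h2.trans h1.symm)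
    simp only [ContinuousMap.comp_apply, ContinuousMap.coe_mk, ContinuousMap.id_apply] at h3
    rw [← h, hF1] at h3
    exact h3
  · obtain ⟨F, -, hF2⟩ := lifts 0
    exact ⟨F y, congrFun hF2 y⟩

theorem exists_max (f : S) : ∃ X, IsMaxOn f.1 Set.univ X := by
  obtain ⟨X, -, hX⟩ := (isCompact_Icc.prod isCompact_Icc : IsCompact
    (Set.Icc (0 : ℝ) 1 ×ˢ Set.Icc (0 : ℝ) 1)).exists_isMaxOn
      ⟨(0, 0), by simp⟩ f.continuous.continuousOn
  refine ⟨X, fun Y _ => ?_⟩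
  have hY : f.1 Y = f.1 (Int.fract Y.1, Int.fract Y.2) := by
    have := f.periodic (Int.fract Y.1, Int.fract Y.2) ⌊Y.1⌋ ⌊Y.2⌋
    simpa [Int.fract_add_floor] using this
  show f.1 Y ≤ f.1 X
  rw [hY]
  exact hX ⟨⟨Int.fract_nonneg _, (Int.fract_lt_one _).le⟩,
    Int.fract_nonneg _, (Int.fract_lt_one _).le⟩

/-- The Jacobian matrix of a conformal parametrisation. -/
def jac (P : Fin 2 → Fin 2 → ℝ) (ψ : Fin 2 → S) (X : ℝ × ℝ) (p i : Fin 2) : ℝ :=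
  P p i + (pd i (ψ p)).1 X

theorem fderiv_eq_pd (f : S) (X v : ℝ × ℝ) :
    fderiv ℝ f.1 X v = v.1 * (pd 0 f).1 X + v.2 * (pd 1 f).1 X := by
  have : v = v.1 • unitV 0 + v.2 • unitV 1 := by simp [unitV]
  conv_lhs => rw [this, map_add, map_smul, map_smul]
  rfl

/-- A conformal parametrisation is a diffeomorphism of the torus onto a flat torus. -/
theorem exists_conformal_of_param (g : Fin 3 → S)
    (hd : ∀ X, (g 1).1 X ^ 2 < (g 0).1 X * (g 2).1 X)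
    (P : Fin 2 → Fin 2 → ℝ) (ψ : Fin 2 → S) (r : S) (hr : ∀ X, 0 < r.1 X)
    (hg : ∀ q, g q = r * ∑ p, (cst (P p (q1 q)) + pd (q1 q) (ψ p)) *
      (cst (P p (q2 q)) + pd (q2 q) (ψ p))) :
    ∃ (ρ : S) (a b c : ℝ) (Φ : ℝ × ℝ → ℝ × ℝ),
      (∀ X, 0 < ρ.1 X) ∧ 0 < a ∧ b ^ 2 < a * c ∧ ContDiff ℝ (⊤ : ℕ∞) Φ ∧
      Function.Bijective Φ ∧
      (∀ (X : ℝ × ℝ) (m n : ℤ), Φ (X.1 + m, X.2 + n) = ((Φ X).1 + m, (Φ X).2 + n)) ∧
      ∀ X v w : ℝ × ℝ,
        (g 0).1 X * (v.1 * w.1) + (g 1).1 X * (v.1 * w.2 + v.2 * w.1)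
          + (g 2).1 X * (v.2 * w.2)
        = ρ.1 (Φ X) * (a * ((fderiv ℝ Φ X v).1 * (fderiv ℝ Φ X w).1)
          + b * ((fderiv ℝ Φ X v).1 * (fderiv ℝ Φ X w).2
            + (fderiv ℝ Φ X v).2 * (fderiv ℝ Φ X w).1)
          + c * ((fderiv ℝ Φ X v).2 * (fderiv ℝ Φ X w).2)) := by
  have hgX : ∀ q X, (g q).1 X = r.1 X *
      (jac P ψ X 0 (q1 q) * jac P ψ X 0 (q2 q) + jac P ψ X 1 (q1 q) * jac P ψ X 1 (q2 q)) := by
    intro q X
    rw [hg q, Fin.sum_univ_two]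
    rfl
  have hg0 : ∀ X, (g 0).1 X = r.1 X * (jac P ψ X 0 0 ^ 2 + jac P ψ X 1 0 ^ 2) := fun X => by
    rw [hgX]; simp [q1, q2, sq]
  have hg1 : ∀ X, (g 1).1 X
      = r.1 X * (jac P ψ X 0 0 * jac P ψ X 0 1 + jac P ψ X 1 0 * jac P ψ X 1 1) := fun X => by
    rw [hgX]; simp [q1, q2]
  have hg2 : ∀ X, (g 2).1 X = r.1 X * (jac P ψ X 0 1 ^ 2 + jac P ψ X 1 1 ^ 2) := fun X => by
    rw [hgX]; simp [q1, q2, sq]
  have hJ : ∀ X, jac P ψ X 0 0 * jac P ψ X 1 1 - jac P ψ X 0 1 * jac P ψ X 1 0 ≠ 0 := by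
    intro X h
    have := hd X
    rw [hg0, hg1, hg2] at this
    have e : (r.1 X * (jac P ψ X 0 0 ^ 2 + jac P ψ X 1 0 ^ 2)) *
        (r.1 X * (jac P ψ X 0 1 ^ 2 + jac P ψ X 1 1 ^ 2)) -
        (r.1 X * (jac P ψ X 0 0 * jac P ψ X 0 1 + jac P ψ X 1 0 * jac P ψ X 1 1)) ^ 2 =
        r.1 X ^ 2 * (jac P ψ X 0 0 * jac P ψ X 1 1 - jac P ψ X 0 1 * jac P ψ X 1 0) ^ 2 := by
      ring
    rw [h] at e
    linarith
  have key : ∀ u₀ u₁ : ℝ, u₀ * P 0 0 + u₁ * P 1 0 = 0 → u₀ * P 0 1 + u₁ * P 1 1 = 0 →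
      u₀ = 0 ∧ u₁ = 0 := by
    intro u₀ u₁ h0 h1
    obtain ⟨X, hX⟩ := exists_max (cst u₀ * ψ 0 + cst u₁ * ψ 1)
    have hz : ∀ i, (pd i (cst u₀ * ψ 0 + cst u₁ * ψ 1)).1 X = 0 := fun i => by
      rw [pd_apply, (hX.isLocalMax Filter.univ_mem).fderiv_eq_zero]
      rfl
    have hz' : ∀ i, u₀ * (pd i (ψ 0)).1 X + u₁ * (pd i (ψ 1)).1 X = 0 := fun i => by
      have := hz i
      rw [map_add, cst_mul, cst_mul, map_smul, map_smul] at this
      exact this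
    have ha := hz' 0
    have hb := hz' 1
    constructor
    · refine (mul_eq_zero.1 ?_).resolve_right (hJ X)
      unfold jac
      linear_combination (P 1 1 + (pd 1 (ψ 1)).1 X) * (h0 + ha)
        - (P 1 0 + (pd 0 (ψ 1)).1 X) * (h1 + hb)
    · refine (mul_eq_zero.1 ?_).resolve_right (hJ X)
      unfold jac
      linear_combination (P 0 0 + (pd 0 (ψ 0)).1 X) * (h1 + hb)
        - (P 0 1 + (pd 1 (ψ 0)).1 X) * (h0 + ha)
  set D : ℝ := P 0 0 * P 1 1 - P 0 1 * P 1 0 with hD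
  have hD0 : D ≠ 0 := by
    intro h
    rw [hD] at h
    obtain ⟨e1, e0⟩ := key (P 1 1) (-P 0 1) (by linear_combination h) (by ring)
    obtain ⟨e3, e2⟩ := key (P 1 0) (-P 0 0) (by ring) (by linear_combination -h)
    exact one_ne_zero (key 1 0 (by linarith) (by linarith)).1
  set u : S := (P 1 1 / D) • ψ 0 + (-P 0 1 / D) • ψ 1 with hu
  set t : S := (-P 1 0 / D) • ψ 0 + (P 0 0 / D) • ψ 1 with ht
  let W : ℝ × ℝ → ℝ × ℝ := fun X => (X.1 + u.1 X, X.2 + t.1 X)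
  have hWs : ContDiff ℝ (⊤ : ℕ∞) W :=
    (contDiff_fst.add u.smooth).prodMk (contDiff_snd.add t.smooth)
  let DW : ℝ × ℝ → ℝ × ℝ →L[ℝ] ℝ × ℝ := fun X =>
    ((ContinuousLinearMap.fst ℝ ℝ ℝ) + fderiv ℝ u.1 X).prod
      ((ContinuousLinearMap.snd ℝ ℝ ℝ) + fderiv ℝ t.1 X)
  have hDW : ∀ X, HasFDerivAt W (DW X) X := fun X =>
    (hasFDerivAt_fst.add ((u.smooth.differentiable (by simp) X).hasFDerivAt)).prodMk
      (hasFDerivAt_snd.add ((t.smooth.differentiable (by simp) X).hasFDerivAt))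
  have hpdu : ∀ i X, (pd i u).1 X =
      P 1 1 / D * (pd i (ψ 0)).1 X + -P 0 1 / D * (pd i (ψ 1)).1 X := fun i X => by
    rw [hu, map_add, map_smul, map_smul]; rfl
  have hpdt : ∀ i X, (pd i t).1 X =
      -P 1 0 / D * (pd i (ψ 0)).1 X + P 0 0 / D * (pd i (ψ 1)).1 X := fun i X => by
    rw [ht, map_add, map_smul, map_smul]; rfl
  have hPW : ∀ X v p, P p 0 * (DW X v).1 + P p 1 * (DW X v).2
      = jac P ψ X p 0 * v.1 + jac P ψ X p 1 * v.2 := by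
    intro X v p
    have e1 : (DW X v).1 = v.1 + (v.1 * (pd 0 u).1 X + v.2 * (pd 1 u).1 X) := by
      rw [← fderiv_eq_pd]; rfl
    have e2 : (DW X v).2 = v.2 + (v.1 * (pd 0 t).1 X + v.2 * (pd 1 t).1 X) := by
      rw [← fderiv_eq_pd]; rfl
    rw [e1, e2, hpdu, hpdu, hpdt, hpdt, jac, jac]
    fin_cases p <;> simp only [Fin.zero_eta, Fin.mk_one] <;> field_simp <;> rw [hD] <;> ring
  have hker : ∀ X v, DW X v = 0 → v = 0 := by
    intro X v h
    have a0 := hPW X v 0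
    have a1 := hPW X v 1
    simp only [h, Prod.fst_zero, Prod.snd_zero, mul_zero, add_zero] at a0 a1
    refine Prod.ext ?_ ?_
    · refine (mul_eq_zero.1 ?_).resolve_right (hJ X)
      linear_combination jac P ψ X 0 1 * a1 - jac P ψ X 1 1 * a0
    · refine (mul_eq_zero.1 ?_).resolve_right (hJ X)
      linear_combination jac P ψ X 1 0 * a0 - jac P ψ X 0 0 * a1
  let eDW : ∀ X, (ℝ × ℝ) ≃L[ℝ] (ℝ × ℝ) := fun X =>
    (LinearEquiv.ofInjectiveEndo (DW X : ℝ × ℝ →ₗ[ℝ] ℝ × ℝ)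
      ((injective_iff_map_eq_zero _).2 (hker X))).toContinuousLinearEquiv
  have heDW : ∀ X, (eDW X : ℝ × ℝ →L[ℝ] ℝ × ℝ) = DW X := fun X =>
    ContinuousLinearMap.ext fun v => rfl
  have hder : ∀ X, HasFDerivAt W (eDW X : ℝ × ℝ →L[ℝ] ℝ × ℝ) X := fun X => by
    rw [heDW]; exact hDW X
  have hloc : IsLocalHomeomorph W := IsLocalHomeomorph.mk W fun X =>
    ⟨(hWs.contDiffAt).toOpenPartialHomeomorph W (hder X) (by simp),
      ContDiffAt.mem_toOpenPartialHomeomorph_source _ _ _, fun _ _ => rfl⟩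
  obtain ⟨Bu, -, hBu⟩ := exists_bound u
  obtain ⟨Bt, -, hBt⟩ := exists_bound t
  have hbij := bijective_of_bounded hloc (B := max Bu Bt) fun X => by
    simp only [W, Prod.norm_def, Prod.fst_sub, Prod.snd_sub, add_sub_cancel_left, Real.norm_eq_abs]
    exact max_le_max (hBu X) (hBt X)
  let e : (ℝ × ℝ) ≃ₜ (ℝ × ℝ) :=
    (Equiv.ofBijective W hbij).toHomeomorphOfContinuousOpen hloc.continuous hloc.isOpenMap
  have he : ⇑e = W := rfl
  have hWper : ∀ (X : ℝ × ℝ) (m n : ℤ), W (X.1 + m, X.2 + n) = ((W X).1 + m, (W X).2 + n) := by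
    intro X m n
    simp only [W, u.periodic X m n, t.periodic X m n, Prod.mk.injEq]
    constructor <;> ring
  have hsymm : ContDiff ℝ (⊤ : ℕ∞) (r.1 ∘ e.symm) :=
    r.smooth.comp (e.contDiff_symm (f₀' := eDW) (fun X => hder X) (he ▸ hWs))
  have hper : Periodic2 (r.1 ∘ e.symm) := by
    intro Y m n
    have : e.symm (Y.1 + m, Y.2 + n) = ((e.symm Y).1 + m, (e.symm Y).2 + n) := by
      apply e.injective
      rw [e.apply_symm_apply, he, hWper, ← he, e.apply_symm_apply]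
    rw [Function.comp_apply, Function.comp_apply, this, r.periodic]
  refine ⟨⟨r.1 ∘ e.symm, hsymm, hper⟩, P 0 0 ^ 2 + P 1 0 ^ 2,
    P 0 0 * P 0 1 + P 1 0 * P 1 1, P 0 1 ^ 2 + P 1 1 ^ 2, W, fun X => hr _, ?_, ?_, hWs, hbij,
    hWper, fun X v w => ?_⟩
  · rcases eq_or_ne (P 0 0) 0 with h | h
    · have : P 1 0 ≠ 0 := fun h' => hD0 (by rw [hD, h, h']; ring)
      positivity
    · positivity
  · have : 0 < D ^ 2 := by positivity
    rw [hD] at this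
    nlinarith
  · show _ = r.1 (e.symm (e X)) * _
    rw [e.symm_apply_apply, (hDW X).fderiv, hg0, hg1, hg2]
    have a0 := hPW X v 0
    have a1 := hPW X v 1
    have b0 := hPW X w 0
    have b1 := hPW X w 1
    linear_combination (-(r.1 X) * (jac P ψ X 0 0 * w.1 + jac P ψ X 0 1 * w.2)) * a0
      + (-(r.1 X) * (P 0 0 * (DW X v).1 + P 0 1 * (DW X v).2)) * b0
      + (-(r.1 X) * (jac P ψ X 1 0 * w.1 + jac P ψ X 1 1 * w.2)) * a1
      + (-(r.1 X) * (P 1 0 * (DW X v).1 + P 1 1 * (DW X v).2)) * b1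

end

end Vale.Agent.P205
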