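import Vale.Agent.P205.UniformParam
import Vale.Agent.P205.Beltrami
import Vale.Agent.P205.Main

/-!
Every smooth metric on the torus is conformally flat, hence immerses isometrically into `ℝ⁴`.
-/

namespace Vale.Agent.P205

noncomputable section

open scoped RealInnerProductSpace

/-- Every smooth metric on the torus is the pullback of a conformally flat one. -/
theorem exists_conformal (g : Fin 3 → S) (h0 : ∀ X, 0 < (g 0).1 X)
    (hd : ∀ X, (g 1).1 X ^ 2 < (g 0).1 X * (g 2).1 X) :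
    ∃ (ρ : S) (a b c : ℝ) (Φ : ℝ × ℝ → ℝ × ℝ),
      (∀ X, 0 < ρ.1 X) ∧ 0 < a ∧ b ^ 2 < a * c ∧ ContDiff ℝ (⊤ : ℕ∞) Φ ∧
      Function.Bijective Φ ∧
      (∀ (X : ℝ × ℝ) (m n : ℤ), Φ (X.1 + m, X.2 + n) = ((Φ X).1 + m, (Φ X).2 + n)) ∧
      ∀ X v w : ℝ × ℝ,
        (g 0).1 X * (v.1 * w.1) + (g 1).1 X * (v.1 * w.2 + v.2 * w.1)
          + (g 2).1 X * (v.2 * w.2)
        = ρ.1 (Φ X) * (a * ((fderiv ℝ Φ X v).1 * (fderiv ℝ Φ X w).1)
          + b * ((fderiv ℝ Φ X v).1 * (fderiv ℝ Φ X w).2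
            + (fderiv ℝ Φ X v).2 * (fderiv ℝ Φ X w).1)
          + c * ((fderiv ℝ Φ X v).2 * (fderiv ℝ Φ X w).2)) := by
  obtain ⟨L, ψ, lam, hlam, hmetric, -⟩ := exists_beltrami g h0 hd
  let r : S := ⟨fun X => (lam.1 X)⁻¹, lam.smooth.inv fun X => (hlam X).ne',
    fun X m n => by simp [lam.periodic X m n]⟩
  have hr : r * lam = 1 := Subtype.ext (funext fun X => inv_mul_cancel₀ (hlam X).ne')
  refine exists_conformal_of_param g hd L ψ r (fun X => inv_pos.2 (hlam X)) fun q => ?_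
  rw [← hmetric q, ← mul_assoc, hr, one_mul]

/-- Every smooth metric on the torus has a smooth isometric immersion into `ℝ⁴`. -/
theorem isometric_immersion_metric (g : Fin 3 → S) (h0 : ∀ X, 0 < (g 0).1 X)
    (hd : ∀ X, (g 1).1 X ^ 2 < (g 0).1 X * (g 2).1 X) :
    ∃ F : ℝ × ℝ → EuclideanSpace ℝ (Fin 4), ContDiff ℝ (⊤ : ℕ∞) F ∧ Periodic2 F ∧
      ∀ X v w, ⟪fderiv ℝ F X v, fderiv ℝ F X w⟫
        = (g 0).1 X * (v.1 * w.1) + (g 1).1 X * (v.1 * w.2 + v.2 * w.1)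
          + (g 2).1 X * (v.2 * w.2) := by
  obtain ⟨ρ, a, b, c, Φ, hρ, ha, hb, hΦ, -, hper, hg⟩ := exists_conformal g h0 hd
  obtain ⟨F, hF, hFp, hFi⟩ := isometric_immersion ρ.1 ρ.smooth ρ.periodic hρ a b c ha hb
  refine ⟨F ∘ Φ, hF.comp hΦ, fun X m n => ?_, fun X v w => ?_⟩
  · rw [Function.comp_apply, Function.comp_apply, hper]
    exact hFp _ m n
  · rw [fderiv_comp X (hF.differentiable (by simp) _) (hΦ.differentiable (by simp) _),
      ContinuousLinearMap.comp_apply, ContinuousLinearMap.comp_apply, hFi, hg]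

end

end Vale.Agent.P205
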